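import Vale.Agent.P048.Sat.PSL7.Db0
import Vale.Agent.P048.Sat.PSL7.Db1
import Vale.Agent.P048.Sat.PSL7.Db2
import Vale.Agent.P048.Sat.PSL7.Db3
import Vale.Agent.P048.Sat.PSL7.Db4
import Vale.Agent.P048.Sat.PSL7.Db5
import Vale.Agent.P048.Sat.PSL7.Db6

namespace Vale.Agent.P048.Sat.PSL7

open Vale.Agent.P048.Sat Vale.Agent.P048.Sat.Turbo

noncomputable def s1_3 (i sh : Nat) : Nat := Bool.rec (Nat.shiftRight leaf1 sh) (Nat.shiftRight leaf2 sh) (Nat.ble 2 i)
noncomputable def s0_3 (i sh : Nat) : Nat := Bool.rec (Nat.shiftRight leaf0 sh) (s1_3 i sh) (Nat.ble 1 i)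
noncomputable def s3_5 (i sh : Nat) : Nat := Bool.rec (Nat.shiftRight leaf3 sh) (Nat.shiftRight leaf4 sh) (Nat.ble 4 i)
noncomputable def s5_7 (i sh : Nat) : Nat := Bool.rec (Nat.shiftRight leaf5 sh) (Nat.shiftRight leaf6 sh) (Nat.ble 6 i)
noncomputable def s3_7 (i sh : Nat) : Nat := Bool.rec (s3_5 i sh) (s5_7 i sh) (Nat.ble 5 i)
noncomputable def s8_10 (i sh : Nat) : Nat := Bool.rec (Nat.shiftRight leaf8 sh) (Nat.shiftRight leaf9 sh) (Nat.ble 9 i)
noncomputable def s7_10 (i sh : Nat) : Nat := Bool.rec (Nat.shiftRight leaf7 sh) (s8_10 i sh) (Nat.ble 8 i)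
noncomputable def s11_13 (i sh : Nat) : Nat := Bool.rec (Nat.shiftRight leaf11 sh) (Nat.shiftRight leaf12 sh) (Nat.ble 12 i)
noncomputable def s10_13 (i sh : Nat) : Nat := Bool.rec (Nat.shiftRight leaf10 sh) (s11_13 i sh) (Nat.ble 11 i)
noncomputable def s7_13 (i sh : Nat) : Nat := Bool.rec (s7_10 i sh) (s10_13 i sh) (Nat.ble 10 i)
noncomputable def s3_13 (i sh : Nat) : Nat := Bool.rec (s3_7 i sh) (s7_13 i sh) (Nat.ble 7 i)
noncomputable def s13_15 (i sh : Nat) : Nat := Bool.rec (Nat.shiftRight leaf13 sh) (Nat.shiftRight leaf14 sh) (Nat.ble 14 i)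
noncomputable def s16_18 (i sh : Nat) : Nat := Bool.rec (Nat.shiftRight leaf16 sh) (Nat.shiftRight leaf17 sh) (Nat.ble 17 i)
noncomputable def s15_18 (i sh : Nat) : Nat := Bool.rec (Nat.shiftRight leaf15 sh) (s16_18 i sh) (Nat.ble 16 i)
noncomputable def s13_18 (i sh : Nat) : Nat := Bool.rec (s13_15 i sh) (s15_18 i sh) (Nat.ble 15 i)
noncomputable def s19_21 (i sh : Nat) : Nat := Bool.rec (Nat.shiftRight leaf19 sh) (Nat.shiftRight leaf20 sh) (Nat.ble 20 i)
noncomputable def s18_21 (i sh : Nat) : Nat := Bool.rec (Nat.shiftRight leaf18 sh) (s19_21 i sh) (Nat.ble 19 i)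
noncomputable def s21_23 (i sh : Nat) : Nat := Bool.rec (Nat.shiftRight leaf21 sh) (Nat.shiftRight leaf22 sh) (Nat.ble 22 i)
noncomputable def s23_25 (i sh : Nat) : Nat := Bool.rec (Nat.shiftRight leaf23 sh) (Nat.shiftRight leaf24 sh) (Nat.ble 24 i)
noncomputable def s21_25 (i sh : Nat) : Nat := Bool.rec (s21_23 i sh) (s23_25 i sh) (Nat.ble 23 i)
noncomputable def s18_25 (i sh : Nat) : Nat := Bool.rec (s18_21 i sh) (s21_25 i sh) (Nat.ble 21 i)
noncomputable def s13_25 (i sh : Nat) : Nat := Bool.rec (s13_18 i sh) (s18_25 i sh) (Nat.ble 18 i)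
noncomputable def s25_27 (i sh : Nat) : Nat := Bool.rec (Nat.shiftRight leaf25 sh) (Nat.shiftRight leaf26 sh) (Nat.ble 26 i)
noncomputable def s28_30 (i sh : Nat) : Nat := Bool.rec (Nat.shiftRight leaf28 sh) (Nat.shiftRight leaf29 sh) (Nat.ble 29 i)
noncomputable def s27_30 (i sh : Nat) : Nat := Bool.rec (Nat.shiftRight leaf27 sh) (s28_30 i sh) (Nat.ble 28 i)
noncomputable def s25_30 (i sh : Nat) : Nat := Bool.rec (s25_27 i sh) (s27_30 i sh) (Nat.ble 27 i)
noncomputable def s30_32 (i sh : Nat) : Nat := Bool.rec (Nat.shiftRight leaf30 sh) (Nat.shiftRight leaf31 sh) (Nat.ble 31 i)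
noncomputable def s33_35 (i sh : Nat) : Nat := Bool.rec (Nat.shiftRight leaf33 sh) (Nat.shiftRight leaf34 sh) (Nat.ble 34 i)
noncomputable def s32_35 (i sh : Nat) : Nat := Bool.rec (Nat.shiftRight leaf32 sh) (s33_35 i sh) (Nat.ble 33 i)
noncomputable def s30_35 (i sh : Nat) : Nat := Bool.rec (s30_32 i sh) (s32_35 i sh) (Nat.ble 32 i)
noncomputable def s25_35 (i sh : Nat) : Nat := Bool.rec (s25_30 i sh) (s30_35 i sh) (Nat.ble 30 i)
noncomputable def s36_38 (i sh : Nat) : Nat := Bool.rec (Nat.shiftRight leaf36 sh) (Nat.shiftRight leaf37 sh) (Nat.ble 37 i)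
noncomputable def s35_38 (i sh : Nat) : Nat := Bool.rec (Nat.shiftRight leaf35 sh) (s36_38 i sh) (Nat.ble 36 i)
noncomputable def s38_40 (i sh : Nat) : Nat := Bool.rec (Nat.shiftRight leaf38 sh) (Nat.shiftRight leaf39 sh) (Nat.ble 39 i)
noncomputable def s40_42 (i sh : Nat) : Nat := Bool.rec (Nat.shiftRight leaf40 sh) (Nat.shiftRight leaf41 sh) (Nat.ble 41 i)
noncomputable def s38_42 (i sh : Nat) : Nat := Bool.rec (s38_40 i sh) (s40_42 i sh) (Nat.ble 40 i)
noncomputable def s35_42 (i sh : Nat) : Nat := Bool.rec (s35_38 i sh) (s38_42 i sh) (Nat.ble 38 i)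
noncomputable def s42_44 (i sh : Nat) : Nat := Bool.rec (Nat.shiftRight leaf42 sh) (Nat.shiftRight leaf43 sh) (Nat.ble 43 i)
noncomputable def s44_46 (i sh : Nat) : Nat := Bool.rec (Nat.shiftRight leaf44 sh) (Nat.shiftRight leaf45 sh) (Nat.ble 45 i)
noncomputable def s42_46 (i sh : Nat) : Nat := Bool.rec (s42_44 i sh) (s44_46 i sh) (Nat.ble 44 i)
noncomputable def s46_48 (i sh : Nat) : Nat := Bool.rec (Nat.shiftRight leaf46 sh) (Nat.shiftRight leaf47 sh) (Nat.ble 47 i)
noncomputable def s49_51 (i sh : Nat) : Nat := Bool.rec (Nat.shiftRight leaf49 sh) (Nat.shiftRight leaf50 sh) (Nat.ble 50 i)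
noncomputable def s48_51 (i sh : Nat) : Nat := Bool.rec (Nat.shiftRight leaf48 sh) (s49_51 i sh) (Nat.ble 49 i)
noncomputable def s46_51 (i sh : Nat) : Nat := Bool.rec (s46_48 i sh) (s48_51 i sh) (Nat.ble 48 i)
noncomputable def s42_51 (i sh : Nat) : Nat := Bool.rec (s42_46 i sh) (s46_51 i sh) (Nat.ble 46 i)
noncomputable def s35_51 (i sh : Nat) : Nat := Bool.rec (s35_42 i sh) (s42_51 i sh) (Nat.ble 42 i)
noncomputable def s25_51 (i sh : Nat) : Nat := Bool.rec (s25_35 i sh) (s35_51 i sh) (Nat.ble 35 i)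
noncomputable def s13_51 (i sh : Nat) : Nat := Bool.rec (s13_25 i sh) (s25_51 i sh) (Nat.ble 25 i)
noncomputable def s3_51 (i sh : Nat) : Nat := Bool.rec (s3_13 i sh) (s13_51 i sh) (Nat.ble 13 i)
noncomputable def s52_54 (i sh : Nat) : Nat := Bool.rec (Nat.shiftRight leaf52 sh) (Nat.shiftRight leaf53 sh) (Nat.ble 53 i)
noncomputable def s51_54 (i sh : Nat) : Nat := Bool.rec (Nat.shiftRight leaf51 sh) (s52_54 i sh) (Nat.ble 52 i)
noncomputable def s55_57 (i sh : Nat) : Nat := Bool.rec (Nat.shiftRight leaf55 sh) (Nat.shiftRight leaf56 sh) (Nat.ble 56 i)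
noncomputable def s54_57 (i sh : Nat) : Nat := Bool.rec (Nat.shiftRight leaf54 sh) (s55_57 i sh) (Nat.ble 55 i)
noncomputable def s51_57 (i sh : Nat) : Nat := Bool.rec (s51_54 i sh) (s54_57 i sh) (Nat.ble 54 i)
noncomputable def s58_60 (i sh : Nat) : Nat := Bool.rec (Nat.shiftRight leaf58 sh) (Nat.shiftRight leaf59 sh) (Nat.ble 59 i)
noncomputable def s57_60 (i sh : Nat) : Nat := Bool.rec (Nat.shiftRight leaf57 sh) (s58_60 i sh) (Nat.ble 58 i)
noncomputable def s61_63 (i sh : Nat) : Nat := Bool.rec (Nat.shiftRight leaf61 sh) (Nat.shiftRight leaf62 sh) (Nat.ble 62 i)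
noncomputable def s60_63 (i sh : Nat) : Nat := Bool.rec (Nat.shiftRight leaf60 sh) (s61_63 i sh) (Nat.ble 61 i)
noncomputable def s57_63 (i sh : Nat) : Nat := Bool.rec (s57_60 i sh) (s60_63 i sh) (Nat.ble 60 i)
noncomputable def s51_63 (i sh : Nat) : Nat := Bool.rec (s51_57 i sh) (s57_63 i sh) (Nat.ble 57 i)
noncomputable def s64_66 (i sh : Nat) : Nat := Bool.rec (Nat.shiftRight leaf64 sh) (Nat.shiftRight leaf65 sh) (Nat.ble 65 i)
noncomputable def s63_66 (i sh : Nat) : Nat := Bool.rec (Nat.shiftRight leaf63 sh) (s64_66 i sh) (Nat.ble 64 i)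
noncomputable def s66_68 (i sh : Nat) : Nat := Bool.rec (Nat.shiftRight leaf66 sh) (Nat.shiftRight leaf67 sh) (Nat.ble 67 i)
noncomputable def s68_70 (i sh : Nat) : Nat := Bool.rec (Nat.shiftRight leaf68 sh) (Nat.shiftRight leaf69 sh) (Nat.ble 69 i)
noncomputable def s66_70 (i sh : Nat) : Nat := Bool.rec (s66_68 i sh) (s68_70 i sh) (Nat.ble 68 i)
noncomputable def s63_70 (i sh : Nat) : Nat := Bool.rec (s63_66 i sh) (s66_70 i sh) (Nat.ble 66 i)
noncomputable def s71_73 (i sh : Nat) : Nat := Bool.rec (Nat.shiftRight leaf71 sh) (Nat.shiftRight leaf72 sh) (Nat.ble 72 i)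
noncomputable def s70_73 (i sh : Nat) : Nat := Bool.rec (Nat.shiftRight leaf70 sh) (s71_73 i sh) (Nat.ble 71 i)
noncomputable def s73_75 (i sh : Nat) : Nat := Bool.rec (Nat.shiftRight leaf73 sh) (Nat.shiftRight leaf74 sh) (Nat.ble 74 i)
noncomputable def s75_77 (i sh : Nat) : Nat := Bool.rec (Nat.shiftRight leaf75 sh) (Nat.shiftRight leaf76 sh) (Nat.ble 76 i)
noncomputable def s73_77 (i sh : Nat) : Nat := Bool.rec (s73_75 i sh) (s75_77 i sh) (Nat.ble 75 i)
noncomputable def s70_77 (i sh : Nat) : Nat := Bool.rec (s70_73 i sh) (s73_77 i sh) (Nat.ble 73 i)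
noncomputable def s63_77 (i sh : Nat) : Nat := Bool.rec (s63_70 i sh) (s70_77 i sh) (Nat.ble 70 i)
noncomputable def s51_77 (i sh : Nat) : Nat := Bool.rec (s51_63 i sh) (s63_77 i sh) (Nat.ble 63 i)
noncomputable def s77_79 (i sh : Nat) : Nat := Bool.rec (Nat.shiftRight leaf77 sh) (Nat.shiftRight leaf78 sh) (Nat.ble 78 i)
noncomputable def s79_81 (i sh : Nat) : Nat := Bool.rec (Nat.shiftRight leaf79 sh) (Nat.shiftRight leaf80 sh) (Nat.ble 80 i)
noncomputable def s77_81 (i sh : Nat) : Nat := Bool.rec (s77_79 i sh) (s79_81 i sh) (Nat.ble 79 i)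
noncomputable def s81_83 (i sh : Nat) : Nat := Bool.rec (Nat.shiftRight leaf81 sh) (Nat.shiftRight leaf82 sh) (Nat.ble 82 i)
noncomputable def s84_86 (i sh : Nat) : Nat := Bool.rec (Nat.shiftRight leaf84 sh) (Nat.shiftRight leaf85 sh) (Nat.ble 85 i)
noncomputable def s83_86 (i sh : Nat) : Nat := Bool.rec (Nat.shiftRight leaf83 sh) (s84_86 i sh) (Nat.ble 84 i)
noncomputable def s81_86 (i sh : Nat) : Nat := Bool.rec (s81_83 i sh) (s83_86 i sh) (Nat.ble 83 i)
noncomputable def s77_86 (i sh : Nat) : Nat := Bool.rec (s77_81 i sh) (s81_86 i sh) (Nat.ble 81 i)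
noncomputable def s86_88 (i sh : Nat) : Nat := Bool.rec (Nat.shiftRight leaf86 sh) (Nat.shiftRight leaf87 sh) (Nat.ble 87 i)
noncomputable def s88_90 (i sh : Nat) : Nat := Bool.rec (Nat.shiftRight leaf88 sh) (Nat.shiftRight leaf89 sh) (Nat.ble 89 i)
noncomputable def s86_90 (i sh : Nat) : Nat := Bool.rec (s86_88 i sh) (s88_90 i sh) (Nat.ble 88 i)
noncomputable def s90_92 (i sh : Nat) : Nat := Bool.rec (Nat.shiftRight leaf90 sh) (Nat.shiftRight leaf91 sh) (Nat.ble 91 i)
noncomputable def s93_95 (i sh : Nat) : Nat := Bool.rec (Nat.shiftRight leaf93 sh) (Nat.shiftRight leaf94 sh) (Nat.ble 94 i)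
noncomputable def s92_95 (i sh : Nat) : Nat := Bool.rec (Nat.shiftRight leaf92 sh) (s93_95 i sh) (Nat.ble 93 i)
noncomputable def s90_95 (i sh : Nat) : Nat := Bool.rec (s90_92 i sh) (s92_95 i sh) (Nat.ble 92 i)
noncomputable def s86_95 (i sh : Nat) : Nat := Bool.rec (s86_90 i sh) (s90_95 i sh) (Nat.ble 90 i)
noncomputable def s77_95 (i sh : Nat) : Nat := Bool.rec (s77_86 i sh) (s86_95 i sh) (Nat.ble 86 i)
noncomputable def s95_97 (i sh : Nat) : Nat := Bool.rec (Nat.shiftRight leaf95 sh) (Nat.shiftRight leaf96 sh) (Nat.ble 96 i)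
noncomputable def s98_100 (i sh : Nat) : Nat := Bool.rec (Nat.shiftRight leaf98 sh) (Nat.shiftRight leaf99 sh) (Nat.ble 99 i)
noncomputable def s97_100 (i sh : Nat) : Nat := Bool.rec (Nat.shiftRight leaf97 sh) (s98_100 i sh) (Nat.ble 98 i)
noncomputable def s95_100 (i sh : Nat) : Nat := Bool.rec (s95_97 i sh) (s97_100 i sh) (Nat.ble 97 i)
noncomputable def s100_102 (i sh : Nat) : Nat := Bool.rec (Nat.shiftRight leaf100 sh) (Nat.shiftRight leaf101 sh) (Nat.ble 101 i)
noncomputable def s103_105 (i sh : Nat) : Nat := Bool.rec (Nat.shiftRight leaf103 sh) (Nat.shiftRight leaf104 sh) (Nat.ble 104 i)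
noncomputable def s102_105 (i sh : Nat) : Nat := Bool.rec (Nat.shiftRight leaf102 sh) (s103_105 i sh) (Nat.ble 103 i)
noncomputable def s100_105 (i sh : Nat) : Nat := Bool.rec (s100_102 i sh) (s102_105 i sh) (Nat.ble 102 i)
noncomputable def s95_105 (i sh : Nat) : Nat := Bool.rec (s95_100 i sh) (s100_105 i sh) (Nat.ble 100 i)
noncomputable def s106_108 (i sh : Nat) : Nat := Bool.rec (Nat.shiftRight leaf106 sh) (Nat.shiftRight leaf107 sh) (Nat.ble 107 i)
noncomputable def s105_108 (i sh : Nat) : Nat := Bool.rec (Nat.shiftRight leaf105 sh) (s106_108 i sh) (Nat.ble 106 i)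
noncomputable def s109_111 (i sh : Nat) : Nat := Bool.rec (Nat.shiftRight leaf109 sh) (Nat.shiftRight leaf110 sh) (Nat.ble 110 i)
noncomputable def s108_111 (i sh : Nat) : Nat := Bool.rec (Nat.shiftRight leaf108 sh) (s109_111 i sh) (Nat.ble 109 i)
noncomputable def s105_111 (i sh : Nat) : Nat := Bool.rec (s105_108 i sh) (s108_111 i sh) (Nat.ble 108 i)
noncomputable def s112_114 (i sh : Nat) : Nat := Bool.rec (Nat.shiftRight leaf112 sh) (Nat.shiftRight leaf113 sh) (Nat.ble 113 i)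
noncomputable def s111_114 (i sh : Nat) : Nat := Bool.rec (Nat.shiftRight leaf111 sh) (s112_114 i sh) (Nat.ble 112 i)
noncomputable def s115_117 (i sh : Nat) : Nat := Bool.rec (Nat.shiftRight leaf115 sh) (Nat.shiftRight leaf116 sh) (Nat.ble 116 i)
noncomputable def s114_117 (i sh : Nat) : Nat := Bool.rec (Nat.shiftRight leaf114 sh) (s115_117 i sh) (Nat.ble 115 i)
noncomputable def s111_117 (i sh : Nat) : Nat := Bool.rec (s111_114 i sh) (s114_117 i sh) (Nat.ble 114 i)
noncomputable def s105_117 (i sh : Nat) : Nat := Bool.rec (s105_111 i sh) (s111_117 i sh) (Nat.ble 111 i)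
noncomputable def s95_117 (i sh : Nat) : Nat := Bool.rec (s95_105 i sh) (s105_117 i sh) (Nat.ble 105 i)
noncomputable def s77_117 (i sh : Nat) : Nat := Bool.rec (s77_95 i sh) (s95_117 i sh) (Nat.ble 95 i)
noncomputable def s51_117 (i sh : Nat) : Nat := Bool.rec (s51_77 i sh) (s77_117 i sh) (Nat.ble 77 i)
noncomputable def s118_120 (i sh : Nat) : Nat := Bool.rec (Nat.shiftRight leaf118 sh) (Nat.shiftRight leaf119 sh) (Nat.ble 119 i)
noncomputable def s117_120 (i sh : Nat) : Nat := Bool.rec (Nat.shiftRight leaf117 sh) (s118_120 i sh) (Nat.ble 118 i)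
noncomputable def s121_123 (i sh : Nat) : Nat := Bool.rec (Nat.shiftRight leaf121 sh) (Nat.shiftRight leaf122 sh) (Nat.ble 122 i)
noncomputable def s120_123 (i sh : Nat) : Nat := Bool.rec (Nat.shiftRight leaf120 sh) (s121_123 i sh) (Nat.ble 121 i)
noncomputable def s117_123 (i sh : Nat) : Nat := Bool.rec (s117_120 i sh) (s120_123 i sh) (Nat.ble 120 i)
noncomputable def s124_126 (i sh : Nat) : Nat := Bool.rec (Nat.shiftRight leaf124 sh) (Nat.shiftRight leaf125 sh) (Nat.ble 125 i)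
noncomputable def s123_126 (i sh : Nat) : Nat := Bool.rec (Nat.shiftRight leaf123 sh) (s124_126 i sh) (Nat.ble 124 i)
noncomputable def s126_128 (i sh : Nat) : Nat := Bool.rec (Nat.shiftRight leaf126 sh) (Nat.shiftRight leaf127 sh) (Nat.ble 127 i)
noncomputable def s128_130 (i sh : Nat) : Nat := Bool.rec (Nat.shiftRight leaf128 sh) (Nat.shiftRight leaf129 sh) (Nat.ble 129 i)
noncomputable def s126_130 (i sh : Nat) : Nat := Bool.rec (s126_128 i sh) (s128_130 i sh) (Nat.ble 128 i)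
noncomputable def s123_130 (i sh : Nat) : Nat := Bool.rec (s123_126 i sh) (s126_130 i sh) (Nat.ble 126 i)
noncomputable def s117_130 (i sh : Nat) : Nat := Bool.rec (s117_123 i sh) (s123_130 i sh) (Nat.ble 123 i)
noncomputable def s131_133 (i sh : Nat) : Nat := Bool.rec (Nat.shiftRight leaf131 sh) (Nat.shiftRight leaf132 sh) (Nat.ble 132 i)
noncomputable def s130_133 (i sh : Nat) : Nat := Bool.rec (Nat.shiftRight leaf130 sh) (s131_133 i sh) (Nat.ble 131 i)
noncomputable def s133_135 (i sh : Nat) : Nat := Bool.rec (Nat.shiftRight leaf133 sh) (Nat.shiftRight leaf134 sh) (Nat.ble 134 i)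
noncomputable def s135_137 (i sh : Nat) : Nat := Bool.rec (Nat.shiftRight leaf135 sh) (Nat.shiftRight leaf136 sh) (Nat.ble 136 i)
noncomputable def s133_137 (i sh : Nat) : Nat := Bool.rec (s133_135 i sh) (s135_137 i sh) (Nat.ble 135 i)
noncomputable def s130_137 (i sh : Nat) : Nat := Bool.rec (s130_133 i sh) (s133_137 i sh) (Nat.ble 133 i)
noncomputable def s137_139 (i sh : Nat) : Nat := Bool.rec (Nat.shiftRight leaf137 sh) (Nat.shiftRight leaf138 sh) (Nat.ble 138 i)
noncomputable def s139_141 (i sh : Nat) : Nat := Bool.rec (Nat.shiftRight leaf139 sh) (Nat.shiftRight leaf140 sh) (Nat.ble 140 i)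
noncomputable def s137_141 (i sh : Nat) : Nat := Bool.rec (s137_139 i sh) (s139_141 i sh) (Nat.ble 139 i)
noncomputable def s141_143 (i sh : Nat) : Nat := Bool.rec (Nat.shiftRight leaf141 sh) (Nat.shiftRight leaf142 sh) (Nat.ble 142 i)
noncomputable def s143_145 (i sh : Nat) : Nat := Bool.rec (Nat.shiftRight leaf143 sh) (Nat.shiftRight leaf144 sh) (Nat.ble 144 i)
noncomputable def s141_145 (i sh : Nat) : Nat := Bool.rec (s141_143 i sh) (s143_145 i sh) (Nat.ble 143 i)
noncomputable def s137_145 (i sh : Nat) : Nat := Bool.rec (s137_141 i sh) (s141_145 i sh) (Nat.ble 141 i)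
noncomputable def s130_145 (i sh : Nat) : Nat := Bool.rec (s130_137 i sh) (s137_145 i sh) (Nat.ble 137 i)
noncomputable def s117_145 (i sh : Nat) : Nat := Bool.rec (s117_130 i sh) (s130_145 i sh) (Nat.ble 130 i)
noncomputable def s145_147 (i sh : Nat) : Nat := Bool.rec (Nat.shiftRight leaf145 sh) (Nat.shiftRight leaf146 sh) (Nat.ble 146 i)
noncomputable def s147_149 (i sh : Nat) : Nat := Bool.rec (Nat.shiftRight leaf147 sh) (Nat.shiftRight leaf148 sh) (Nat.ble 148 i)
noncomputable def s145_149 (i sh : Nat) : Nat := Bool.rec (s145_147 i sh) (s147_149 i sh) (Nat.ble 147 i)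
noncomputable def s149_151 (i sh : Nat) : Nat := Bool.rec (Nat.shiftRight leaf149 sh) (Nat.shiftRight leaf150 sh) (Nat.ble 150 i)
noncomputable def s151_153 (i sh : Nat) : Nat := Bool.rec (Nat.shiftRight leaf151 sh) (Nat.shiftRight leaf152 sh) (Nat.ble 152 i)
noncomputable def s149_153 (i sh : Nat) : Nat := Bool.rec (s149_151 i sh) (s151_153 i sh) (Nat.ble 151 i)
noncomputable def s145_153 (i sh : Nat) : Nat := Bool.rec (s145_149 i sh) (s149_153 i sh) (Nat.ble 149 i)
noncomputable def s153_155 (i sh : Nat) : Nat := Bool.rec (Nat.shiftRight leaf153 sh) (Nat.shiftRight leaf154 sh) (Nat.ble 154 i)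
noncomputable def s155_157 (i sh : Nat) : Nat := Bool.rec (Nat.shiftRight leaf155 sh) (Nat.shiftRight leaf156 sh) (Nat.ble 156 i)
noncomputable def s153_157 (i sh : Nat) : Nat := Bool.rec (s153_155 i sh) (s155_157 i sh) (Nat.ble 155 i)
noncomputable def s157_159 (i sh : Nat) : Nat := Bool.rec (Nat.shiftRight leaf157 sh) (Nat.shiftRight leaf158 sh) (Nat.ble 158 i)
noncomputable def s159_161 (i sh : Nat) : Nat := Bool.rec (Nat.shiftRight leaf159 sh) (Nat.shiftRight leaf160 sh) (Nat.ble 160 i)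
noncomputable def s157_161 (i sh : Nat) : Nat := Bool.rec (s157_159 i sh) (s159_161 i sh) (Nat.ble 159 i)
noncomputable def s153_161 (i sh : Nat) : Nat := Bool.rec (s153_157 i sh) (s157_161 i sh) (Nat.ble 157 i)
noncomputable def s145_161 (i sh : Nat) : Nat := Bool.rec (s145_153 i sh) (s153_161 i sh) (Nat.ble 153 i)
noncomputable def s161_163 (i sh : Nat) : Nat := Bool.rec (Nat.shiftRight leaf161 sh) (Nat.shiftRight leaf162 sh) (Nat.ble 162 i)
noncomputable def s163_165 (i sh : Nat) : Nat := Bool.rec (Nat.shiftRight leaf163 sh) (Nat.shiftRight leaf164 sh) (Nat.ble 164 i)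
noncomputable def s161_165 (i sh : Nat) : Nat := Bool.rec (s161_163 i sh) (s163_165 i sh) (Nat.ble 163 i)
noncomputable def s165_167 (i sh : Nat) : Nat := Bool.rec (Nat.shiftRight leaf165 sh) (Nat.shiftRight leaf166 sh) (Nat.ble 166 i)
noncomputable def s168_170 (i sh : Nat) : Nat := Bool.rec (Nat.shiftRight leaf168 sh) (Nat.shiftRight leaf169 sh) (Nat.ble 169 i)
noncomputable def s167_170 (i sh : Nat) : Nat := Bool.rec (Nat.shiftRight leaf167 sh) (s168_170 i sh) (Nat.ble 168 i)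
noncomputable def s165_170 (i sh : Nat) : Nat := Bool.rec (s165_167 i sh) (s167_170 i sh) (Nat.ble 167 i)
noncomputable def s161_170 (i sh : Nat) : Nat := Bool.rec (s161_165 i sh) (s165_170 i sh) (Nat.ble 165 i)
noncomputable def s170_172 (i sh : Nat) : Nat := Bool.rec (Nat.shiftRight leaf170 sh) (Nat.shiftRight leaf171 sh) (Nat.ble 171 i)
noncomputable def s172_174 (i sh : Nat) : Nat := Bool.rec (Nat.shiftRight leaf172 sh) (Nat.shiftRight leaf173 sh) (Nat.ble 173 i)
noncomputable def s170_174 (i sh : Nat) : Nat := Bool.rec (s170_172 i sh) (s172_174 i sh) (Nat.ble 172 i)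
noncomputable def s174_176 (i sh : Nat) : Nat := Bool.rec (Nat.shiftRight leaf174 sh) (Nat.shiftRight leaf175 sh) (Nat.ble 175 i)
noncomputable def s177_179 (i sh : Nat) : Nat := Bool.rec (Nat.shiftRight leaf177 sh) (Nat.shiftRight leaf178 sh) (Nat.ble 178 i)
noncomputable def s176_179 (i sh : Nat) : Nat := Bool.rec (Nat.shiftRight leaf176 sh) (s177_179 i sh) (Nat.ble 177 i)
noncomputable def s174_179 (i sh : Nat) : Nat := Bool.rec (s174_176 i sh) (s176_179 i sh) (Nat.ble 176 i)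
noncomputable def s170_179 (i sh : Nat) : Nat := Bool.rec (s170_174 i sh) (s174_179 i sh) (Nat.ble 174 i)
noncomputable def s161_179 (i sh : Nat) : Nat := Bool.rec (s161_170 i sh) (s170_179 i sh) (Nat.ble 170 i)
noncomputable def s145_179 (i sh : Nat) : Nat := Bool.rec (s145_161 i sh) (s161_179 i sh) (Nat.ble 161 i)
noncomputable def s117_179 (i sh : Nat) : Nat := Bool.rec (s117_145 i sh) (s145_179 i sh) (Nat.ble 145 i)
noncomputable def s179_181 (i sh : Nat) : Nat := Bool.rec (Nat.shiftRight leaf179 sh) (Nat.shiftRight leaf180 sh) (Nat.ble 180 i)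
noncomputable def s182_184 (i sh : Nat) : Nat := Bool.rec (Nat.shiftRight leaf182 sh) (Nat.shiftRight leaf183 sh) (Nat.ble 183 i)
noncomputable def s181_184 (i sh : Nat) : Nat := Bool.rec (Nat.shiftRight leaf181 sh) (s182_184 i sh) (Nat.ble 182 i)
noncomputable def s179_184 (i sh : Nat) : Nat := Bool.rec (s179_181 i sh) (s181_184 i sh) (Nat.ble 181 i)
noncomputable def s184_186 (i sh : Nat) : Nat := Bool.rec (Nat.shiftRight leaf184 sh) (Nat.shiftRight leaf185 sh) (Nat.ble 185 i)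
noncomputable def s187_189 (i sh : Nat) : Nat := Bool.rec (Nat.shiftRight leaf187 sh) (Nat.shiftRight leaf188 sh) (Nat.ble 188 i)
noncomputable def s186_189 (i sh : Nat) : Nat := Bool.rec (Nat.shiftRight leaf186 sh) (s187_189 i sh) (Nat.ble 187 i)
noncomputable def s184_189 (i sh : Nat) : Nat := Bool.rec (s184_186 i sh) (s186_189 i sh) (Nat.ble 186 i)
noncomputable def s179_189 (i sh : Nat) : Nat := Bool.rec (s179_184 i sh) (s184_189 i sh) (Nat.ble 184 i)
noncomputable def s189_191 (i sh : Nat) : Nat := Bool.rec (Nat.shiftRight leaf189 sh) (Nat.shiftRight leaf190 sh) (Nat.ble 190 i)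
noncomputable def s192_194 (i sh : Nat) : Nat := Bool.rec (Nat.shiftRight leaf192 sh) (Nat.shiftRight leaf193 sh) (Nat.ble 193 i)
noncomputable def s191_194 (i sh : Nat) : Nat := Bool.rec (Nat.shiftRight leaf191 sh) (s192_194 i sh) (Nat.ble 192 i)
noncomputable def s189_194 (i sh : Nat) : Nat := Bool.rec (s189_191 i sh) (s191_194 i sh) (Nat.ble 191 i)
noncomputable def s194_196 (i sh : Nat) : Nat := Bool.rec (Nat.shiftRight leaf194 sh) (Nat.shiftRight leaf195 sh) (Nat.ble 195 i)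
noncomputable def s197_199 (i sh : Nat) : Nat := Bool.rec (Nat.shiftRight leaf197 sh) (Nat.shiftRight leaf198 sh) (Nat.ble 198 i)
noncomputable def s196_199 (i sh : Nat) : Nat := Bool.rec (Nat.shiftRight leaf196 sh) (s197_199 i sh) (Nat.ble 197 i)
noncomputable def s194_199 (i sh : Nat) : Nat := Bool.rec (s194_196 i sh) (s196_199 i sh) (Nat.ble 196 i)
noncomputable def s189_199 (i sh : Nat) : Nat := Bool.rec (s189_194 i sh) (s194_199 i sh) (Nat.ble 194 i)
noncomputable def s179_199 (i sh : Nat) : Nat := Bool.rec (s179_189 i sh) (s189_199 i sh) (Nat.ble 189 i)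
noncomputable def s199_201 (i sh : Nat) : Nat := Bool.rec (Nat.shiftRight leaf199 sh) (Nat.shiftRight leaf200 sh) (Nat.ble 200 i)
noncomputable def s202_204 (i sh : Nat) : Nat := Bool.rec (Nat.shiftRight leaf202 sh) (Nat.shiftRight leaf203 sh) (Nat.ble 203 i)
noncomputable def s201_204 (i sh : Nat) : Nat := Bool.rec (Nat.shiftRight leaf201 sh) (s202_204 i sh) (Nat.ble 202 i)
noncomputable def s199_204 (i sh : Nat) : Nat := Bool.rec (s199_201 i sh) (s201_204 i sh) (Nat.ble 201 i)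
noncomputable def s205_207 (i sh : Nat) : Nat := Bool.rec (Nat.shiftRight leaf205 sh) (Nat.shiftRight leaf206 sh) (Nat.ble 206 i)
noncomputable def s204_207 (i sh : Nat) : Nat := Bool.rec (Nat.shiftRight leaf204 sh) (s205_207 i sh) (Nat.ble 205 i)
noncomputable def s208_210 (i sh : Nat) : Nat := Bool.rec (Nat.shiftRight leaf208 sh) (Nat.shiftRight leaf209 sh) (Nat.ble 209 i)
noncomputable def s207_210 (i sh : Nat) : Nat := Bool.rec (Nat.shiftRight leaf207 sh) (s208_210 i sh) (Nat.ble 208 i)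
noncomputable def s204_210 (i sh : Nat) : Nat := Bool.rec (s204_207 i sh) (s207_210 i sh) (Nat.ble 207 i)
noncomputable def s199_210 (i sh : Nat) : Nat := Bool.rec (s199_204 i sh) (s204_210 i sh) (Nat.ble 204 i)
noncomputable def s211_213 (i sh : Nat) : Nat := Bool.rec (Nat.shiftRight leaf211 sh) (Nat.shiftRight leaf212 sh) (Nat.ble 212 i)
noncomputable def s210_213 (i sh : Nat) : Nat := Bool.rec (Nat.shiftRight leaf210 sh) (s211_213 i sh) (Nat.ble 211 i)
noncomputable def s214_216 (i sh : Nat) : Nat := Bool.rec (Nat.shiftRight leaf214 sh) (Nat.shiftRight leaf215 sh) (Nat.ble 215 i)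
noncomputable def s213_216 (i sh : Nat) : Nat := Bool.rec (Nat.shiftRight leaf213 sh) (s214_216 i sh) (Nat.ble 214 i)
noncomputable def s210_216 (i sh : Nat) : Nat := Bool.rec (s210_213 i sh) (s213_216 i sh) (Nat.ble 213 i)
noncomputable def s217_219 (i sh : Nat) : Nat := Bool.rec (Nat.shiftRight leaf217 sh) (Nat.shiftRight leaf218 sh) (Nat.ble 218 i)
noncomputable def s216_219 (i sh : Nat) : Nat := Bool.rec (Nat.shiftRight leaf216 sh) (s217_219 i sh) (Nat.ble 217 i)
noncomputable def s220_222 (i sh : Nat) : Nat := Bool.rec (Nat.shiftRight leaf220 sh) (Nat.shiftRight leaf221 sh) (Nat.ble 221 i)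
noncomputable def s219_222 (i sh : Nat) : Nat := Bool.rec (Nat.shiftRight leaf219 sh) (s220_222 i sh) (Nat.ble 220 i)
noncomputable def s216_222 (i sh : Nat) : Nat := Bool.rec (s216_219 i sh) (s219_222 i sh) (Nat.ble 219 i)
noncomputable def s210_222 (i sh : Nat) : Nat := Bool.rec (s210_216 i sh) (s216_222 i sh) (Nat.ble 216 i)
noncomputable def s199_222 (i sh : Nat) : Nat := Bool.rec (s199_210 i sh) (s210_222 i sh) (Nat.ble 210 i)
noncomputable def s179_222 (i sh : Nat) : Nat := Bool.rec (s179_199 i sh) (s199_222 i sh) (Nat.ble 199 i)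
noncomputable def s223_225 (i sh : Nat) : Nat := Bool.rec (Nat.shiftRight leaf223 sh) (Nat.shiftRight leaf224 sh) (Nat.ble 224 i)
noncomputable def s222_225 (i sh : Nat) : Nat := Bool.rec (Nat.shiftRight leaf222 sh) (s223_225 i sh) (Nat.ble 223 i)
noncomputable def s226_228 (i sh : Nat) : Nat := Bool.rec (Nat.shiftRight leaf226 sh) (Nat.shiftRight leaf227 sh) (Nat.ble 227 i)
noncomputable def s225_228 (i sh : Nat) : Nat := Bool.rec (Nat.shiftRight leaf225 sh) (s226_228 i sh) (Nat.ble 226 i)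
noncomputable def s222_228 (i sh : Nat) : Nat := Bool.rec (s222_225 i sh) (s225_228 i sh) (Nat.ble 225 i)
noncomputable def s229_231 (i sh : Nat) : Nat := Bool.rec (Nat.shiftRight leaf229 sh) (Nat.shiftRight leaf230 sh) (Nat.ble 230 i)
noncomputable def s228_231 (i sh : Nat) : Nat := Bool.rec (Nat.shiftRight leaf228 sh) (s229_231 i sh) (Nat.ble 229 i)
noncomputable def s231_233 (i sh : Nat) : Nat := Bool.rec (Nat.shiftRight leaf231 sh) (Nat.shiftRight leaf232 sh) (Nat.ble 232 i)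
noncomputable def s233_235 (i sh : Nat) : Nat := Bool.rec (Nat.shiftRight leaf233 sh) (Nat.shiftRight leaf234 sh) (Nat.ble 234 i)
noncomputable def s231_235 (i sh : Nat) : Nat := Bool.rec (s231_233 i sh) (s233_235 i sh) (Nat.ble 233 i)
noncomputable def s228_235 (i sh : Nat) : Nat := Bool.rec (s228_231 i sh) (s231_235 i sh) (Nat.ble 231 i)
noncomputable def s222_235 (i sh : Nat) : Nat := Bool.rec (s222_228 i sh) (s228_235 i sh) (Nat.ble 228 i)
noncomputable def s236_238 (i sh : Nat) : Nat := Bool.rec (Nat.shiftRight leaf236 sh) (Nat.shiftRight leaf237 sh) (Nat.ble 237 i)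
noncomputable def s235_238 (i sh : Nat) : Nat := Bool.rec (Nat.shiftRight leaf235 sh) (s236_238 i sh) (Nat.ble 236 i)
noncomputable def s239_241 (i sh : Nat) : Nat := Bool.rec (Nat.shiftRight leaf239 sh) (Nat.shiftRight leaf240 sh) (Nat.ble 240 i)
noncomputable def s238_241 (i sh : Nat) : Nat := Bool.rec (Nat.shiftRight leaf238 sh) (s239_241 i sh) (Nat.ble 239 i)
noncomputable def s235_241 (i sh : Nat) : Nat := Bool.rec (s235_238 i sh) (s238_241 i sh) (Nat.ble 238 i)
noncomputable def s242_244 (i sh : Nat) : Nat := Bool.rec (Nat.shiftRight leaf242 sh) (Nat.shiftRight leaf243 sh) (Nat.ble 243 i)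
noncomputable def s241_244 (i sh : Nat) : Nat := Bool.rec (Nat.shiftRight leaf241 sh) (s242_244 i sh) (Nat.ble 242 i)
noncomputable def s244_246 (i sh : Nat) : Nat := Bool.rec (Nat.shiftRight leaf244 sh) (Nat.shiftRight leaf245 sh) (Nat.ble 245 i)
noncomputable def s246_248 (i sh : Nat) : Nat := Bool.rec (Nat.shiftRight leaf246 sh) (Nat.shiftRight leaf247 sh) (Nat.ble 247 i)
noncomputable def s244_248 (i sh : Nat) : Nat := Bool.rec (s244_246 i sh) (s246_248 i sh) (Nat.ble 246 i)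
noncomputable def s241_248 (i sh : Nat) : Nat := Bool.rec (s241_244 i sh) (s244_248 i sh) (Nat.ble 244 i)
noncomputable def s235_248 (i sh : Nat) : Nat := Bool.rec (s235_241 i sh) (s241_248 i sh) (Nat.ble 241 i)
noncomputable def s222_248 (i sh : Nat) : Nat := Bool.rec (s222_235 i sh) (s235_248 i sh) (Nat.ble 235 i)
noncomputable def s249_251 (i sh : Nat) : Nat := Bool.rec (Nat.shiftRight leaf249 sh) (Nat.shiftRight leaf250 sh) (Nat.ble 250 i)
noncomputable def s248_251 (i sh : Nat) : Nat := Bool.rec (Nat.shiftRight leaf248 sh) (s249_251 i sh) (Nat.ble 249 i)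
noncomputable def s251_253 (i sh : Nat) : Nat := Bool.rec (Nat.shiftRight leaf251 sh) (Nat.shiftRight leaf252 sh) (Nat.ble 252 i)
noncomputable def s253_255 (i sh : Nat) : Nat := Bool.rec (Nat.shiftRight leaf253 sh) (Nat.shiftRight leaf254 sh) (Nat.ble 254 i)
noncomputable def s251_255 (i sh : Nat) : Nat := Bool.rec (s251_253 i sh) (s253_255 i sh) (Nat.ble 253 i)
noncomputable def s248_255 (i sh : Nat) : Nat := Bool.rec (s248_251 i sh) (s251_255 i sh) (Nat.ble 251 i)
noncomputable def s256_258 (i sh : Nat) : Nat := Bool.rec (Nat.shiftRight leaf256 sh) (Nat.shiftRight leaf257 sh) (Nat.ble 257 i)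
noncomputable def s255_258 (i sh : Nat) : Nat := Bool.rec (Nat.shiftRight leaf255 sh) (s256_258 i sh) (Nat.ble 256 i)
noncomputable def s258_260 (i sh : Nat) : Nat := Bool.rec (Nat.shiftRight leaf258 sh) (Nat.shiftRight leaf259 sh) (Nat.ble 259 i)
noncomputable def s260_262 (i sh : Nat) : Nat := Bool.rec (Nat.shiftRight leaf260 sh) (Nat.shiftRight leaf261 sh) (Nat.ble 261 i)
noncomputable def s258_262 (i sh : Nat) : Nat := Bool.rec (s258_260 i sh) (s260_262 i sh) (Nat.ble 260 i)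
noncomputable def s255_262 (i sh : Nat) : Nat := Bool.rec (s255_258 i sh) (s258_262 i sh) (Nat.ble 258 i)
noncomputable def s248_262 (i sh : Nat) : Nat := Bool.rec (s248_255 i sh) (s255_262 i sh) (Nat.ble 255 i)
noncomputable def s263_265 (i sh : Nat) : Nat := Bool.rec (Nat.shiftRight leaf263 sh) (Nat.shiftRight leaf264 sh) (Nat.ble 264 i)
noncomputable def s262_265 (i sh : Nat) : Nat := Bool.rec (Nat.shiftRight leaf262 sh) (s263_265 i sh) (Nat.ble 263 i)
noncomputable def s265_267 (i sh : Nat) : Nat := Bool.rec (Nat.shiftRight leaf265 sh) (Nat.shiftRight leaf266 sh) (Nat.ble 266 i)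
noncomputable def s267_269 (i sh : Nat) : Nat := Bool.rec (Nat.shiftRight leaf267 sh) (Nat.shiftRight leaf268 sh) (Nat.ble 268 i)
noncomputable def s265_269 (i sh : Nat) : Nat := Bool.rec (s265_267 i sh) (s267_269 i sh) (Nat.ble 267 i)
noncomputable def s262_269 (i sh : Nat) : Nat := Bool.rec (s262_265 i sh) (s265_269 i sh) (Nat.ble 265 i)
noncomputable def s269_271 (i sh : Nat) : Nat := Bool.rec (Nat.shiftRight leaf269 sh) (Nat.shiftRight leaf270 sh) (Nat.ble 270 i)
noncomputable def s271_273 (i sh : Nat) : Nat := Bool.rec (Nat.shiftRight leaf271 sh) (Nat.shiftRight leaf272 sh) (Nat.ble 272 i)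
noncomputable def s269_273 (i sh : Nat) : Nat := Bool.rec (s269_271 i sh) (s271_273 i sh) (Nat.ble 271 i)
noncomputable def s273_275 (i sh : Nat) : Nat := Bool.rec (Nat.shiftRight leaf273 sh) (Nat.shiftRight leaf274 sh) (Nat.ble 274 i)
noncomputable def s275_277 (i sh : Nat) : Nat := Bool.rec (Nat.shiftRight leaf275 sh) (Nat.shiftRight leaf276 sh) (Nat.ble 276 i)
noncomputable def s273_277 (i sh : Nat) : Nat := Bool.rec (s273_275 i sh) (s275_277 i sh) (Nat.ble 275 i)
noncomputable def s269_277 (i sh : Nat) : Nat := Bool.rec (s269_273 i sh) (s273_277 i sh) (Nat.ble 273 i)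
noncomputable def s262_277 (i sh : Nat) : Nat := Bool.rec (s262_269 i sh) (s269_277 i sh) (Nat.ble 269 i)
noncomputable def s248_277 (i sh : Nat) : Nat := Bool.rec (s248_262 i sh) (s262_277 i sh) (Nat.ble 262 i)
noncomputable def s222_277 (i sh : Nat) : Nat := Bool.rec (s222_248 i sh) (s248_277 i sh) (Nat.ble 248 i)
noncomputable def s179_277 (i sh : Nat) : Nat := Bool.rec (s179_222 i sh) (s222_277 i sh) (Nat.ble 222 i)
noncomputable def s117_277 (i sh : Nat) : Nat := Bool.rec (s117_179 i sh) (s179_277 i sh) (Nat.ble 179 i)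
noncomputable def s51_277 (i sh : Nat) : Nat := Bool.rec (s51_117 i sh) (s117_277 i sh) (Nat.ble 117 i)
noncomputable def s277_279 (i sh : Nat) : Nat := Bool.rec (Nat.shiftRight leaf277 sh) (Nat.shiftRight leaf278 sh) (Nat.ble 278 i)
noncomputable def s279_281 (i sh : Nat) : Nat := Bool.rec (Nat.shiftRight leaf279 sh) (Nat.shiftRight leaf280 sh) (Nat.ble 280 i)
noncomputable def s277_281 (i sh : Nat) : Nat := Bool.rec (s277_279 i sh) (s279_281 i sh) (Nat.ble 279 i)
noncomputable def s281_283 (i sh : Nat) : Nat := Bool.rec (Nat.shiftRight leaf281 sh) (Nat.shiftRight leaf282 sh) (Nat.ble 282 i)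
noncomputable def s283_285 (i sh : Nat) : Nat := Bool.rec (Nat.shiftRight leaf283 sh) (Nat.shiftRight leaf284 sh) (Nat.ble 284 i)
noncomputable def s281_285 (i sh : Nat) : Nat := Bool.rec (s281_283 i sh) (s283_285 i sh) (Nat.ble 283 i)
noncomputable def s277_285 (i sh : Nat) : Nat := Bool.rec (s277_281 i sh) (s281_285 i sh) (Nat.ble 281 i)
noncomputable def s285_287 (i sh : Nat) : Nat := Bool.rec (Nat.shiftRight leaf285 sh) (Nat.shiftRight leaf286 sh) (Nat.ble 286 i)
noncomputable def s287_289 (i sh : Nat) : Nat := Bool.rec (Nat.shiftRight leaf287 sh) (Nat.shiftRight leaf288 sh) (Nat.ble 288 i)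
noncomputable def s285_289 (i sh : Nat) : Nat := Bool.rec (s285_287 i sh) (s287_289 i sh) (Nat.ble 287 i)
noncomputable def s289_291 (i sh : Nat) : Nat := Bool.rec (Nat.shiftRight leaf289 sh) (Nat.shiftRight leaf290 sh) (Nat.ble 290 i)
noncomputable def s291_293 (i sh : Nat) : Nat := Bool.rec (Nat.shiftRight leaf291 sh) (Nat.shiftRight leaf292 sh) (Nat.ble 292 i)
noncomputable def s289_293 (i sh : Nat) : Nat := Bool.rec (s289_291 i sh) (s291_293 i sh) (Nat.ble 291 i)
noncomputable def s285_293 (i sh : Nat) : Nat := Bool.rec (s285_289 i sh) (s289_293 i sh) (Nat.ble 289 i)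
noncomputable def s277_293 (i sh : Nat) : Nat := Bool.rec (s277_285 i sh) (s285_293 i sh) (Nat.ble 285 i)
noncomputable def s293_295 (i sh : Nat) : Nat := Bool.rec (Nat.shiftRight leaf293 sh) (Nat.shiftRight leaf294 sh) (Nat.ble 294 i)
noncomputable def s295_297 (i sh : Nat) : Nat := Bool.rec (Nat.shiftRight leaf295 sh) (Nat.shiftRight leaf296 sh) (Nat.ble 296 i)
noncomputable def s293_297 (i sh : Nat) : Nat := Bool.rec (s293_295 i sh) (s295_297 i sh) (Nat.ble 295 i)
noncomputable def s297_299 (i sh : Nat) : Nat := Bool.rec (Nat.shiftRight leaf297 sh) (Nat.shiftRight leaf298 sh) (Nat.ble 298 i)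
noncomputable def s299_301 (i sh : Nat) : Nat := Bool.rec (Nat.shiftRight leaf299 sh) (Nat.shiftRight leaf300 sh) (Nat.ble 300 i)
noncomputable def s297_301 (i sh : Nat) : Nat := Bool.rec (s297_299 i sh) (s299_301 i sh) (Nat.ble 299 i)
noncomputable def s293_301 (i sh : Nat) : Nat := Bool.rec (s293_297 i sh) (s297_301 i sh) (Nat.ble 297 i)
noncomputable def s301_303 (i sh : Nat) : Nat := Bool.rec (Nat.shiftRight leaf301 sh) (Nat.shiftRight leaf302 sh) (Nat.ble 302 i)
noncomputable def s303_305 (i sh : Nat) : Nat := Bool.rec (Nat.shiftRight leaf303 sh) (Nat.shiftRight leaf304 sh) (Nat.ble 304 i)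
noncomputable def s301_305 (i sh : Nat) : Nat := Bool.rec (s301_303 i sh) (s303_305 i sh) (Nat.ble 303 i)
noncomputable def s305_307 (i sh : Nat) : Nat := Bool.rec (Nat.shiftRight leaf305 sh) (Nat.shiftRight leaf306 sh) (Nat.ble 306 i)
noncomputable def s307_309 (i sh : Nat) : Nat := Bool.rec (Nat.shiftRight leaf307 sh) (Nat.shiftRight leaf308 sh) (Nat.ble 308 i)
noncomputable def s305_309 (i sh : Nat) : Nat := Bool.rec (s305_307 i sh) (s307_309 i sh) (Nat.ble 307 i)
noncomputable def s301_309 (i sh : Nat) : Nat := Bool.rec (s301_305 i sh) (s305_309 i sh) (Nat.ble 305 i)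
noncomputable def s293_309 (i sh : Nat) : Nat := Bool.rec (s293_301 i sh) (s301_309 i sh) (Nat.ble 301 i)
noncomputable def s277_309 (i sh : Nat) : Nat := Bool.rec (s277_293 i sh) (s293_309 i sh) (Nat.ble 293 i)
noncomputable def s309_311 (i sh : Nat) : Nat := Bool.rec (Nat.shiftRight leaf309 sh) (Nat.shiftRight leaf310 sh) (Nat.ble 310 i)
noncomputable def s311_313 (i sh : Nat) : Nat := Bool.rec (Nat.shiftRight leaf311 sh) (Nat.shiftRight leaf312 sh) (Nat.ble 312 i)
noncomputable def s309_313 (i sh : Nat) : Nat := Bool.rec (s309_311 i sh) (s311_313 i sh) (Nat.ble 311 i)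
noncomputable def s313_315 (i sh : Nat) : Nat := Bool.rec (Nat.shiftRight leaf313 sh) (Nat.shiftRight leaf314 sh) (Nat.ble 314 i)
noncomputable def s315_317 (i sh : Nat) : Nat := Bool.rec (Nat.shiftRight leaf315 sh) (Nat.shiftRight leaf316 sh) (Nat.ble 316 i)
noncomputable def s313_317 (i sh : Nat) : Nat := Bool.rec (s313_315 i sh) (s315_317 i sh) (Nat.ble 315 i)
noncomputable def s309_317 (i sh : Nat) : Nat := Bool.rec (s309_313 i sh) (s313_317 i sh) (Nat.ble 313 i)
noncomputable def s317_319 (i sh : Nat) : Nat := Bool.rec (Nat.shiftRight leaf317 sh) (Nat.shiftRight leaf318 sh) (Nat.ble 318 i)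
noncomputable def s319_321 (i sh : Nat) : Nat := Bool.rec (Nat.shiftRight leaf319 sh) (Nat.shiftRight leaf320 sh) (Nat.ble 320 i)
noncomputable def s317_321 (i sh : Nat) : Nat := Bool.rec (s317_319 i sh) (s319_321 i sh) (Nat.ble 319 i)
noncomputable def s321_323 (i sh : Nat) : Nat := Bool.rec (Nat.shiftRight leaf321 sh) (Nat.shiftRight leaf322 sh) (Nat.ble 322 i)
noncomputable def s324_326 (i sh : Nat) : Nat := Bool.rec (Nat.shiftRight leaf324 sh) (Nat.shiftRight leaf325 sh) (Nat.ble 325 i)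
noncomputable def s323_326 (i sh : Nat) : Nat := Bool.rec (Nat.shiftRight leaf323 sh) (s324_326 i sh) (Nat.ble 324 i)
noncomputable def s321_326 (i sh : Nat) : Nat := Bool.rec (s321_323 i sh) (s323_326 i sh) (Nat.ble 323 i)
noncomputable def s317_326 (i sh : Nat) : Nat := Bool.rec (s317_321 i sh) (s321_326 i sh) (Nat.ble 321 i)
noncomputable def s309_326 (i sh : Nat) : Nat := Bool.rec (s309_317 i sh) (s317_326 i sh) (Nat.ble 317 i)
noncomputable def s326_328 (i sh : Nat) : Nat := Bool.rec (Nat.shiftRight leaf326 sh) (Nat.shiftRight leaf327 sh) (Nat.ble 327 i)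
noncomputable def s329_331 (i sh : Nat) : Nat := Bool.rec (Nat.shiftRight leaf329 sh) (Nat.shiftRight leaf330 sh) (Nat.ble 330 i)
noncomputable def s328_331 (i sh : Nat) : Nat := Bool.rec (Nat.shiftRight leaf328 sh) (s329_331 i sh) (Nat.ble 329 i)
noncomputable def s326_331 (i sh : Nat) : Nat := Bool.rec (s326_328 i sh) (s328_331 i sh) (Nat.ble 328 i)
noncomputable def s331_333 (i sh : Nat) : Nat := Bool.rec (Nat.shiftRight leaf331 sh) (Nat.shiftRight leaf332 sh) (Nat.ble 332 i)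
noncomputable def s334_336 (i sh : Nat) : Nat := Bool.rec (Nat.shiftRight leaf334 sh) (Nat.shiftRight leaf335 sh) (Nat.ble 335 i)
noncomputable def s333_336 (i sh : Nat) : Nat := Bool.rec (Nat.shiftRight leaf333 sh) (s334_336 i sh) (Nat.ble 334 i)
noncomputable def s331_336 (i sh : Nat) : Nat := Bool.rec (s331_333 i sh) (s333_336 i sh) (Nat.ble 333 i)
noncomputable def s326_336 (i sh : Nat) : Nat := Bool.rec (s326_331 i sh) (s331_336 i sh) (Nat.ble 331 i)
noncomputable def s336_338 (i sh : Nat) : Nat := Bool.rec (Nat.shiftRight leaf336 sh) (Nat.shiftRight leaf337 sh) (Nat.ble 337 i)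
noncomputable def s339_341 (i sh : Nat) : Nat := Bool.rec (Nat.shiftRight leaf339 sh) (Nat.shiftRight leaf340 sh) (Nat.ble 340 i)
noncomputable def s338_341 (i sh : Nat) : Nat := Bool.rec (Nat.shiftRight leaf338 sh) (s339_341 i sh) (Nat.ble 339 i)
noncomputable def s336_341 (i sh : Nat) : Nat := Bool.rec (s336_338 i sh) (s338_341 i sh) (Nat.ble 338 i)
noncomputable def s341_343 (i sh : Nat) : Nat := Bool.rec (Nat.shiftRight leaf341 sh) (Nat.shiftRight leaf342 sh) (Nat.ble 342 i)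
noncomputable def s344_346 (i sh : Nat) : Nat := Bool.rec (Nat.shiftRight leaf344 sh) (Nat.shiftRight leaf345 sh) (Nat.ble 345 i)
noncomputable def s343_346 (i sh : Nat) : Nat := Bool.rec (Nat.shiftRight leaf343 sh) (s344_346 i sh) (Nat.ble 344 i)
noncomputable def s341_346 (i sh : Nat) : Nat := Bool.rec (s341_343 i sh) (s343_346 i sh) (Nat.ble 343 i)
noncomputable def s336_346 (i sh : Nat) : Nat := Bool.rec (s336_341 i sh) (s341_346 i sh) (Nat.ble 341 i)
noncomputable def s326_346 (i sh : Nat) : Nat := Bool.rec (s326_336 i sh) (s336_346 i sh) (Nat.ble 336 i)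
noncomputable def s309_346 (i sh : Nat) : Nat := Bool.rec (s309_326 i sh) (s326_346 i sh) (Nat.ble 326 i)
noncomputable def s277_346 (i sh : Nat) : Nat := Bool.rec (s277_309 i sh) (s309_346 i sh) (Nat.ble 309 i)
noncomputable def s346_348 (i sh : Nat) : Nat := Bool.rec (Nat.shiftRight leaf346 sh) (Nat.shiftRight leaf347 sh) (Nat.ble 347 i)
noncomputable def s349_351 (i sh : Nat) : Nat := Bool.rec (Nat.shiftRight leaf349 sh) (Nat.shiftRight leaf350 sh) (Nat.ble 350 i)
noncomputable def s348_351 (i sh : Nat) : Nat := Bool.rec (Nat.shiftRight leaf348 sh) (s349_351 i sh) (Nat.ble 349 i)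
noncomputable def s346_351 (i sh : Nat) : Nat := Bool.rec (s346_348 i sh) (s348_351 i sh) (Nat.ble 348 i)
noncomputable def s351_353 (i sh : Nat) : Nat := Bool.rec (Nat.shiftRight leaf351 sh) (Nat.shiftRight leaf352 sh) (Nat.ble 352 i)
noncomputable def s354_356 (i sh : Nat) : Nat := Bool.rec (Nat.shiftRight leaf354 sh) (Nat.shiftRight leaf355 sh) (Nat.ble 355 i)
noncomputable def s353_356 (i sh : Nat) : Nat := Bool.rec (Nat.shiftRight leaf353 sh) (s354_356 i sh) (Nat.ble 354 i)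
noncomputable def s351_356 (i sh : Nat) : Nat := Bool.rec (s351_353 i sh) (s353_356 i sh) (Nat.ble 353 i)
noncomputable def s346_356 (i sh : Nat) : Nat := Bool.rec (s346_351 i sh) (s351_356 i sh) (Nat.ble 351 i)
noncomputable def s356_358 (i sh : Nat) : Nat := Bool.rec (Nat.shiftRight leaf356 sh) (Nat.shiftRight leaf357 sh) (Nat.ble 357 i)
noncomputable def s359_361 (i sh : Nat) : Nat := Bool.rec (Nat.shiftRight leaf359 sh) (Nat.shiftRight leaf360 sh) (Nat.ble 360 i)
noncomputable def s358_361 (i sh : Nat) : Nat := Bool.rec (Nat.shiftRight leaf358 sh) (s359_361 i sh) (Nat.ble 359 i)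
noncomputable def s356_361 (i sh : Nat) : Nat := Bool.rec (s356_358 i sh) (s358_361 i sh) (Nat.ble 358 i)
noncomputable def s361_363 (i sh : Nat) : Nat := Bool.rec (Nat.shiftRight leaf361 sh) (Nat.shiftRight leaf362 sh) (Nat.ble 362 i)
noncomputable def s364_366 (i sh : Nat) : Nat := Bool.rec (Nat.shiftRight leaf364 sh) (Nat.shiftRight leaf365 sh) (Nat.ble 365 i)
noncomputable def s363_366 (i sh : Nat) : Nat := Bool.rec (Nat.shiftRight leaf363 sh) (s364_366 i sh) (Nat.ble 364 i)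
noncomputable def s361_366 (i sh : Nat) : Nat := Bool.rec (s361_363 i sh) (s363_366 i sh) (Nat.ble 363 i)
noncomputable def s356_366 (i sh : Nat) : Nat := Bool.rec (s356_361 i sh) (s361_366 i sh) (Nat.ble 361 i)
noncomputable def s346_366 (i sh : Nat) : Nat := Bool.rec (s346_356 i sh) (s356_366 i sh) (Nat.ble 356 i)
noncomputable def s366_368 (i sh : Nat) : Nat := Bool.rec (Nat.shiftRight leaf366 sh) (Nat.shiftRight leaf367 sh) (Nat.ble 367 i)
noncomputable def s369_371 (i sh : Nat) : Nat := Bool.rec (Nat.shiftRight leaf369 sh) (Nat.shiftRight leaf370 sh) (Nat.ble 370 i)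
noncomputable def s368_371 (i sh : Nat) : Nat := Bool.rec (Nat.shiftRight leaf368 sh) (s369_371 i sh) (Nat.ble 369 i)
noncomputable def s366_371 (i sh : Nat) : Nat := Bool.rec (s366_368 i sh) (s368_371 i sh) (Nat.ble 368 i)
noncomputable def s371_373 (i sh : Nat) : Nat := Bool.rec (Nat.shiftRight leaf371 sh) (Nat.shiftRight leaf372 sh) (Nat.ble 372 i)
noncomputable def s374_376 (i sh : Nat) : Nat := Bool.rec (Nat.shiftRight leaf374 sh) (Nat.shiftRight leaf375 sh) (Nat.ble 375 i)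
noncomputable def s373_376 (i sh : Nat) : Nat := Bool.rec (Nat.shiftRight leaf373 sh) (s374_376 i sh) (Nat.ble 374 i)
noncomputable def s371_376 (i sh : Nat) : Nat := Bool.rec (s371_373 i sh) (s373_376 i sh) (Nat.ble 373 i)
noncomputable def s366_376 (i sh : Nat) : Nat := Bool.rec (s366_371 i sh) (s371_376 i sh) (Nat.ble 371 i)
noncomputable def s377_379 (i sh : Nat) : Nat := Bool.rec (Nat.shiftRight leaf377 sh) (Nat.shiftRight leaf378 sh) (Nat.ble 378 i)
noncomputable def s376_379 (i sh : Nat) : Nat := Bool.rec (Nat.shiftRight leaf376 sh) (s377_379 i sh) (Nat.ble 377 i)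
noncomputable def s380_382 (i sh : Nat) : Nat := Bool.rec (Nat.shiftRight leaf380 sh) (Nat.shiftRight leaf381 sh) (Nat.ble 381 i)
noncomputable def s379_382 (i sh : Nat) : Nat := Bool.rec (Nat.shiftRight leaf379 sh) (s380_382 i sh) (Nat.ble 380 i)
noncomputable def s376_382 (i sh : Nat) : Nat := Bool.rec (s376_379 i sh) (s379_382 i sh) (Nat.ble 379 i)
noncomputable def s383_385 (i sh : Nat) : Nat := Bool.rec (Nat.shiftRight leaf383 sh) (Nat.shiftRight leaf384 sh) (Nat.ble 384 i)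
noncomputable def s382_385 (i sh : Nat) : Nat := Bool.rec (Nat.shiftRight leaf382 sh) (s383_385 i sh) (Nat.ble 383 i)
noncomputable def s386_388 (i sh : Nat) : Nat := Bool.rec (Nat.shiftRight leaf386 sh) (Nat.shiftRight leaf387 sh) (Nat.ble 387 i)
noncomputable def s385_388 (i sh : Nat) : Nat := Bool.rec (Nat.shiftRight leaf385 sh) (s386_388 i sh) (Nat.ble 386 i)
noncomputable def s382_388 (i sh : Nat) : Nat := Bool.rec (s382_385 i sh) (s385_388 i sh) (Nat.ble 385 i)
noncomputable def s376_388 (i sh : Nat) : Nat := Bool.rec (s376_382 i sh) (s382_388 i sh) (Nat.ble 382 i)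
noncomputable def s366_388 (i sh : Nat) : Nat := Bool.rec (s366_376 i sh) (s376_388 i sh) (Nat.ble 376 i)
noncomputable def s346_388 (i sh : Nat) : Nat := Bool.rec (s346_366 i sh) (s366_388 i sh) (Nat.ble 366 i)
noncomputable def s389_391 (i sh : Nat) : Nat := Bool.rec (Nat.shiftRight leaf389 sh) (Nat.shiftRight leaf390 sh) (Nat.ble 390 i)
noncomputable def s388_391 (i sh : Nat) : Nat := Bool.rec (Nat.shiftRight leaf388 sh) (s389_391 i sh) (Nat.ble 389 i)
noncomputable def s392_394 (i sh : Nat) : Nat := Bool.rec (Nat.shiftRight leaf392 sh) (Nat.shiftRight leaf393 sh) (Nat.ble 393 i)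
noncomputable def s391_394 (i sh : Nat) : Nat := Bool.rec (Nat.shiftRight leaf391 sh) (s392_394 i sh) (Nat.ble 392 i)
noncomputable def s388_394 (i sh : Nat) : Nat := Bool.rec (s388_391 i sh) (s391_394 i sh) (Nat.ble 391 i)
noncomputable def s395_397 (i sh : Nat) : Nat := Bool.rec (Nat.shiftRight leaf395 sh) (Nat.shiftRight leaf396 sh) (Nat.ble 396 i)
noncomputable def s394_397 (i sh : Nat) : Nat := Bool.rec (Nat.shiftRight leaf394 sh) (s395_397 i sh) (Nat.ble 395 i)
noncomputable def s398_400 (i sh : Nat) : Nat := Bool.rec (Nat.shiftRight leaf398 sh) (Nat.shiftRight leaf399 sh) (Nat.ble 399 i)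
noncomputable def s397_400 (i sh : Nat) : Nat := Bool.rec (Nat.shiftRight leaf397 sh) (s398_400 i sh) (Nat.ble 398 i)
noncomputable def s394_400 (i sh : Nat) : Nat := Bool.rec (s394_397 i sh) (s397_400 i sh) (Nat.ble 397 i)
noncomputable def s388_400 (i sh : Nat) : Nat := Bool.rec (s388_394 i sh) (s394_400 i sh) (Nat.ble 394 i)
noncomputable def s401_403 (i sh : Nat) : Nat := Bool.rec (Nat.shiftRight leaf401 sh) (Nat.shiftRight leaf402 sh) (Nat.ble 402 i)
noncomputable def s400_403 (i sh : Nat) : Nat := Bool.rec (Nat.shiftRight leaf400 sh) (s401_403 i sh) (Nat.ble 401 i)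
noncomputable def s404_406 (i sh : Nat) : Nat := Bool.rec (Nat.shiftRight leaf404 sh) (Nat.shiftRight leaf405 sh) (Nat.ble 405 i)
noncomputable def s403_406 (i sh : Nat) : Nat := Bool.rec (Nat.shiftRight leaf403 sh) (s404_406 i sh) (Nat.ble 404 i)
noncomputable def s400_406 (i sh : Nat) : Nat := Bool.rec (s400_403 i sh) (s403_406 i sh) (Nat.ble 403 i)
noncomputable def s407_409 (i sh : Nat) : Nat := Bool.rec (Nat.shiftRight leaf407 sh) (Nat.shiftRight leaf408 sh) (Nat.ble 408 i)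
noncomputable def s406_409 (i sh : Nat) : Nat := Bool.rec (Nat.shiftRight leaf406 sh) (s407_409 i sh) (Nat.ble 407 i)
noncomputable def s410_412 (i sh : Nat) : Nat := Bool.rec (Nat.shiftRight leaf410 sh) (Nat.shiftRight leaf411 sh) (Nat.ble 411 i)
noncomputable def s409_412 (i sh : Nat) : Nat := Bool.rec (Nat.shiftRight leaf409 sh) (s410_412 i sh) (Nat.ble 410 i)
noncomputable def s406_412 (i sh : Nat) : Nat := Bool.rec (s406_409 i sh) (s409_412 i sh) (Nat.ble 409 i)
noncomputable def s400_412 (i sh : Nat) : Nat := Bool.rec (s400_406 i sh) (s406_412 i sh) (Nat.ble 406 i)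
noncomputable def s388_412 (i sh : Nat) : Nat := Bool.rec (s388_400 i sh) (s400_412 i sh) (Nat.ble 400 i)
noncomputable def s413_415 (i sh : Nat) : Nat := Bool.rec (Nat.shiftRight leaf413 sh) (Nat.shiftRight leaf414 sh) (Nat.ble 414 i)
noncomputable def s412_415 (i sh : Nat) : Nat := Bool.rec (Nat.shiftRight leaf412 sh) (s413_415 i sh) (Nat.ble 413 i)
noncomputable def s416_418 (i sh : Nat) : Nat := Bool.rec (Nat.shiftRight leaf416 sh) (Nat.shiftRight leaf417 sh) (Nat.ble 417 i)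
noncomputable def s415_418 (i sh : Nat) : Nat := Bool.rec (Nat.shiftRight leaf415 sh) (s416_418 i sh) (Nat.ble 416 i)
noncomputable def s412_418 (i sh : Nat) : Nat := Bool.rec (s412_415 i sh) (s415_418 i sh) (Nat.ble 415 i)
noncomputable def s419_421 (i sh : Nat) : Nat := Bool.rec (Nat.shiftRight leaf419 sh) (Nat.shiftRight leaf420 sh) (Nat.ble 420 i)
noncomputable def s418_421 (i sh : Nat) : Nat := Bool.rec (Nat.shiftRight leaf418 sh) (s419_421 i sh) (Nat.ble 419 i)
noncomputable def s422_424 (i sh : Nat) : Nat := Bool.rec (Nat.shiftRight leaf422 sh) (Nat.shiftRight leaf423 sh) (Nat.ble 423 i)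
noncomputable def s421_424 (i sh : Nat) : Nat := Bool.rec (Nat.shiftRight leaf421 sh) (s422_424 i sh) (Nat.ble 422 i)
noncomputable def s418_424 (i sh : Nat) : Nat := Bool.rec (s418_421 i sh) (s421_424 i sh) (Nat.ble 421 i)
noncomputable def s412_424 (i sh : Nat) : Nat := Bool.rec (s412_418 i sh) (s418_424 i sh) (Nat.ble 418 i)
noncomputable def s425_427 (i sh : Nat) : Nat := Bool.rec (Nat.shiftRight leaf425 sh) (Nat.shiftRight leaf426 sh) (Nat.ble 426 i)
noncomputable def s424_427 (i sh : Nat) : Nat := Bool.rec (Nat.shiftRight leaf424 sh) (s425_427 i sh) (Nat.ble 425 i)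
noncomputable def s428_430 (i sh : Nat) : Nat := Bool.rec (Nat.shiftRight leaf428 sh) (Nat.shiftRight leaf429 sh) (Nat.ble 429 i)
noncomputable def s427_430 (i sh : Nat) : Nat := Bool.rec (Nat.shiftRight leaf427 sh) (s428_430 i sh) (Nat.ble 428 i)
noncomputable def s424_430 (i sh : Nat) : Nat := Bool.rec (s424_427 i sh) (s427_430 i sh) (Nat.ble 427 i)
noncomputable def s431_433 (i sh : Nat) : Nat := Bool.rec (Nat.shiftRight leaf431 sh) (Nat.shiftRight leaf432 sh) (Nat.ble 432 i)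
noncomputable def s430_433 (i sh : Nat) : Nat := Bool.rec (Nat.shiftRight leaf430 sh) (s431_433 i sh) (Nat.ble 431 i)
noncomputable def s433_435 (i sh : Nat) : Nat := Bool.rec (Nat.shiftRight leaf433 sh) (Nat.shiftRight leaf434 sh) (Nat.ble 434 i)
noncomputable def s435_437 (i sh : Nat) : Nat := Bool.rec (Nat.shiftRight leaf435 sh) (Nat.shiftRight leaf436 sh) (Nat.ble 436 i)
noncomputable def s433_437 (i sh : Nat) : Nat := Bool.rec (s433_435 i sh) (s435_437 i sh) (Nat.ble 435 i)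
noncomputable def s430_437 (i sh : Nat) : Nat := Bool.rec (s430_433 i sh) (s433_437 i sh) (Nat.ble 433 i)
noncomputable def s424_437 (i sh : Nat) : Nat := Bool.rec (s424_430 i sh) (s430_437 i sh) (Nat.ble 430 i)
noncomputable def s412_437 (i sh : Nat) : Nat := Bool.rec (s412_424 i sh) (s424_437 i sh) (Nat.ble 424 i)
noncomputable def s388_437 (i sh : Nat) : Nat := Bool.rec (s388_412 i sh) (s412_437 i sh) (Nat.ble 412 i)
noncomputable def s346_437 (i sh : Nat) : Nat := Bool.rec (s346_388 i sh) (s388_437 i sh) (Nat.ble 388 i)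
noncomputable def s277_437 (i sh : Nat) : Nat := Bool.rec (s277_346 i sh) (s346_437 i sh) (Nat.ble 346 i)
noncomputable def s438_440 (i sh : Nat) : Nat := Bool.rec (Nat.shiftRight leaf438 sh) (Nat.shiftRight leaf439 sh) (Nat.ble 439 i)
noncomputable def s437_440 (i sh : Nat) : Nat := Bool.rec (Nat.shiftRight leaf437 sh) (s438_440 i sh) (Nat.ble 438 i)
noncomputable def s440_442 (i sh : Nat) : Nat := Bool.rec (Nat.shiftRight leaf440 sh) (Nat.shiftRight leaf441 sh) (Nat.ble 441 i)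
noncomputable def s442_444 (i sh : Nat) : Nat := Bool.rec (Nat.shiftRight leaf442 sh) (Nat.shiftRight leaf443 sh) (Nat.ble 443 i)
noncomputable def s440_444 (i sh : Nat) : Nat := Bool.rec (s440_442 i sh) (s442_444 i sh) (Nat.ble 442 i)
noncomputable def s437_444 (i sh : Nat) : Nat := Bool.rec (s437_440 i sh) (s440_444 i sh) (Nat.ble 440 i)
noncomputable def s444_446 (i sh : Nat) : Nat := Bool.rec (Nat.shiftRight leaf444 sh) (Nat.shiftRight leaf445 sh) (Nat.ble 445 i)
noncomputable def s446_448 (i sh : Nat) : Nat := Bool.rec (Nat.shiftRight leaf446 sh) (Nat.shiftRight leaf447 sh) (Nat.ble 447 i)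
noncomputable def s444_448 (i sh : Nat) : Nat := Bool.rec (s444_446 i sh) (s446_448 i sh) (Nat.ble 446 i)
noncomputable def s448_450 (i sh : Nat) : Nat := Bool.rec (Nat.shiftRight leaf448 sh) (Nat.shiftRight leaf449 sh) (Nat.ble 449 i)
noncomputable def s450_452 (i sh : Nat) : Nat := Bool.rec (Nat.shiftRight leaf450 sh) (Nat.shiftRight leaf451 sh) (Nat.ble 451 i)
noncomputable def s448_452 (i sh : Nat) : Nat := Bool.rec (s448_450 i sh) (s450_452 i sh) (Nat.ble 450 i)
noncomputable def s444_452 (i sh : Nat) : Nat := Bool.rec (s444_448 i sh) (s448_452 i sh) (Nat.ble 448 i)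
noncomputable def s437_452 (i sh : Nat) : Nat := Bool.rec (s437_444 i sh) (s444_452 i sh) (Nat.ble 444 i)
noncomputable def s452_454 (i sh : Nat) : Nat := Bool.rec (Nat.shiftRight leaf452 sh) (Nat.shiftRight leaf453 sh) (Nat.ble 453 i)
noncomputable def s454_456 (i sh : Nat) : Nat := Bool.rec (Nat.shiftRight leaf454 sh) (Nat.shiftRight leaf455 sh) (Nat.ble 455 i)
noncomputable def s452_456 (i sh : Nat) : Nat := Bool.rec (s452_454 i sh) (s454_456 i sh) (Nat.ble 454 i)
noncomputable def s456_458 (i sh : Nat) : Nat := Bool.rec (Nat.shiftRight leaf456 sh) (Nat.shiftRight leaf457 sh) (Nat.ble 457 i)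
noncomputable def s458_460 (i sh : Nat) : Nat := Bool.rec (Nat.shiftRight leaf458 sh) (Nat.shiftRight leaf459 sh) (Nat.ble 459 i)
noncomputable def s456_460 (i sh : Nat) : Nat := Bool.rec (s456_458 i sh) (s458_460 i sh) (Nat.ble 458 i)
noncomputable def s452_460 (i sh : Nat) : Nat := Bool.rec (s452_456 i sh) (s456_460 i sh) (Nat.ble 456 i)
noncomputable def s460_462 (i sh : Nat) : Nat := Bool.rec (Nat.shiftRight leaf460 sh) (Nat.shiftRight leaf461 sh) (Nat.ble 461 i)
noncomputable def s462_464 (i sh : Nat) : Nat := Bool.rec (Nat.shiftRight leaf462 sh) (Nat.shiftRight leaf463 sh) (Nat.ble 463 i)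
noncomputable def s460_464 (i sh : Nat) : Nat := Bool.rec (s460_462 i sh) (s462_464 i sh) (Nat.ble 462 i)
noncomputable def s464_466 (i sh : Nat) : Nat := Bool.rec (Nat.shiftRight leaf464 sh) (Nat.shiftRight leaf465 sh) (Nat.ble 465 i)
noncomputable def s466_468 (i sh : Nat) : Nat := Bool.rec (Nat.shiftRight leaf466 sh) (Nat.shiftRight leaf467 sh) (Nat.ble 467 i)
noncomputable def s464_468 (i sh : Nat) : Nat := Bool.rec (s464_466 i sh) (s466_468 i sh) (Nat.ble 466 i)
noncomputable def s460_468 (i sh : Nat) : Nat := Bool.rec (s460_464 i sh) (s464_468 i sh) (Nat.ble 464 i)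
noncomputable def s452_468 (i sh : Nat) : Nat := Bool.rec (s452_460 i sh) (s460_468 i sh) (Nat.ble 460 i)
noncomputable def s437_468 (i sh : Nat) : Nat := Bool.rec (s437_452 i sh) (s452_468 i sh) (Nat.ble 452 i)
noncomputable def s468_470 (i sh : Nat) : Nat := Bool.rec (Nat.shiftRight leaf468 sh) (Nat.shiftRight leaf469 sh) (Nat.ble 469 i)
noncomputable def s470_472 (i sh : Nat) : Nat := Bool.rec (Nat.shiftRight leaf470 sh) (Nat.shiftRight leaf471 sh) (Nat.ble 471 i)
noncomputable def s468_472 (i sh : Nat) : Nat := Bool.rec (s468_470 i sh) (s470_472 i sh) (Nat.ble 470 i)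
noncomputable def s472_474 (i sh : Nat) : Nat := Bool.rec (Nat.shiftRight leaf472 sh) (Nat.shiftRight leaf473 sh) (Nat.ble 473 i)
noncomputable def s474_476 (i sh : Nat) : Nat := Bool.rec (Nat.shiftRight leaf474 sh) (Nat.shiftRight leaf475 sh) (Nat.ble 475 i)
noncomputable def s472_476 (i sh : Nat) : Nat := Bool.rec (s472_474 i sh) (s474_476 i sh) (Nat.ble 474 i)
noncomputable def s468_476 (i sh : Nat) : Nat := Bool.rec (s468_472 i sh) (s472_476 i sh) (Nat.ble 472 i)
noncomputable def s476_478 (i sh : Nat) : Nat := Bool.rec (Nat.shiftRight leaf476 sh) (Nat.shiftRight leaf477 sh) (Nat.ble 477 i)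
noncomputable def s478_480 (i sh : Nat) : Nat := Bool.rec (Nat.shiftRight leaf478 sh) (Nat.shiftRight leaf479 sh) (Nat.ble 479 i)
noncomputable def s476_480 (i sh : Nat) : Nat := Bool.rec (s476_478 i sh) (s478_480 i sh) (Nat.ble 478 i)
noncomputable def s480_482 (i sh : Nat) : Nat := Bool.rec (Nat.shiftRight leaf480 sh) (Nat.shiftRight leaf481 sh) (Nat.ble 481 i)
noncomputable def s482_484 (i sh : Nat) : Nat := Bool.rec (Nat.shiftRight leaf482 sh) (Nat.shiftRight leaf483 sh) (Nat.ble 483 i)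
noncomputable def s480_484 (i sh : Nat) : Nat := Bool.rec (s480_482 i sh) (s482_484 i sh) (Nat.ble 482 i)
noncomputable def s476_484 (i sh : Nat) : Nat := Bool.rec (s476_480 i sh) (s480_484 i sh) (Nat.ble 480 i)
noncomputable def s468_484 (i sh : Nat) : Nat := Bool.rec (s468_476 i sh) (s476_484 i sh) (Nat.ble 476 i)
noncomputable def s484_486 (i sh : Nat) : Nat := Bool.rec (Nat.shiftRight leaf484 sh) (Nat.shiftRight leaf485 sh) (Nat.ble 485 i)
noncomputable def s486_488 (i sh : Nat) : Nat := Bool.rec (Nat.shiftRight leaf486 sh) (Nat.shiftRight leaf487 sh) (Nat.ble 487 i)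
noncomputable def s484_488 (i sh : Nat) : Nat := Bool.rec (s484_486 i sh) (s486_488 i sh) (Nat.ble 486 i)
noncomputable def s488_490 (i sh : Nat) : Nat := Bool.rec (Nat.shiftRight leaf488 sh) (Nat.shiftRight leaf489 sh) (Nat.ble 489 i)
noncomputable def s490_492 (i sh : Nat) : Nat := Bool.rec (Nat.shiftRight leaf490 sh) (Nat.shiftRight leaf491 sh) (Nat.ble 491 i)
noncomputable def s488_492 (i sh : Nat) : Nat := Bool.rec (s488_490 i sh) (s490_492 i sh) (Nat.ble 490 i)
noncomputable def s484_492 (i sh : Nat) : Nat := Bool.rec (s484_488 i sh) (s488_492 i sh) (Nat.ble 488 i)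
noncomputable def s492_494 (i sh : Nat) : Nat := Bool.rec (Nat.shiftRight leaf492 sh) (Nat.shiftRight leaf493 sh) (Nat.ble 493 i)
noncomputable def s494_496 (i sh : Nat) : Nat := Bool.rec (Nat.shiftRight leaf494 sh) (Nat.shiftRight leaf495 sh) (Nat.ble 495 i)
noncomputable def s492_496 (i sh : Nat) : Nat := Bool.rec (s492_494 i sh) (s494_496 i sh) (Nat.ble 494 i)
noncomputable def s496_498 (i sh : Nat) : Nat := Bool.rec (Nat.shiftRight leaf496 sh) (Nat.shiftRight leaf497 sh) (Nat.ble 497 i)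
noncomputable def s499_501 (i sh : Nat) : Nat := Bool.rec (Nat.shiftRight leaf499 sh) (Nat.shiftRight leaf500 sh) (Nat.ble 500 i)
noncomputable def s498_501 (i sh : Nat) : Nat := Bool.rec (Nat.shiftRight leaf498 sh) (s499_501 i sh) (Nat.ble 499 i)
noncomputable def s496_501 (i sh : Nat) : Nat := Bool.rec (s496_498 i sh) (s498_501 i sh) (Nat.ble 498 i)
noncomputable def s492_501 (i sh : Nat) : Nat := Bool.rec (s492_496 i sh) (s496_501 i sh) (Nat.ble 496 i)
noncomputable def s484_501 (i sh : Nat) : Nat := Bool.rec (s484_492 i sh) (s492_501 i sh) (Nat.ble 492 i)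
noncomputable def s468_501 (i sh : Nat) : Nat := Bool.rec (s468_484 i sh) (s484_501 i sh) (Nat.ble 484 i)
noncomputable def s437_501 (i sh : Nat) : Nat := Bool.rec (s437_468 i sh) (s468_501 i sh) (Nat.ble 468 i)
noncomputable def s501_503 (i sh : Nat) : Nat := Bool.rec (Nat.shiftRight leaf501 sh) (Nat.shiftRight leaf502 sh) (Nat.ble 502 i)
noncomputable def s503_505 (i sh : Nat) : Nat := Bool.rec (Nat.shiftRight leaf503 sh) (Nat.shiftRight leaf504 sh) (Nat.ble 504 i)
noncomputable def s501_505 (i sh : Nat) : Nat := Bool.rec (s501_503 i sh) (s503_505 i sh) (Nat.ble 503 i)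
noncomputable def s505_507 (i sh : Nat) : Nat := Bool.rec (Nat.shiftRight leaf505 sh) (Nat.shiftRight leaf506 sh) (Nat.ble 506 i)
noncomputable def s507_509 (i sh : Nat) : Nat := Bool.rec (Nat.shiftRight leaf507 sh) (Nat.shiftRight leaf508 sh) (Nat.ble 508 i)
noncomputable def s505_509 (i sh : Nat) : Nat := Bool.rec (s505_507 i sh) (s507_509 i sh) (Nat.ble 507 i)
noncomputable def s501_509 (i sh : Nat) : Nat := Bool.rec (s501_505 i sh) (s505_509 i sh) (Nat.ble 505 i)
noncomputable def s509_511 (i sh : Nat) : Nat := Bool.rec (Nat.shiftRight leaf509 sh) (Nat.shiftRight leaf510 sh) (Nat.ble 510 i)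
noncomputable def s511_513 (i sh : Nat) : Nat := Bool.rec (Nat.shiftRight leaf511 sh) (Nat.shiftRight leaf512 sh) (Nat.ble 512 i)
noncomputable def s509_513 (i sh : Nat) : Nat := Bool.rec (s509_511 i sh) (s511_513 i sh) (Nat.ble 511 i)
noncomputable def s513_515 (i sh : Nat) : Nat := Bool.rec (Nat.shiftRight leaf513 sh) (Nat.shiftRight leaf514 sh) (Nat.ble 514 i)
noncomputable def s515_517 (i sh : Nat) : Nat := Bool.rec (Nat.shiftRight leaf515 sh) (Nat.shiftRight leaf516 sh) (Nat.ble 516 i)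
noncomputable def s513_517 (i sh : Nat) : Nat := Bool.rec (s513_515 i sh) (s515_517 i sh) (Nat.ble 515 i)
noncomputable def s509_517 (i sh : Nat) : Nat := Bool.rec (s509_513 i sh) (s513_517 i sh) (Nat.ble 513 i)
noncomputable def s501_517 (i sh : Nat) : Nat := Bool.rec (s501_509 i sh) (s509_517 i sh) (Nat.ble 509 i)
noncomputable def s517_519 (i sh : Nat) : Nat := Bool.rec (Nat.shiftRight leaf517 sh) (Nat.shiftRight leaf518 sh) (Nat.ble 518 i)
noncomputable def s519_521 (i sh : Nat) : Nat := Bool.rec (Nat.shiftRight leaf519 sh) (Nat.shiftRight leaf520 sh) (Nat.ble 520 i)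
noncomputable def s517_521 (i sh : Nat) : Nat := Bool.rec (s517_519 i sh) (s519_521 i sh) (Nat.ble 519 i)
noncomputable def s521_523 (i sh : Nat) : Nat := Bool.rec (Nat.shiftRight leaf521 sh) (Nat.shiftRight leaf522 sh) (Nat.ble 522 i)
noncomputable def s524_526 (i sh : Nat) : Nat := Bool.rec (Nat.shiftRight leaf524 sh) (Nat.shiftRight leaf525 sh) (Nat.ble 525 i)
noncomputable def s523_526 (i sh : Nat) : Nat := Bool.rec (Nat.shiftRight leaf523 sh) (s524_526 i sh) (Nat.ble 524 i)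
noncomputable def s521_526 (i sh : Nat) : Nat := Bool.rec (s521_523 i sh) (s523_526 i sh) (Nat.ble 523 i)
noncomputable def s517_526 (i sh : Nat) : Nat := Bool.rec (s517_521 i sh) (s521_526 i sh) (Nat.ble 521 i)
noncomputable def s527_529 (i sh : Nat) : Nat := Bool.rec (Nat.shiftRight leaf527 sh) (Nat.shiftRight leaf528 sh) (Nat.ble 528 i)
noncomputable def s526_529 (i sh : Nat) : Nat := Bool.rec (Nat.shiftRight leaf526 sh) (s527_529 i sh) (Nat.ble 527 i)
noncomputable def s530_532 (i sh : Nat) : Nat := Bool.rec (Nat.shiftRight leaf530 sh) (Nat.shiftRight leaf531 sh) (Nat.ble 531 i)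
noncomputable def s529_532 (i sh : Nat) : Nat := Bool.rec (Nat.shiftRight leaf529 sh) (s530_532 i sh) (Nat.ble 530 i)
noncomputable def s526_532 (i sh : Nat) : Nat := Bool.rec (s526_529 i sh) (s529_532 i sh) (Nat.ble 529 i)
noncomputable def s533_535 (i sh : Nat) : Nat := Bool.rec (Nat.shiftRight leaf533 sh) (Nat.shiftRight leaf534 sh) (Nat.ble 534 i)
noncomputable def s532_535 (i sh : Nat) : Nat := Bool.rec (Nat.shiftRight leaf532 sh) (s533_535 i sh) (Nat.ble 533 i)
noncomputable def s535_537 (i sh : Nat) : Nat := Bool.rec (Nat.shiftRight leaf535 sh) (Nat.shiftRight leaf536 sh) (Nat.ble 536 i)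
noncomputable def s537_539 (i sh : Nat) : Nat := Bool.rec (Nat.shiftRight leaf537 sh) (Nat.shiftRight leaf538 sh) (Nat.ble 538 i)
noncomputable def s535_539 (i sh : Nat) : Nat := Bool.rec (s535_537 i sh) (s537_539 i sh) (Nat.ble 537 i)
noncomputable def s532_539 (i sh : Nat) : Nat := Bool.rec (s532_535 i sh) (s535_539 i sh) (Nat.ble 535 i)
noncomputable def s526_539 (i sh : Nat) : Nat := Bool.rec (s526_532 i sh) (s532_539 i sh) (Nat.ble 532 i)
noncomputable def s517_539 (i sh : Nat) : Nat := Bool.rec (s517_526 i sh) (s526_539 i sh) (Nat.ble 526 i)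
noncomputable def s501_539 (i sh : Nat) : Nat := Bool.rec (s501_517 i sh) (s517_539 i sh) (Nat.ble 517 i)
noncomputable def s540_542 (i sh : Nat) : Nat := Bool.rec (Nat.shiftRight leaf540 sh) (Nat.shiftRight leaf541 sh) (Nat.ble 541 i)
noncomputable def s539_542 (i sh : Nat) : Nat := Bool.rec (Nat.shiftRight leaf539 sh) (s540_542 i sh) (Nat.ble 540 i)
noncomputable def s543_545 (i sh : Nat) : Nat := Bool.rec (Nat.shiftRight leaf543 sh) (Nat.shiftRight leaf544 sh) (Nat.ble 544 i)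
noncomputable def s542_545 (i sh : Nat) : Nat := Bool.rec (Nat.shiftRight leaf542 sh) (s543_545 i sh) (Nat.ble 543 i)
noncomputable def s539_545 (i sh : Nat) : Nat := Bool.rec (s539_542 i sh) (s542_545 i sh) (Nat.ble 542 i)
noncomputable def s546_548 (i sh : Nat) : Nat := Bool.rec (Nat.shiftRight leaf546 sh) (Nat.shiftRight leaf547 sh) (Nat.ble 547 i)
noncomputable def s545_548 (i sh : Nat) : Nat := Bool.rec (Nat.shiftRight leaf545 sh) (s546_548 i sh) (Nat.ble 546 i)
noncomputable def s549_551 (i sh : Nat) : Nat := Bool.rec (Nat.shiftRight leaf549 sh) (Nat.shiftRight leaf550 sh) (Nat.ble 550 i)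
noncomputable def s548_551 (i sh : Nat) : Nat := Bool.rec (Nat.shiftRight leaf548 sh) (s549_551 i sh) (Nat.ble 549 i)
noncomputable def s545_551 (i sh : Nat) : Nat := Bool.rec (s545_548 i sh) (s548_551 i sh) (Nat.ble 548 i)
noncomputable def s539_551 (i sh : Nat) : Nat := Bool.rec (s539_545 i sh) (s545_551 i sh) (Nat.ble 545 i)
noncomputable def s552_554 (i sh : Nat) : Nat := Bool.rec (Nat.shiftRight leaf552 sh) (Nat.shiftRight leaf553 sh) (Nat.ble 553 i)
noncomputable def s551_554 (i sh : Nat) : Nat := Bool.rec (Nat.shiftRight leaf551 sh) (s552_554 i sh) (Nat.ble 552 i)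
noncomputable def s555_557 (i sh : Nat) : Nat := Bool.rec (Nat.shiftRight leaf555 sh) (Nat.shiftRight leaf556 sh) (Nat.ble 556 i)
noncomputable def s554_557 (i sh : Nat) : Nat := Bool.rec (Nat.shiftRight leaf554 sh) (s555_557 i sh) (Nat.ble 555 i)
noncomputable def s551_557 (i sh : Nat) : Nat := Bool.rec (s551_554 i sh) (s554_557 i sh) (Nat.ble 554 i)
noncomputable def s558_560 (i sh : Nat) : Nat := Bool.rec (Nat.shiftRight leaf558 sh) (Nat.shiftRight leaf559 sh) (Nat.ble 559 i)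
noncomputable def s557_560 (i sh : Nat) : Nat := Bool.rec (Nat.shiftRight leaf557 sh) (s558_560 i sh) (Nat.ble 558 i)
noncomputable def s560_562 (i sh : Nat) : Nat := Bool.rec (Nat.shiftRight leaf560 sh) (Nat.shiftRight leaf561 sh) (Nat.ble 561 i)
noncomputable def s562_564 (i sh : Nat) : Nat := Bool.rec (Nat.shiftRight leaf562 sh) (Nat.shiftRight leaf563 sh) (Nat.ble 563 i)
noncomputable def s560_564 (i sh : Nat) : Nat := Bool.rec (s560_562 i sh) (s562_564 i sh) (Nat.ble 562 i)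
noncomputable def s557_564 (i sh : Nat) : Nat := Bool.rec (s557_560 i sh) (s560_564 i sh) (Nat.ble 560 i)
noncomputable def s551_564 (i sh : Nat) : Nat := Bool.rec (s551_557 i sh) (s557_564 i sh) (Nat.ble 557 i)
noncomputable def s539_564 (i sh : Nat) : Nat := Bool.rec (s539_551 i sh) (s551_564 i sh) (Nat.ble 551 i)
noncomputable def s565_567 (i sh : Nat) : Nat := Bool.rec (Nat.shiftRight leaf565 sh) (Nat.shiftRight leaf566 sh) (Nat.ble 566 i)
noncomputable def s564_567 (i sh : Nat) : Nat := Bool.rec (Nat.shiftRight leaf564 sh) (s565_567 i sh) (Nat.ble 565 i)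
noncomputable def s568_570 (i sh : Nat) : Nat := Bool.rec (Nat.shiftRight leaf568 sh) (Nat.shiftRight leaf569 sh) (Nat.ble 569 i)
noncomputable def s567_570 (i sh : Nat) : Nat := Bool.rec (Nat.shiftRight leaf567 sh) (s568_570 i sh) (Nat.ble 568 i)
noncomputable def s564_570 (i sh : Nat) : Nat := Bool.rec (s564_567 i sh) (s567_570 i sh) (Nat.ble 567 i)
noncomputable def s571_573 (i sh : Nat) : Nat := Bool.rec (Nat.shiftRight leaf571 sh) (Nat.shiftRight leaf572 sh) (Nat.ble 572 i)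
noncomputable def s570_573 (i sh : Nat) : Nat := Bool.rec (Nat.shiftRight leaf570 sh) (s571_573 i sh) (Nat.ble 571 i)
noncomputable def s574_576 (i sh : Nat) : Nat := Bool.rec (Nat.shiftRight leaf574 sh) (Nat.shiftRight leaf575 sh) (Nat.ble 575 i)
noncomputable def s573_576 (i sh : Nat) : Nat := Bool.rec (Nat.shiftRight leaf573 sh) (s574_576 i sh) (Nat.ble 574 i)
noncomputable def s570_576 (i sh : Nat) : Nat := Bool.rec (s570_573 i sh) (s573_576 i sh) (Nat.ble 573 i)
noncomputable def s564_576 (i sh : Nat) : Nat := Bool.rec (s564_570 i sh) (s570_576 i sh) (Nat.ble 570 i)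
noncomputable def s577_579 (i sh : Nat) : Nat := Bool.rec (Nat.shiftRight leaf577 sh) (Nat.shiftRight leaf578 sh) (Nat.ble 578 i)
noncomputable def s576_579 (i sh : Nat) : Nat := Bool.rec (Nat.shiftRight leaf576 sh) (s577_579 i sh) (Nat.ble 577 i)
noncomputable def s580_582 (i sh : Nat) : Nat := Bool.rec (Nat.shiftRight leaf580 sh) (Nat.shiftRight leaf581 sh) (Nat.ble 581 i)
noncomputable def s579_582 (i sh : Nat) : Nat := Bool.rec (Nat.shiftRight leaf579 sh) (s580_582 i sh) (Nat.ble 580 i)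
noncomputable def s576_582 (i sh : Nat) : Nat := Bool.rec (s576_579 i sh) (s579_582 i sh) (Nat.ble 579 i)
noncomputable def s583_585 (i sh : Nat) : Nat := Bool.rec (Nat.shiftRight leaf583 sh) (Nat.shiftRight leaf584 sh) (Nat.ble 584 i)
noncomputable def s582_585 (i sh : Nat) : Nat := Bool.rec (Nat.shiftRight leaf582 sh) (s583_585 i sh) (Nat.ble 583 i)
noncomputable def s585_587 (i sh : Nat) : Nat := Bool.rec (Nat.shiftRight leaf585 sh) (Nat.shiftRight leaf586 sh) (Nat.ble 586 i)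
noncomputable def s587_589 (i sh : Nat) : Nat := Bool.rec (Nat.shiftRight leaf587 sh) (Nat.shiftRight leaf588 sh) (Nat.ble 588 i)
noncomputable def s585_589 (i sh : Nat) : Nat := Bool.rec (s585_587 i sh) (s587_589 i sh) (Nat.ble 587 i)
noncomputable def s582_589 (i sh : Nat) : Nat := Bool.rec (s582_585 i sh) (s585_589 i sh) (Nat.ble 585 i)
noncomputable def s576_589 (i sh : Nat) : Nat := Bool.rec (s576_582 i sh) (s582_589 i sh) (Nat.ble 582 i)
noncomputable def s564_589 (i sh : Nat) : Nat := Bool.rec (s564_576 i sh) (s576_589 i sh) (Nat.ble 576 i)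
noncomputable def s539_589 (i sh : Nat) : Nat := Bool.rec (s539_564 i sh) (s564_589 i sh) (Nat.ble 564 i)
noncomputable def s501_589 (i sh : Nat) : Nat := Bool.rec (s501_539 i sh) (s539_589 i sh) (Nat.ble 539 i)
noncomputable def s437_589 (i sh : Nat) : Nat := Bool.rec (s437_501 i sh) (s501_589 i sh) (Nat.ble 501 i)
noncomputable def s590_592 (i sh : Nat) : Nat := Bool.rec (Nat.shiftRight leaf590 sh) (Nat.shiftRight leaf591 sh) (Nat.ble 591 i)
noncomputable def s589_592 (i sh : Nat) : Nat := Bool.rec (Nat.shiftRight leaf589 sh) (s590_592 i sh) (Nat.ble 590 i)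
noncomputable def s593_595 (i sh : Nat) : Nat := Bool.rec (Nat.shiftRight leaf593 sh) (Nat.shiftRight leaf594 sh) (Nat.ble 594 i)
noncomputable def s592_595 (i sh : Nat) : Nat := Bool.rec (Nat.shiftRight leaf592 sh) (s593_595 i sh) (Nat.ble 593 i)
noncomputable def s589_595 (i sh : Nat) : Nat := Bool.rec (s589_592 i sh) (s592_595 i sh) (Nat.ble 592 i)
noncomputable def s596_598 (i sh : Nat) : Nat := Bool.rec (Nat.shiftRight leaf596 sh) (Nat.shiftRight leaf597 sh) (Nat.ble 597 i)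
noncomputable def s595_598 (i sh : Nat) : Nat := Bool.rec (Nat.shiftRight leaf595 sh) (s596_598 i sh) (Nat.ble 596 i)
noncomputable def s599_601 (i sh : Nat) : Nat := Bool.rec (Nat.shiftRight leaf599 sh) (Nat.shiftRight leaf600 sh) (Nat.ble 600 i)
noncomputable def s598_601 (i sh : Nat) : Nat := Bool.rec (Nat.shiftRight leaf598 sh) (s599_601 i sh) (Nat.ble 599 i)
noncomputable def s595_601 (i sh : Nat) : Nat := Bool.rec (s595_598 i sh) (s598_601 i sh) (Nat.ble 598 i)
noncomputable def s589_601 (i sh : Nat) : Nat := Bool.rec (s589_595 i sh) (s595_601 i sh) (Nat.ble 595 i)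
noncomputable def s602_604 (i sh : Nat) : Nat := Bool.rec (Nat.shiftRight leaf602 sh) (Nat.shiftRight leaf603 sh) (Nat.ble 603 i)
noncomputable def s601_604 (i sh : Nat) : Nat := Bool.rec (Nat.shiftRight leaf601 sh) (s602_604 i sh) (Nat.ble 602 i)
noncomputable def s605_607 (i sh : Nat) : Nat := Bool.rec (Nat.shiftRight leaf605 sh) (Nat.shiftRight leaf606 sh) (Nat.ble 606 i)
noncomputable def s604_607 (i sh : Nat) : Nat := Bool.rec (Nat.shiftRight leaf604 sh) (s605_607 i sh) (Nat.ble 605 i)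
noncomputable def s601_607 (i sh : Nat) : Nat := Bool.rec (s601_604 i sh) (s604_607 i sh) (Nat.ble 604 i)
noncomputable def s608_610 (i sh : Nat) : Nat := Bool.rec (Nat.shiftRight leaf608 sh) (Nat.shiftRight leaf609 sh) (Nat.ble 609 i)
noncomputable def s607_610 (i sh : Nat) : Nat := Bool.rec (Nat.shiftRight leaf607 sh) (s608_610 i sh) (Nat.ble 608 i)
noncomputable def s610_612 (i sh : Nat) : Nat := Bool.rec (Nat.shiftRight leaf610 sh) (Nat.shiftRight leaf611 sh) (Nat.ble 611 i)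
noncomputable def s612_614 (i sh : Nat) : Nat := Bool.rec (Nat.shiftRight leaf612 sh) (Nat.shiftRight leaf613 sh) (Nat.ble 613 i)
noncomputable def s610_614 (i sh : Nat) : Nat := Bool.rec (s610_612 i sh) (s612_614 i sh) (Nat.ble 612 i)
noncomputable def s607_614 (i sh : Nat) : Nat := Bool.rec (s607_610 i sh) (s610_614 i sh) (Nat.ble 610 i)
noncomputable def s601_614 (i sh : Nat) : Nat := Bool.rec (s601_607 i sh) (s607_614 i sh) (Nat.ble 607 i)
noncomputable def s589_614 (i sh : Nat) : Nat := Bool.rec (s589_601 i sh) (s601_614 i sh) (Nat.ble 601 i)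
noncomputable def s615_617 (i sh : Nat) : Nat := Bool.rec (Nat.shiftRight leaf615 sh) (Nat.shiftRight leaf616 sh) (Nat.ble 616 i)
noncomputable def s614_617 (i sh : Nat) : Nat := Bool.rec (Nat.shiftRight leaf614 sh) (s615_617 i sh) (Nat.ble 615 i)
noncomputable def s618_620 (i sh : Nat) : Nat := Bool.rec (Nat.shiftRight leaf618 sh) (Nat.shiftRight leaf619 sh) (Nat.ble 619 i)
noncomputable def s617_620 (i sh : Nat) : Nat := Bool.rec (Nat.shiftRight leaf617 sh) (s618_620 i sh) (Nat.ble 618 i)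
noncomputable def s614_620 (i sh : Nat) : Nat := Bool.rec (s614_617 i sh) (s617_620 i sh) (Nat.ble 617 i)
noncomputable def s621_623 (i sh : Nat) : Nat := Bool.rec (Nat.shiftRight leaf621 sh) (Nat.shiftRight leaf622 sh) (Nat.ble 622 i)
noncomputable def s620_623 (i sh : Nat) : Nat := Bool.rec (Nat.shiftRight leaf620 sh) (s621_623 i sh) (Nat.ble 621 i)
noncomputable def s624_626 (i sh : Nat) : Nat := Bool.rec (Nat.shiftRight leaf624 sh) (Nat.shiftRight leaf625 sh) (Nat.ble 625 i)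
noncomputable def s623_626 (i sh : Nat) : Nat := Bool.rec (Nat.shiftRight leaf623 sh) (s624_626 i sh) (Nat.ble 624 i)
noncomputable def s620_626 (i sh : Nat) : Nat := Bool.rec (s620_623 i sh) (s623_626 i sh) (Nat.ble 623 i)
noncomputable def s614_626 (i sh : Nat) : Nat := Bool.rec (s614_620 i sh) (s620_626 i sh) (Nat.ble 620 i)
noncomputable def s627_629 (i sh : Nat) : Nat := Bool.rec (Nat.shiftRight leaf627 sh) (Nat.shiftRight leaf628 sh) (Nat.ble 628 i)
noncomputable def s626_629 (i sh : Nat) : Nat := Bool.rec (Nat.shiftRight leaf626 sh) (s627_629 i sh) (Nat.ble 627 i)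
noncomputable def s629_631 (i sh : Nat) : Nat := Bool.rec (Nat.shiftRight leaf629 sh) (Nat.shiftRight leaf630 sh) (Nat.ble 630 i)
noncomputable def s631_633 (i sh : Nat) : Nat := Bool.rec (Nat.shiftRight leaf631 sh) (Nat.shiftRight leaf632 sh) (Nat.ble 632 i)
noncomputable def s629_633 (i sh : Nat) : Nat := Bool.rec (s629_631 i sh) (s631_633 i sh) (Nat.ble 631 i)
noncomputable def s626_633 (i sh : Nat) : Nat := Bool.rec (s626_629 i sh) (s629_633 i sh) (Nat.ble 629 i)
noncomputable def s634_636 (i sh : Nat) : Nat := Bool.rec (Nat.shiftRight leaf634 sh) (Nat.shiftRight leaf635 sh) (Nat.ble 635 i)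
noncomputable def s633_636 (i sh : Nat) : Nat := Bool.rec (Nat.shiftRight leaf633 sh) (s634_636 i sh) (Nat.ble 634 i)
noncomputable def s637_639 (i sh : Nat) : Nat := Bool.rec (Nat.shiftRight leaf637 sh) (Nat.shiftRight leaf638 sh) (Nat.ble 638 i)
noncomputable def s636_639 (i sh : Nat) : Nat := Bool.rec (Nat.shiftRight leaf636 sh) (s637_639 i sh) (Nat.ble 637 i)
noncomputable def s633_639 (i sh : Nat) : Nat := Bool.rec (s633_636 i sh) (s636_639 i sh) (Nat.ble 636 i)
noncomputable def s640_642 (i sh : Nat) : Nat := Bool.rec (Nat.shiftRight leaf640 sh) (Nat.shiftRight leaf641 sh) (Nat.ble 641 i)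
noncomputable def s639_642 (i sh : Nat) : Nat := Bool.rec (Nat.shiftRight leaf639 sh) (s640_642 i sh) (Nat.ble 640 i)
noncomputable def s643_645 (i sh : Nat) : Nat := Bool.rec (Nat.shiftRight leaf643 sh) (Nat.shiftRight leaf644 sh) (Nat.ble 644 i)
noncomputable def s642_645 (i sh : Nat) : Nat := Bool.rec (Nat.shiftRight leaf642 sh) (s643_645 i sh) (Nat.ble 643 i)
noncomputable def s639_645 (i sh : Nat) : Nat := Bool.rec (s639_642 i sh) (s642_645 i sh) (Nat.ble 642 i)
noncomputable def s633_645 (i sh : Nat) : Nat := Bool.rec (s633_639 i sh) (s639_645 i sh) (Nat.ble 639 i)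
noncomputable def s626_645 (i sh : Nat) : Nat := Bool.rec (s626_633 i sh) (s633_645 i sh) (Nat.ble 633 i)
noncomputable def s614_645 (i sh : Nat) : Nat := Bool.rec (s614_626 i sh) (s626_645 i sh) (Nat.ble 626 i)
noncomputable def s589_645 (i sh : Nat) : Nat := Bool.rec (s589_614 i sh) (s614_645 i sh) (Nat.ble 614 i)
noncomputable def s646_648 (i sh : Nat) : Nat := Bool.rec (Nat.shiftRight leaf646 sh) (Nat.shiftRight leaf647 sh) (Nat.ble 647 i)
noncomputable def s645_648 (i sh : Nat) : Nat := Bool.rec (Nat.shiftRight leaf645 sh) (s646_648 i sh) (Nat.ble 646 i)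
noncomputable def s649_651 (i sh : Nat) : Nat := Bool.rec (Nat.shiftRight leaf649 sh) (Nat.shiftRight leaf650 sh) (Nat.ble 650 i)
noncomputable def s648_651 (i sh : Nat) : Nat := Bool.rec (Nat.shiftRight leaf648 sh) (s649_651 i sh) (Nat.ble 649 i)
noncomputable def s645_651 (i sh : Nat) : Nat := Bool.rec (s645_648 i sh) (s648_651 i sh) (Nat.ble 648 i)
noncomputable def s652_654 (i sh : Nat) : Nat := Bool.rec (Nat.shiftRight leaf652 sh) (Nat.shiftRight leaf653 sh) (Nat.ble 653 i)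
noncomputable def s651_654 (i sh : Nat) : Nat := Bool.rec (Nat.shiftRight leaf651 sh) (s652_654 i sh) (Nat.ble 652 i)
noncomputable def s655_657 (i sh : Nat) : Nat := Bool.rec (Nat.shiftRight leaf655 sh) (Nat.shiftRight leaf656 sh) (Nat.ble 656 i)
noncomputable def s654_657 (i sh : Nat) : Nat := Bool.rec (Nat.shiftRight leaf654 sh) (s655_657 i sh) (Nat.ble 655 i)
noncomputable def s651_657 (i sh : Nat) : Nat := Bool.rec (s651_654 i sh) (s654_657 i sh) (Nat.ble 654 i)
noncomputable def s645_657 (i sh : Nat) : Nat := Bool.rec (s645_651 i sh) (s651_657 i sh) (Nat.ble 651 i)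
noncomputable def s658_660 (i sh : Nat) : Nat := Bool.rec (Nat.shiftRight leaf658 sh) (Nat.shiftRight leaf659 sh) (Nat.ble 659 i)
noncomputable def s657_660 (i sh : Nat) : Nat := Bool.rec (Nat.shiftRight leaf657 sh) (s658_660 i sh) (Nat.ble 658 i)
noncomputable def s661_663 (i sh : Nat) : Nat := Bool.rec (Nat.shiftRight leaf661 sh) (Nat.shiftRight leaf662 sh) (Nat.ble 662 i)
noncomputable def s660_663 (i sh : Nat) : Nat := Bool.rec (Nat.shiftRight leaf660 sh) (s661_663 i sh) (Nat.ble 661 i)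
noncomputable def s657_663 (i sh : Nat) : Nat := Bool.rec (s657_660 i sh) (s660_663 i sh) (Nat.ble 660 i)
noncomputable def s664_666 (i sh : Nat) : Nat := Bool.rec (Nat.shiftRight leaf664 sh) (Nat.shiftRight leaf665 sh) (Nat.ble 665 i)
noncomputable def s663_666 (i sh : Nat) : Nat := Bool.rec (Nat.shiftRight leaf663 sh) (s664_666 i sh) (Nat.ble 664 i)
noncomputable def s667_669 (i sh : Nat) : Nat := Bool.rec (Nat.shiftRight leaf667 sh) (Nat.shiftRight leaf668 sh) (Nat.ble 668 i)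
noncomputable def s666_669 (i sh : Nat) : Nat := Bool.rec (Nat.shiftRight leaf666 sh) (s667_669 i sh) (Nat.ble 667 i)
noncomputable def s663_669 (i sh : Nat) : Nat := Bool.rec (s663_666 i sh) (s666_669 i sh) (Nat.ble 666 i)
noncomputable def s657_669 (i sh : Nat) : Nat := Bool.rec (s657_663 i sh) (s663_669 i sh) (Nat.ble 663 i)
noncomputable def s645_669 (i sh : Nat) : Nat := Bool.rec (s645_657 i sh) (s657_669 i sh) (Nat.ble 657 i)
noncomputable def s670_672 (i sh : Nat) : Nat := Bool.rec (Nat.shiftRight leaf670 sh) (Nat.shiftRight leaf671 sh) (Nat.ble 671 i)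
noncomputable def s669_672 (i sh : Nat) : Nat := Bool.rec (Nat.shiftRight leaf669 sh) (s670_672 i sh) (Nat.ble 670 i)
noncomputable def s673_675 (i sh : Nat) : Nat := Bool.rec (Nat.shiftRight leaf673 sh) (Nat.shiftRight leaf674 sh) (Nat.ble 674 i)
noncomputable def s672_675 (i sh : Nat) : Nat := Bool.rec (Nat.shiftRight leaf672 sh) (s673_675 i sh) (Nat.ble 673 i)
noncomputable def s669_675 (i sh : Nat) : Nat := Bool.rec (s669_672 i sh) (s672_675 i sh) (Nat.ble 672 i)
noncomputable def s676_678 (i sh : Nat) : Nat := Bool.rec (Nat.shiftRight leaf676 sh) (Nat.shiftRight leaf677 sh) (Nat.ble 677 i)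
noncomputable def s675_678 (i sh : Nat) : Nat := Bool.rec (Nat.shiftRight leaf675 sh) (s676_678 i sh) (Nat.ble 676 i)
noncomputable def s679_681 (i sh : Nat) : Nat := Bool.rec (Nat.shiftRight leaf679 sh) (Nat.shiftRight leaf680 sh) (Nat.ble 680 i)
noncomputable def s678_681 (i sh : Nat) : Nat := Bool.rec (Nat.shiftRight leaf678 sh) (s679_681 i sh) (Nat.ble 679 i)
noncomputable def s675_681 (i sh : Nat) : Nat := Bool.rec (s675_678 i sh) (s678_681 i sh) (Nat.ble 678 i)
noncomputable def s669_681 (i sh : Nat) : Nat := Bool.rec (s669_675 i sh) (s675_681 i sh) (Nat.ble 675 i)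
noncomputable def s682_684 (i sh : Nat) : Nat := Bool.rec (Nat.shiftRight leaf682 sh) (Nat.shiftRight leaf683 sh) (Nat.ble 683 i)
noncomputable def s681_684 (i sh : Nat) : Nat := Bool.rec (Nat.shiftRight leaf681 sh) (s682_684 i sh) (Nat.ble 682 i)
noncomputable def s685_687 (i sh : Nat) : Nat := Bool.rec (Nat.shiftRight leaf685 sh) (Nat.shiftRight leaf686 sh) (Nat.ble 686 i)
noncomputable def s684_687 (i sh : Nat) : Nat := Bool.rec (Nat.shiftRight leaf684 sh) (s685_687 i sh) (Nat.ble 685 i)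
noncomputable def s681_687 (i sh : Nat) : Nat := Bool.rec (s681_684 i sh) (s684_687 i sh) (Nat.ble 684 i)
noncomputable def s688_690 (i sh : Nat) : Nat := Bool.rec (Nat.shiftRight leaf688 sh) (Nat.shiftRight leaf689 sh) (Nat.ble 689 i)
noncomputable def s687_690 (i sh : Nat) : Nat := Bool.rec (Nat.shiftRight leaf687 sh) (s688_690 i sh) (Nat.ble 688 i)
noncomputable def s690_692 (i sh : Nat) : Nat := Bool.rec (Nat.shiftRight leaf690 sh) (Nat.shiftRight leaf691 sh) (Nat.ble 691 i)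
noncomputable def s692_694 (i sh : Nat) : Nat := Bool.rec (Nat.shiftRight leaf692 sh) (Nat.shiftRight leaf693 sh) (Nat.ble 693 i)
noncomputable def s690_694 (i sh : Nat) : Nat := Bool.rec (s690_692 i sh) (s692_694 i sh) (Nat.ble 692 i)
noncomputable def s687_694 (i sh : Nat) : Nat := Bool.rec (s687_690 i sh) (s690_694 i sh) (Nat.ble 690 i)
noncomputable def s681_694 (i sh : Nat) : Nat := Bool.rec (s681_687 i sh) (s687_694 i sh) (Nat.ble 687 i)
noncomputable def s669_694 (i sh : Nat) : Nat := Bool.rec (s669_681 i sh) (s681_694 i sh) (Nat.ble 681 i)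
noncomputable def s645_694 (i sh : Nat) : Nat := Bool.rec (s645_669 i sh) (s669_694 i sh) (Nat.ble 669 i)
noncomputable def s695_697 (i sh : Nat) : Nat := Bool.rec (Nat.shiftRight leaf695 sh) (Nat.shiftRight leaf696 sh) (Nat.ble 696 i)
noncomputable def s694_697 (i sh : Nat) : Nat := Bool.rec (Nat.shiftRight leaf694 sh) (s695_697 i sh) (Nat.ble 695 i)
noncomputable def s698_700 (i sh : Nat) : Nat := Bool.rec (Nat.shiftRight leaf698 sh) (Nat.shiftRight leaf699 sh) (Nat.ble 699 i)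
noncomputable def s697_700 (i sh : Nat) : Nat := Bool.rec (Nat.shiftRight leaf697 sh) (s698_700 i sh) (Nat.ble 698 i)
noncomputable def s694_700 (i sh : Nat) : Nat := Bool.rec (s694_697 i sh) (s697_700 i sh) (Nat.ble 697 i)
noncomputable def s701_703 (i sh : Nat) : Nat := Bool.rec (Nat.shiftRight leaf701 sh) (Nat.shiftRight leaf702 sh) (Nat.ble 702 i)
noncomputable def s700_703 (i sh : Nat) : Nat := Bool.rec (Nat.shiftRight leaf700 sh) (s701_703 i sh) (Nat.ble 701 i)
noncomputable def s704_706 (i sh : Nat) : Nat := Bool.rec (Nat.shiftRight leaf704 sh) (Nat.shiftRight leaf705 sh) (Nat.ble 705 i)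
noncomputable def s703_706 (i sh : Nat) : Nat := Bool.rec (Nat.shiftRight leaf703 sh) (s704_706 i sh) (Nat.ble 704 i)
noncomputable def s700_706 (i sh : Nat) : Nat := Bool.rec (s700_703 i sh) (s703_706 i sh) (Nat.ble 703 i)
noncomputable def s694_706 (i sh : Nat) : Nat := Bool.rec (s694_700 i sh) (s700_706 i sh) (Nat.ble 700 i)
noncomputable def s707_709 (i sh : Nat) : Nat := Bool.rec (Nat.shiftRight leaf707 sh) (Nat.shiftRight leaf708 sh) (Nat.ble 708 i)
noncomputable def s706_709 (i sh : Nat) : Nat := Bool.rec (Nat.shiftRight leaf706 sh) (s707_709 i sh) (Nat.ble 707 i)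
noncomputable def s710_712 (i sh : Nat) : Nat := Bool.rec (Nat.shiftRight leaf710 sh) (Nat.shiftRight leaf711 sh) (Nat.ble 711 i)
noncomputable def s709_712 (i sh : Nat) : Nat := Bool.rec (Nat.shiftRight leaf709 sh) (s710_712 i sh) (Nat.ble 710 i)
noncomputable def s706_712 (i sh : Nat) : Nat := Bool.rec (s706_709 i sh) (s709_712 i sh) (Nat.ble 709 i)
noncomputable def s713_715 (i sh : Nat) : Nat := Bool.rec (Nat.shiftRight leaf713 sh) (Nat.shiftRight leaf714 sh) (Nat.ble 714 i)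
noncomputable def s712_715 (i sh : Nat) : Nat := Bool.rec (Nat.shiftRight leaf712 sh) (s713_715 i sh) (Nat.ble 713 i)
noncomputable def s716_718 (i sh : Nat) : Nat := Bool.rec (Nat.shiftRight leaf716 sh) (Nat.shiftRight leaf717 sh) (Nat.ble 717 i)
noncomputable def s715_718 (i sh : Nat) : Nat := Bool.rec (Nat.shiftRight leaf715 sh) (s716_718 i sh) (Nat.ble 716 i)
noncomputable def s712_718 (i sh : Nat) : Nat := Bool.rec (s712_715 i sh) (s715_718 i sh) (Nat.ble 715 i)
noncomputable def s706_718 (i sh : Nat) : Nat := Bool.rec (s706_712 i sh) (s712_718 i sh) (Nat.ble 712 i)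
noncomputable def s694_718 (i sh : Nat) : Nat := Bool.rec (s694_706 i sh) (s706_718 i sh) (Nat.ble 706 i)
noncomputable def s719_721 (i sh : Nat) : Nat := Bool.rec (Nat.shiftRight leaf719 sh) (Nat.shiftRight leaf720 sh) (Nat.ble 720 i)
noncomputable def s718_721 (i sh : Nat) : Nat := Bool.rec (Nat.shiftRight leaf718 sh) (s719_721 i sh) (Nat.ble 719 i)
noncomputable def s722_724 (i sh : Nat) : Nat := Bool.rec (Nat.shiftRight leaf722 sh) (Nat.shiftRight leaf723 sh) (Nat.ble 723 i)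
noncomputable def s721_724 (i sh : Nat) : Nat := Bool.rec (Nat.shiftRight leaf721 sh) (s722_724 i sh) (Nat.ble 722 i)
noncomputable def s718_724 (i sh : Nat) : Nat := Bool.rec (s718_721 i sh) (s721_724 i sh) (Nat.ble 721 i)
noncomputable def s725_727 (i sh : Nat) : Nat := Bool.rec (Nat.shiftRight leaf725 sh) (Nat.shiftRight leaf726 sh) (Nat.ble 726 i)
noncomputable def s724_727 (i sh : Nat) : Nat := Bool.rec (Nat.shiftRight leaf724 sh) (s725_727 i sh) (Nat.ble 725 i)
noncomputable def s728_730 (i sh : Nat) : Nat := Bool.rec (Nat.shiftRight leaf728 sh) (Nat.shiftRight leaf729 sh) (Nat.ble 729 i)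
noncomputable def s727_730 (i sh : Nat) : Nat := Bool.rec (Nat.shiftRight leaf727 sh) (s728_730 i sh) (Nat.ble 728 i)
noncomputable def s724_730 (i sh : Nat) : Nat := Bool.rec (s724_727 i sh) (s727_730 i sh) (Nat.ble 727 i)
noncomputable def s718_730 (i sh : Nat) : Nat := Bool.rec (s718_724 i sh) (s724_730 i sh) (Nat.ble 724 i)
noncomputable def s731_733 (i sh : Nat) : Nat := Bool.rec (Nat.shiftRight leaf731 sh) (Nat.shiftRight leaf732 sh) (Nat.ble 732 i)
noncomputable def s730_733 (i sh : Nat) : Nat := Bool.rec (Nat.shiftRight leaf730 sh) (s731_733 i sh) (Nat.ble 731 i)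
noncomputable def s734_736 (i sh : Nat) : Nat := Bool.rec (Nat.shiftRight leaf734 sh) (Nat.shiftRight leaf735 sh) (Nat.ble 735 i)
noncomputable def s733_736 (i sh : Nat) : Nat := Bool.rec (Nat.shiftRight leaf733 sh) (s734_736 i sh) (Nat.ble 734 i)
noncomputable def s730_736 (i sh : Nat) : Nat := Bool.rec (s730_733 i sh) (s733_736 i sh) (Nat.ble 733 i)
noncomputable def s737_739 (i sh : Nat) : Nat := Bool.rec (Nat.shiftRight leaf737 sh) (Nat.shiftRight leaf738 sh) (Nat.ble 738 i)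
noncomputable def s736_739 (i sh : Nat) : Nat := Bool.rec (Nat.shiftRight leaf736 sh) (s737_739 i sh) (Nat.ble 737 i)
noncomputable def s739_741 (i sh : Nat) : Nat := Bool.rec (Nat.shiftRight leaf739 sh) (Nat.shiftRight leaf740 sh) (Nat.ble 740 i)
noncomputable def s741_743 (i sh : Nat) : Nat := Bool.rec (Nat.shiftRight leaf741 sh) (Nat.shiftRight leaf742 sh) (Nat.ble 742 i)
noncomputable def s739_743 (i sh : Nat) : Nat := Bool.rec (s739_741 i sh) (s741_743 i sh) (Nat.ble 741 i)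
noncomputable def s736_743 (i sh : Nat) : Nat := Bool.rec (s736_739 i sh) (s739_743 i sh) (Nat.ble 739 i)
noncomputable def s730_743 (i sh : Nat) : Nat := Bool.rec (s730_736 i sh) (s736_743 i sh) (Nat.ble 736 i)
noncomputable def s718_743 (i sh : Nat) : Nat := Bool.rec (s718_730 i sh) (s730_743 i sh) (Nat.ble 730 i)
noncomputable def s694_743 (i sh : Nat) : Nat := Bool.rec (s694_718 i sh) (s718_743 i sh) (Nat.ble 718 i)
noncomputable def s645_743 (i sh : Nat) : Nat := Bool.rec (s645_694 i sh) (s694_743 i sh) (Nat.ble 694 i)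
noncomputable def s589_743 (i sh : Nat) : Nat := Bool.rec (s589_645 i sh) (s645_743 i sh) (Nat.ble 645 i)
noncomputable def s744_746 (i sh : Nat) : Nat := Bool.rec (Nat.shiftRight leaf744 sh) (Nat.shiftRight leaf745 sh) (Nat.ble 745 i)
noncomputable def s743_746 (i sh : Nat) : Nat := Bool.rec (Nat.shiftRight leaf743 sh) (s744_746 i sh) (Nat.ble 744 i)
noncomputable def s747_749 (i sh : Nat) : Nat := Bool.rec (Nat.shiftRight leaf747 sh) (Nat.shiftRight leaf748 sh) (Nat.ble 748 i)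
noncomputable def s746_749 (i sh : Nat) : Nat := Bool.rec (Nat.shiftRight leaf746 sh) (s747_749 i sh) (Nat.ble 747 i)
noncomputable def s743_749 (i sh : Nat) : Nat := Bool.rec (s743_746 i sh) (s746_749 i sh) (Nat.ble 746 i)
noncomputable def s750_752 (i sh : Nat) : Nat := Bool.rec (Nat.shiftRight leaf750 sh) (Nat.shiftRight leaf751 sh) (Nat.ble 751 i)
noncomputable def s749_752 (i sh : Nat) : Nat := Bool.rec (Nat.shiftRight leaf749 sh) (s750_752 i sh) (Nat.ble 750 i)
noncomputable def s753_755 (i sh : Nat) : Nat := Bool.rec (Nat.shiftRight leaf753 sh) (Nat.shiftRight leaf754 sh) (Nat.ble 754 i)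
noncomputable def s752_755 (i sh : Nat) : Nat := Bool.rec (Nat.shiftRight leaf752 sh) (s753_755 i sh) (Nat.ble 753 i)
noncomputable def s749_755 (i sh : Nat) : Nat := Bool.rec (s749_752 i sh) (s752_755 i sh) (Nat.ble 752 i)
noncomputable def s743_755 (i sh : Nat) : Nat := Bool.rec (s743_749 i sh) (s749_755 i sh) (Nat.ble 749 i)
noncomputable def s756_758 (i sh : Nat) : Nat := Bool.rec (Nat.shiftRight leaf756 sh) (Nat.shiftRight leaf757 sh) (Nat.ble 757 i)
noncomputable def s755_758 (i sh : Nat) : Nat := Bool.rec (Nat.shiftRight leaf755 sh) (s756_758 i sh) (Nat.ble 756 i)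
noncomputable def s759_761 (i sh : Nat) : Nat := Bool.rec (Nat.shiftRight leaf759 sh) (Nat.shiftRight leaf760 sh) (Nat.ble 760 i)
noncomputable def s758_761 (i sh : Nat) : Nat := Bool.rec (Nat.shiftRight leaf758 sh) (s759_761 i sh) (Nat.ble 759 i)
noncomputable def s755_761 (i sh : Nat) : Nat := Bool.rec (s755_758 i sh) (s758_761 i sh) (Nat.ble 758 i)
noncomputable def s762_764 (i sh : Nat) : Nat := Bool.rec (Nat.shiftRight leaf762 sh) (Nat.shiftRight leaf763 sh) (Nat.ble 763 i)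
noncomputable def s761_764 (i sh : Nat) : Nat := Bool.rec (Nat.shiftRight leaf761 sh) (s762_764 i sh) (Nat.ble 762 i)
noncomputable def s765_767 (i sh : Nat) : Nat := Bool.rec (Nat.shiftRight leaf765 sh) (Nat.shiftRight leaf766 sh) (Nat.ble 766 i)
noncomputable def s764_767 (i sh : Nat) : Nat := Bool.rec (Nat.shiftRight leaf764 sh) (s765_767 i sh) (Nat.ble 765 i)
noncomputable def s761_767 (i sh : Nat) : Nat := Bool.rec (s761_764 i sh) (s764_767 i sh) (Nat.ble 764 i)
noncomputable def s755_767 (i sh : Nat) : Nat := Bool.rec (s755_761 i sh) (s761_767 i sh) (Nat.ble 761 i)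
noncomputable def s743_767 (i sh : Nat) : Nat := Bool.rec (s743_755 i sh) (s755_767 i sh) (Nat.ble 755 i)
noncomputable def s768_770 (i sh : Nat) : Nat := Bool.rec (Nat.shiftRight leaf768 sh) (Nat.shiftRight leaf769 sh) (Nat.ble 769 i)
noncomputable def s767_770 (i sh : Nat) : Nat := Bool.rec (Nat.shiftRight leaf767 sh) (s768_770 i sh) (Nat.ble 768 i)
noncomputable def s771_773 (i sh : Nat) : Nat := Bool.rec (Nat.shiftRight leaf771 sh) (Nat.shiftRight leaf772 sh) (Nat.ble 772 i)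
noncomputable def s770_773 (i sh : Nat) : Nat := Bool.rec (Nat.shiftRight leaf770 sh) (s771_773 i sh) (Nat.ble 771 i)
noncomputable def s767_773 (i sh : Nat) : Nat := Bool.rec (s767_770 i sh) (s770_773 i sh) (Nat.ble 770 i)
noncomputable def s774_776 (i sh : Nat) : Nat := Bool.rec (Nat.shiftRight leaf774 sh) (Nat.shiftRight leaf775 sh) (Nat.ble 775 i)
noncomputable def s773_776 (i sh : Nat) : Nat := Bool.rec (Nat.shiftRight leaf773 sh) (s774_776 i sh) (Nat.ble 774 i)
noncomputable def s777_779 (i sh : Nat) : Nat := Bool.rec (Nat.shiftRight leaf777 sh) (Nat.shiftRight leaf778 sh) (Nat.ble 778 i)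
noncomputable def s776_779 (i sh : Nat) : Nat := Bool.rec (Nat.shiftRight leaf776 sh) (s777_779 i sh) (Nat.ble 777 i)
noncomputable def s773_779 (i sh : Nat) : Nat := Bool.rec (s773_776 i sh) (s776_779 i sh) (Nat.ble 776 i)
noncomputable def s767_779 (i sh : Nat) : Nat := Bool.rec (s767_773 i sh) (s773_779 i sh) (Nat.ble 773 i)
noncomputable def s780_782 (i sh : Nat) : Nat := Bool.rec (Nat.shiftRight leaf780 sh) (Nat.shiftRight leaf781 sh) (Nat.ble 781 i)
noncomputable def s779_782 (i sh : Nat) : Nat := Bool.rec (Nat.shiftRight leaf779 sh) (s780_782 i sh) (Nat.ble 780 i)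
noncomputable def s783_785 (i sh : Nat) : Nat := Bool.rec (Nat.shiftRight leaf783 sh) (Nat.shiftRight leaf784 sh) (Nat.ble 784 i)
noncomputable def s782_785 (i sh : Nat) : Nat := Bool.rec (Nat.shiftRight leaf782 sh) (s783_785 i sh) (Nat.ble 783 i)
noncomputable def s779_785 (i sh : Nat) : Nat := Bool.rec (s779_782 i sh) (s782_785 i sh) (Nat.ble 782 i)
noncomputable def s786_788 (i sh : Nat) : Nat := Bool.rec (Nat.shiftRight leaf786 sh) (Nat.shiftRight leaf787 sh) (Nat.ble 787 i)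
noncomputable def s785_788 (i sh : Nat) : Nat := Bool.rec (Nat.shiftRight leaf785 sh) (s786_788 i sh) (Nat.ble 786 i)
noncomputable def s788_790 (i sh : Nat) : Nat := Bool.rec (Nat.shiftRight leaf788 sh) (Nat.shiftRight leaf789 sh) (Nat.ble 789 i)
noncomputable def s790_792 (i sh : Nat) : Nat := Bool.rec (Nat.shiftRight leaf790 sh) (Nat.shiftRight leaf791 sh) (Nat.ble 791 i)
noncomputable def s788_792 (i sh : Nat) : Nat := Bool.rec (s788_790 i sh) (s790_792 i sh) (Nat.ble 790 i)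
noncomputable def s785_792 (i sh : Nat) : Nat := Bool.rec (s785_788 i sh) (s788_792 i sh) (Nat.ble 788 i)
noncomputable def s779_792 (i sh : Nat) : Nat := Bool.rec (s779_785 i sh) (s785_792 i sh) (Nat.ble 785 i)
noncomputable def s767_792 (i sh : Nat) : Nat := Bool.rec (s767_779 i sh) (s779_792 i sh) (Nat.ble 779 i)
noncomputable def s743_792 (i sh : Nat) : Nat := Bool.rec (s743_767 i sh) (s767_792 i sh) (Nat.ble 767 i)
noncomputable def s793_795 (i sh : Nat) : Nat := Bool.rec (Nat.shiftRight leaf793 sh) (Nat.shiftRight leaf794 sh) (Nat.ble 794 i)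
noncomputable def s792_795 (i sh : Nat) : Nat := Bool.rec (Nat.shiftRight leaf792 sh) (s793_795 i sh) (Nat.ble 793 i)
noncomputable def s796_798 (i sh : Nat) : Nat := Bool.rec (Nat.shiftRight leaf796 sh) (Nat.shiftRight leaf797 sh) (Nat.ble 797 i)
noncomputable def s795_798 (i sh : Nat) : Nat := Bool.rec (Nat.shiftRight leaf795 sh) (s796_798 i sh) (Nat.ble 796 i)
noncomputable def s792_798 (i sh : Nat) : Nat := Bool.rec (s792_795 i sh) (s795_798 i sh) (Nat.ble 795 i)
noncomputable def s799_801 (i sh : Nat) : Nat := Bool.rec (Nat.shiftRight leaf799 sh) (Nat.shiftRight leaf800 sh) (Nat.ble 800 i)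
noncomputable def s798_801 (i sh : Nat) : Nat := Bool.rec (Nat.shiftRight leaf798 sh) (s799_801 i sh) (Nat.ble 799 i)
noncomputable def s802_804 (i sh : Nat) : Nat := Bool.rec (Nat.shiftRight leaf802 sh) (Nat.shiftRight leaf803 sh) (Nat.ble 803 i)
noncomputable def s801_804 (i sh : Nat) : Nat := Bool.rec (Nat.shiftRight leaf801 sh) (s802_804 i sh) (Nat.ble 802 i)
noncomputable def s798_804 (i sh : Nat) : Nat := Bool.rec (s798_801 i sh) (s801_804 i sh) (Nat.ble 801 i)
noncomputable def s792_804 (i sh : Nat) : Nat := Bool.rec (s792_798 i sh) (s798_804 i sh) (Nat.ble 798 i)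
noncomputable def s805_807 (i sh : Nat) : Nat := Bool.rec (Nat.shiftRight leaf805 sh) (Nat.shiftRight leaf806 sh) (Nat.ble 806 i)
noncomputable def s804_807 (i sh : Nat) : Nat := Bool.rec (Nat.shiftRight leaf804 sh) (s805_807 i sh) (Nat.ble 805 i)
noncomputable def s808_810 (i sh : Nat) : Nat := Bool.rec (Nat.shiftRight leaf808 sh) (Nat.shiftRight leaf809 sh) (Nat.ble 809 i)
noncomputable def s807_810 (i sh : Nat) : Nat := Bool.rec (Nat.shiftRight leaf807 sh) (s808_810 i sh) (Nat.ble 808 i)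
noncomputable def s804_810 (i sh : Nat) : Nat := Bool.rec (s804_807 i sh) (s807_810 i sh) (Nat.ble 807 i)
noncomputable def s811_813 (i sh : Nat) : Nat := Bool.rec (Nat.shiftRight leaf811 sh) (Nat.shiftRight leaf812 sh) (Nat.ble 812 i)
noncomputable def s810_813 (i sh : Nat) : Nat := Bool.rec (Nat.shiftRight leaf810 sh) (s811_813 i sh) (Nat.ble 811 i)
noncomputable def s814_816 (i sh : Nat) : Nat := Bool.rec (Nat.shiftRight leaf814 sh) (Nat.shiftRight leaf815 sh) (Nat.ble 815 i)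
noncomputable def s813_816 (i sh : Nat) : Nat := Bool.rec (Nat.shiftRight leaf813 sh) (s814_816 i sh) (Nat.ble 814 i)
noncomputable def s810_816 (i sh : Nat) : Nat := Bool.rec (s810_813 i sh) (s813_816 i sh) (Nat.ble 813 i)
noncomputable def s804_816 (i sh : Nat) : Nat := Bool.rec (s804_810 i sh) (s810_816 i sh) (Nat.ble 810 i)
noncomputable def s792_816 (i sh : Nat) : Nat := Bool.rec (s792_804 i sh) (s804_816 i sh) (Nat.ble 804 i)
noncomputable def s817_819 (i sh : Nat) : Nat := Bool.rec (Nat.shiftRight leaf817 sh) (Nat.shiftRight leaf818 sh) (Nat.ble 818 i)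
noncomputable def s816_819 (i sh : Nat) : Nat := Bool.rec (Nat.shiftRight leaf816 sh) (s817_819 i sh) (Nat.ble 817 i)
noncomputable def s820_822 (i sh : Nat) : Nat := Bool.rec (Nat.shiftRight leaf820 sh) (Nat.shiftRight leaf821 sh) (Nat.ble 821 i)
noncomputable def s819_822 (i sh : Nat) : Nat := Bool.rec (Nat.shiftRight leaf819 sh) (s820_822 i sh) (Nat.ble 820 i)
noncomputable def s816_822 (i sh : Nat) : Nat := Bool.rec (s816_819 i sh) (s819_822 i sh) (Nat.ble 819 i)
noncomputable def s823_825 (i sh : Nat) : Nat := Bool.rec (Nat.shiftRight leaf823 sh) (Nat.shiftRight leaf824 sh) (Nat.ble 824 i)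
noncomputable def s822_825 (i sh : Nat) : Nat := Bool.rec (Nat.shiftRight leaf822 sh) (s823_825 i sh) (Nat.ble 823 i)
noncomputable def s826_828 (i sh : Nat) : Nat := Bool.rec (Nat.shiftRight leaf826 sh) (Nat.shiftRight leaf827 sh) (Nat.ble 827 i)
noncomputable def s825_828 (i sh : Nat) : Nat := Bool.rec (Nat.shiftRight leaf825 sh) (s826_828 i sh) (Nat.ble 826 i)
noncomputable def s822_828 (i sh : Nat) : Nat := Bool.rec (s822_825 i sh) (s825_828 i sh) (Nat.ble 825 i)
noncomputable def s816_828 (i sh : Nat) : Nat := Bool.rec (s816_822 i sh) (s822_828 i sh) (Nat.ble 822 i)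
noncomputable def s829_831 (i sh : Nat) : Nat := Bool.rec (Nat.shiftRight leaf829 sh) (Nat.shiftRight leaf830 sh) (Nat.ble 830 i)
noncomputable def s828_831 (i sh : Nat) : Nat := Bool.rec (Nat.shiftRight leaf828 sh) (s829_831 i sh) (Nat.ble 829 i)
noncomputable def s832_834 (i sh : Nat) : Nat := Bool.rec (Nat.shiftRight leaf832 sh) (Nat.shiftRight leaf833 sh) (Nat.ble 833 i)
noncomputable def s831_834 (i sh : Nat) : Nat := Bool.rec (Nat.shiftRight leaf831 sh) (s832_834 i sh) (Nat.ble 832 i)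
noncomputable def s828_834 (i sh : Nat) : Nat := Bool.rec (s828_831 i sh) (s831_834 i sh) (Nat.ble 831 i)
noncomputable def s835_837 (i sh : Nat) : Nat := Bool.rec (Nat.shiftRight leaf835 sh) (Nat.shiftRight leaf836 sh) (Nat.ble 836 i)
noncomputable def s834_837 (i sh : Nat) : Nat := Bool.rec (Nat.shiftRight leaf834 sh) (s835_837 i sh) (Nat.ble 835 i)
noncomputable def s837_839 (i sh : Nat) : Nat := Bool.rec (Nat.shiftRight leaf837 sh) (Nat.shiftRight leaf838 sh) (Nat.ble 838 i)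
noncomputable def s839_841 (i sh : Nat) : Nat := Bool.rec (Nat.shiftRight leaf839 sh) (Nat.shiftRight leaf840 sh) (Nat.ble 840 i)
noncomputable def s837_841 (i sh : Nat) : Nat := Bool.rec (s837_839 i sh) (s839_841 i sh) (Nat.ble 839 i)
noncomputable def s834_841 (i sh : Nat) : Nat := Bool.rec (s834_837 i sh) (s837_841 i sh) (Nat.ble 837 i)
noncomputable def s828_841 (i sh : Nat) : Nat := Bool.rec (s828_834 i sh) (s834_841 i sh) (Nat.ble 834 i)
noncomputable def s816_841 (i sh : Nat) : Nat := Bool.rec (s816_828 i sh) (s828_841 i sh) (Nat.ble 828 i)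
noncomputable def s792_841 (i sh : Nat) : Nat := Bool.rec (s792_816 i sh) (s816_841 i sh) (Nat.ble 816 i)
noncomputable def s743_841 (i sh : Nat) : Nat := Bool.rec (s743_792 i sh) (s792_841 i sh) (Nat.ble 792 i)
noncomputable def s842_844 (i sh : Nat) : Nat := Bool.rec (Nat.shiftRight leaf842 sh) (Nat.shiftRight leaf843 sh) (Nat.ble 843 i)
noncomputable def s841_844 (i sh : Nat) : Nat := Bool.rec (Nat.shiftRight leaf841 sh) (s842_844 i sh) (Nat.ble 842 i)
noncomputable def s845_847 (i sh : Nat) : Nat := Bool.rec (Nat.shiftRight leaf845 sh) (Nat.shiftRight leaf846 sh) (Nat.ble 846 i)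
noncomputable def s844_847 (i sh : Nat) : Nat := Bool.rec (Nat.shiftRight leaf844 sh) (s845_847 i sh) (Nat.ble 845 i)
noncomputable def s841_847 (i sh : Nat) : Nat := Bool.rec (s841_844 i sh) (s844_847 i sh) (Nat.ble 844 i)
noncomputable def s848_850 (i sh : Nat) : Nat := Bool.rec (Nat.shiftRight leaf848 sh) (Nat.shiftRight leaf849 sh) (Nat.ble 849 i)
noncomputable def s847_850 (i sh : Nat) : Nat := Bool.rec (Nat.shiftRight leaf847 sh) (s848_850 i sh) (Nat.ble 848 i)
noncomputable def s851_853 (i sh : Nat) : Nat := Bool.rec (Nat.shiftRight leaf851 sh) (Nat.shiftRight leaf852 sh) (Nat.ble 852 i)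
noncomputable def s850_853 (i sh : Nat) : Nat := Bool.rec (Nat.shiftRight leaf850 sh) (s851_853 i sh) (Nat.ble 851 i)
noncomputable def s847_853 (i sh : Nat) : Nat := Bool.rec (s847_850 i sh) (s850_853 i sh) (Nat.ble 850 i)
noncomputable def s841_853 (i sh : Nat) : Nat := Bool.rec (s841_847 i sh) (s847_853 i sh) (Nat.ble 847 i)
noncomputable def s854_856 (i sh : Nat) : Nat := Bool.rec (Nat.shiftRight leaf854 sh) (Nat.shiftRight leaf855 sh) (Nat.ble 855 i)
noncomputable def s853_856 (i sh : Nat) : Nat := Bool.rec (Nat.shiftRight leaf853 sh) (s854_856 i sh) (Nat.ble 854 i)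
noncomputable def s857_859 (i sh : Nat) : Nat := Bool.rec (Nat.shiftRight leaf857 sh) (Nat.shiftRight leaf858 sh) (Nat.ble 858 i)
noncomputable def s856_859 (i sh : Nat) : Nat := Bool.rec (Nat.shiftRight leaf856 sh) (s857_859 i sh) (Nat.ble 857 i)
noncomputable def s853_859 (i sh : Nat) : Nat := Bool.rec (s853_856 i sh) (s856_859 i sh) (Nat.ble 856 i)
noncomputable def s860_862 (i sh : Nat) : Nat := Bool.rec (Nat.shiftRight leaf860 sh) (Nat.shiftRight leaf861 sh) (Nat.ble 861 i)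
noncomputable def s859_862 (i sh : Nat) : Nat := Bool.rec (Nat.shiftRight leaf859 sh) (s860_862 i sh) (Nat.ble 860 i)
noncomputable def s863_865 (i sh : Nat) : Nat := Bool.rec (Nat.shiftRight leaf863 sh) (Nat.shiftRight leaf864 sh) (Nat.ble 864 i)
noncomputable def s862_865 (i sh : Nat) : Nat := Bool.rec (Nat.shiftRight leaf862 sh) (s863_865 i sh) (Nat.ble 863 i)
noncomputable def s859_865 (i sh : Nat) : Nat := Bool.rec (s859_862 i sh) (s862_865 i sh) (Nat.ble 862 i)
noncomputable def s853_865 (i sh : Nat) : Nat := Bool.rec (s853_859 i sh) (s859_865 i sh) (Nat.ble 859 i)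
noncomputable def s841_865 (i sh : Nat) : Nat := Bool.rec (s841_853 i sh) (s853_865 i sh) (Nat.ble 853 i)
noncomputable def s866_868 (i sh : Nat) : Nat := Bool.rec (Nat.shiftRight leaf866 sh) (Nat.shiftRight leaf867 sh) (Nat.ble 867 i)
noncomputable def s865_868 (i sh : Nat) : Nat := Bool.rec (Nat.shiftRight leaf865 sh) (s866_868 i sh) (Nat.ble 866 i)
noncomputable def s869_871 (i sh : Nat) : Nat := Bool.rec (Nat.shiftRight leaf869 sh) (Nat.shiftRight leaf870 sh) (Nat.ble 870 i)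
noncomputable def s868_871 (i sh : Nat) : Nat := Bool.rec (Nat.shiftRight leaf868 sh) (s869_871 i sh) (Nat.ble 869 i)
noncomputable def s865_871 (i sh : Nat) : Nat := Bool.rec (s865_868 i sh) (s868_871 i sh) (Nat.ble 868 i)
noncomputable def s872_874 (i sh : Nat) : Nat := Bool.rec (Nat.shiftRight leaf872 sh) (Nat.shiftRight leaf873 sh) (Nat.ble 873 i)
noncomputable def s871_874 (i sh : Nat) : Nat := Bool.rec (Nat.shiftRight leaf871 sh) (s872_874 i sh) (Nat.ble 872 i)
noncomputable def s875_877 (i sh : Nat) : Nat := Bool.rec (Nat.shiftRight leaf875 sh) (Nat.shiftRight leaf876 sh) (Nat.ble 876 i)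
noncomputable def s874_877 (i sh : Nat) : Nat := Bool.rec (Nat.shiftRight leaf874 sh) (s875_877 i sh) (Nat.ble 875 i)
noncomputable def s871_877 (i sh : Nat) : Nat := Bool.rec (s871_874 i sh) (s874_877 i sh) (Nat.ble 874 i)
noncomputable def s865_877 (i sh : Nat) : Nat := Bool.rec (s865_871 i sh) (s871_877 i sh) (Nat.ble 871 i)
noncomputable def s878_880 (i sh : Nat) : Nat := Bool.rec (Nat.shiftRight leaf878 sh) (Nat.shiftRight leaf879 sh) (Nat.ble 879 i)
noncomputable def s877_880 (i sh : Nat) : Nat := Bool.rec (Nat.shiftRight leaf877 sh) (s878_880 i sh) (Nat.ble 878 i)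
noncomputable def s881_883 (i sh : Nat) : Nat := Bool.rec (Nat.shiftRight leaf881 sh) (Nat.shiftRight leaf882 sh) (Nat.ble 882 i)
noncomputable def s880_883 (i sh : Nat) : Nat := Bool.rec (Nat.shiftRight leaf880 sh) (s881_883 i sh) (Nat.ble 881 i)
noncomputable def s877_883 (i sh : Nat) : Nat := Bool.rec (s877_880 i sh) (s880_883 i sh) (Nat.ble 880 i)
noncomputable def s884_886 (i sh : Nat) : Nat := Bool.rec (Nat.shiftRight leaf884 sh) (Nat.shiftRight leaf885 sh) (Nat.ble 885 i)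
noncomputable def s883_886 (i sh : Nat) : Nat := Bool.rec (Nat.shiftRight leaf883 sh) (s884_886 i sh) (Nat.ble 884 i)
noncomputable def s886_888 (i sh : Nat) : Nat := Bool.rec (Nat.shiftRight leaf886 sh) (Nat.shiftRight leaf887 sh) (Nat.ble 887 i)
noncomputable def s888_890 (i sh : Nat) : Nat := Bool.rec (Nat.shiftRight leaf888 sh) (Nat.shiftRight leaf889 sh) (Nat.ble 889 i)
noncomputable def s886_890 (i sh : Nat) : Nat := Bool.rec (s886_888 i sh) (s888_890 i sh) (Nat.ble 888 i)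
noncomputable def s883_890 (i sh : Nat) : Nat := Bool.rec (s883_886 i sh) (s886_890 i sh) (Nat.ble 886 i)
noncomputable def s877_890 (i sh : Nat) : Nat := Bool.rec (s877_883 i sh) (s883_890 i sh) (Nat.ble 883 i)
noncomputable def s865_890 (i sh : Nat) : Nat := Bool.rec (s865_877 i sh) (s877_890 i sh) (Nat.ble 877 i)
noncomputable def s841_890 (i sh : Nat) : Nat := Bool.rec (s841_865 i sh) (s865_890 i sh) (Nat.ble 865 i)
noncomputable def s891_893 (i sh : Nat) : Nat := Bool.rec (Nat.shiftRight leaf891 sh) (Nat.shiftRight leaf892 sh) (Nat.ble 892 i)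
noncomputable def s890_893 (i sh : Nat) : Nat := Bool.rec (Nat.shiftRight leaf890 sh) (s891_893 i sh) (Nat.ble 891 i)
noncomputable def s894_896 (i sh : Nat) : Nat := Bool.rec (Nat.shiftRight leaf894 sh) (Nat.shiftRight leaf895 sh) (Nat.ble 895 i)
noncomputable def s893_896 (i sh : Nat) : Nat := Bool.rec (Nat.shiftRight leaf893 sh) (s894_896 i sh) (Nat.ble 894 i)
noncomputable def s890_896 (i sh : Nat) : Nat := Bool.rec (s890_893 i sh) (s893_896 i sh) (Nat.ble 893 i)
noncomputable def s897_899 (i sh : Nat) : Nat := Bool.rec (Nat.shiftRight leaf897 sh) (Nat.shiftRight leaf898 sh) (Nat.ble 898 i)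
noncomputable def s896_899 (i sh : Nat) : Nat := Bool.rec (Nat.shiftRight leaf896 sh) (s897_899 i sh) (Nat.ble 897 i)
noncomputable def s900_902 (i sh : Nat) : Nat := Bool.rec (Nat.shiftRight leaf900 sh) (Nat.shiftRight leaf901 sh) (Nat.ble 901 i)
noncomputable def s899_902 (i sh : Nat) : Nat := Bool.rec (Nat.shiftRight leaf899 sh) (s900_902 i sh) (Nat.ble 900 i)
noncomputable def s896_902 (i sh : Nat) : Nat := Bool.rec (s896_899 i sh) (s899_902 i sh) (Nat.ble 899 i)
noncomputable def s890_902 (i sh : Nat) : Nat := Bool.rec (s890_896 i sh) (s896_902 i sh) (Nat.ble 896 i)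
noncomputable def s903_905 (i sh : Nat) : Nat := Bool.rec (Nat.shiftRight leaf903 sh) (Nat.shiftRight leaf904 sh) (Nat.ble 904 i)
noncomputable def s902_905 (i sh : Nat) : Nat := Bool.rec (Nat.shiftRight leaf902 sh) (s903_905 i sh) (Nat.ble 903 i)
noncomputable def s906_908 (i sh : Nat) : Nat := Bool.rec (Nat.shiftRight leaf906 sh) (Nat.shiftRight leaf907 sh) (Nat.ble 907 i)
noncomputable def s905_908 (i sh : Nat) : Nat := Bool.rec (Nat.shiftRight leaf905 sh) (s906_908 i sh) (Nat.ble 906 i)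
noncomputable def s902_908 (i sh : Nat) : Nat := Bool.rec (s902_905 i sh) (s905_908 i sh) (Nat.ble 905 i)
noncomputable def s909_911 (i sh : Nat) : Nat := Bool.rec (Nat.shiftRight leaf909 sh) (Nat.shiftRight leaf910 sh) (Nat.ble 910 i)
noncomputable def s908_911 (i sh : Nat) : Nat := Bool.rec (Nat.shiftRight leaf908 sh) (s909_911 i sh) (Nat.ble 909 i)
noncomputable def s912_914 (i sh : Nat) : Nat := Bool.rec (Nat.shiftRight leaf912 sh) (Nat.shiftRight leaf913 sh) (Nat.ble 913 i)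
noncomputable def s911_914 (i sh : Nat) : Nat := Bool.rec (Nat.shiftRight leaf911 sh) (s912_914 i sh) (Nat.ble 912 i)
noncomputable def s908_914 (i sh : Nat) : Nat := Bool.rec (s908_911 i sh) (s911_914 i sh) (Nat.ble 911 i)
noncomputable def s902_914 (i sh : Nat) : Nat := Bool.rec (s902_908 i sh) (s908_914 i sh) (Nat.ble 908 i)
noncomputable def s890_914 (i sh : Nat) : Nat := Bool.rec (s890_902 i sh) (s902_914 i sh) (Nat.ble 902 i)
noncomputable def s915_917 (i sh : Nat) : Nat := Bool.rec (Nat.shiftRight leaf915 sh) (Nat.shiftRight leaf916 sh) (Nat.ble 916 i)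
noncomputable def s914_917 (i sh : Nat) : Nat := Bool.rec (Nat.shiftRight leaf914 sh) (s915_917 i sh) (Nat.ble 915 i)
noncomputable def s918_920 (i sh : Nat) : Nat := Bool.rec (Nat.shiftRight leaf918 sh) (Nat.shiftRight leaf919 sh) (Nat.ble 919 i)
noncomputable def s917_920 (i sh : Nat) : Nat := Bool.rec (Nat.shiftRight leaf917 sh) (s918_920 i sh) (Nat.ble 918 i)
noncomputable def s914_920 (i sh : Nat) : Nat := Bool.rec (s914_917 i sh) (s917_920 i sh) (Nat.ble 917 i)
noncomputable def s921_923 (i sh : Nat) : Nat := Bool.rec (Nat.shiftRight leaf921 sh) (Nat.shiftRight leaf922 sh) (Nat.ble 922 i)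
noncomputable def s920_923 (i sh : Nat) : Nat := Bool.rec (Nat.shiftRight leaf920 sh) (s921_923 i sh) (Nat.ble 921 i)
noncomputable def s924_926 (i sh : Nat) : Nat := Bool.rec (Nat.shiftRight leaf924 sh) (Nat.shiftRight leaf925 sh) (Nat.ble 925 i)
noncomputable def s923_926 (i sh : Nat) : Nat := Bool.rec (Nat.shiftRight leaf923 sh) (s924_926 i sh) (Nat.ble 924 i)
noncomputable def s920_926 (i sh : Nat) : Nat := Bool.rec (s920_923 i sh) (s923_926 i sh) (Nat.ble 923 i)
noncomputable def s914_926 (i sh : Nat) : Nat := Bool.rec (s914_920 i sh) (s920_926 i sh) (Nat.ble 920 i)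
noncomputable def s927_929 (i sh : Nat) : Nat := Bool.rec (Nat.shiftRight leaf927 sh) (Nat.shiftRight leaf928 sh) (Nat.ble 928 i)
noncomputable def s926_929 (i sh : Nat) : Nat := Bool.rec (Nat.shiftRight leaf926 sh) (s927_929 i sh) (Nat.ble 927 i)
noncomputable def s930_932 (i sh : Nat) : Nat := Bool.rec (Nat.shiftRight leaf930 sh) (Nat.shiftRight leaf931 sh) (Nat.ble 931 i)
noncomputable def s929_932 (i sh : Nat) : Nat := Bool.rec (Nat.shiftRight leaf929 sh) (s930_932 i sh) (Nat.ble 930 i)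
noncomputable def s926_932 (i sh : Nat) : Nat := Bool.rec (s926_929 i sh) (s929_932 i sh) (Nat.ble 929 i)
noncomputable def s933_935 (i sh : Nat) : Nat := Bool.rec (Nat.shiftRight leaf933 sh) (Nat.shiftRight leaf934 sh) (Nat.ble 934 i)
noncomputable def s932_935 (i sh : Nat) : Nat := Bool.rec (Nat.shiftRight leaf932 sh) (s933_935 i sh) (Nat.ble 933 i)
noncomputable def s935_937 (i sh : Nat) : Nat := Bool.rec (Nat.shiftRight leaf935 sh) (Nat.shiftRight leaf936 sh) (Nat.ble 936 i)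
noncomputable def s937_939 (i sh : Nat) : Nat := Bool.rec (Nat.shiftRight leaf937 sh) (Nat.shiftRight leaf938 sh) (Nat.ble 938 i)
noncomputable def s935_939 (i sh : Nat) : Nat := Bool.rec (s935_937 i sh) (s937_939 i sh) (Nat.ble 937 i)
noncomputable def s932_939 (i sh : Nat) : Nat := Bool.rec (s932_935 i sh) (s935_939 i sh) (Nat.ble 935 i)
noncomputable def s926_939 (i sh : Nat) : Nat := Bool.rec (s926_932 i sh) (s932_939 i sh) (Nat.ble 932 i)
noncomputable def s914_939 (i sh : Nat) : Nat := Bool.rec (s914_926 i sh) (s926_939 i sh) (Nat.ble 926 i)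
noncomputable def s890_939 (i sh : Nat) : Nat := Bool.rec (s890_914 i sh) (s914_939 i sh) (Nat.ble 914 i)
noncomputable def s841_939 (i sh : Nat) : Nat := Bool.rec (s841_890 i sh) (s890_939 i sh) (Nat.ble 890 i)
noncomputable def s743_939 (i sh : Nat) : Nat := Bool.rec (s743_841 i sh) (s841_939 i sh) (Nat.ble 841 i)
noncomputable def s589_939 (i sh : Nat) : Nat := Bool.rec (s589_743 i sh) (s743_939 i sh) (Nat.ble 743 i)
noncomputable def s437_939 (i sh : Nat) : Nat := Bool.rec (s437_589 i sh) (s589_939 i sh) (Nat.ble 589 i)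
noncomputable def s277_939 (i sh : Nat) : Nat := Bool.rec (s277_437 i sh) (s437_939 i sh) (Nat.ble 437 i)
noncomputable def s940_942 (i sh : Nat) : Nat := Bool.rec (Nat.shiftRight leaf940 sh) (Nat.shiftRight leaf941 sh) (Nat.ble 941 i)
noncomputable def s942_944 (i sh : Nat) : Nat := Bool.rec (Nat.shiftRight leaf942 sh) (Nat.shiftRight leaf943 sh) (Nat.ble 943 i)
noncomputable def s944_946 (i sh : Nat) : Nat := Bool.rec (Nat.shiftRight leaf944 sh) (Nat.shiftRight leaf945 sh) (Nat.ble 945 i)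
noncomputable def s942_946 (i sh : Nat) : Nat := Bool.rec (s942_944 i sh) (s944_946 i sh) (Nat.ble 944 i)
noncomputable def s948_950 (i sh : Nat) : Nat := Bool.rec (Nat.shiftRight leaf948 sh) (Nat.shiftRight leaf949 sh) (Nat.ble 949 i)
noncomputable def s947_950 (i sh : Nat) : Nat := Bool.rec (Nat.shiftRight leaf947 sh) (s948_950 i sh) (Nat.ble 948 i)
noncomputable def s946_950 (i sh : Nat) : Nat := Bool.rec (Nat.shiftRight leaf946 sh) (s947_950 i sh) (Nat.ble 947 i)
noncomputable def s950_952 (i sh : Nat) : Nat := Bool.rec (Nat.shiftRight leaf950 sh) (Nat.shiftRight leaf951 sh) (Nat.ble 951 i)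
noncomputable def s946_952 (i sh : Nat) : Nat := Bool.rec (s946_950 i sh) (s950_952 i sh) (Nat.ble 950 i)
noncomputable def s942_952 (i sh : Nat) : Nat := Bool.rec (s942_946 i sh) (s946_952 i sh) (Nat.ble 946 i)
noncomputable def s940_952 (i sh : Nat) : Nat := Bool.rec (s940_942 i sh) (s942_952 i sh) (Nat.ble 942 i)
noncomputable def s939_952 (i sh : Nat) : Nat := Bool.rec (Nat.shiftRight leaf939 sh) (s940_952 i sh) (Nat.ble 940 i)
noncomputable def s952_954 (i sh : Nat) : Nat := Bool.rec (Nat.shiftRight leaf952 sh) (Nat.shiftRight leaf953 sh) (Nat.ble 953 i)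
noncomputable def s939_954 (i sh : Nat) : Nat := Bool.rec (s939_952 i sh) (s952_954 i sh) (Nat.ble 952 i)
noncomputable def s955_957 (i sh : Nat) : Nat := Bool.rec (Nat.shiftRight leaf955 sh) (Nat.shiftRight leaf956 sh) (Nat.ble 956 i)
noncomputable def s954_957 (i sh : Nat) : Nat := Bool.rec (Nat.shiftRight leaf954 sh) (s955_957 i sh) (Nat.ble 955 i)
noncomputable def s958_960 (i sh : Nat) : Nat := Bool.rec (Nat.shiftRight leaf958 sh) (Nat.shiftRight leaf959 sh) (Nat.ble 959 i)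
noncomputable def s957_960 (i sh : Nat) : Nat := Bool.rec (Nat.shiftRight leaf957 sh) (s958_960 i sh) (Nat.ble 958 i)
noncomputable def s954_960 (i sh : Nat) : Nat := Bool.rec (s954_957 i sh) (s957_960 i sh) (Nat.ble 957 i)
noncomputable def s960_962 (i sh : Nat) : Nat := Bool.rec (Nat.shiftRight leaf960 sh) (Nat.shiftRight leaf961 sh) (Nat.ble 961 i)
noncomputable def s960_963 (i sh : Nat) : Nat := Bool.rec (s960_962 i sh) (Nat.shiftRight leaf962 sh) (Nat.ble 962 i)
noncomputable def s965_967 (i sh : Nat) : Nat := Bool.rec (Nat.shiftRight leaf965 sh) (Nat.shiftRight leaf966 sh) (Nat.ble 966 i)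
noncomputable def s964_967 (i sh : Nat) : Nat := Bool.rec (Nat.shiftRight leaf964 sh) (s965_967 i sh) (Nat.ble 965 i)
noncomputable def s963_967 (i sh : Nat) : Nat := Bool.rec (Nat.shiftRight leaf963 sh) (s964_967 i sh) (Nat.ble 964 i)
noncomputable def s960_967 (i sh : Nat) : Nat := Bool.rec (s960_963 i sh) (s963_967 i sh) (Nat.ble 963 i)
noncomputable def s954_967 (i sh : Nat) : Nat := Bool.rec (s954_960 i sh) (s960_967 i sh) (Nat.ble 960 i)
noncomputable def s967_969 (i sh : Nat) : Nat := Bool.rec (Nat.shiftRight leaf967 sh) (Nat.shiftRight leaf968 sh) (Nat.ble 968 i)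
noncomputable def s967_970 (i sh : Nat) : Nat := Bool.rec (s967_969 i sh) (Nat.shiftRight leaf969 sh) (Nat.ble 969 i)
noncomputable def s967_971 (i sh : Nat) : Nat := Bool.rec (s967_970 i sh) (Nat.shiftRight leaf970 sh) (Nat.ble 970 i)
noncomputable def s972_974 (i sh : Nat) : Nat := Bool.rec (Nat.shiftRight leaf972 sh) (Nat.shiftRight leaf973 sh) (Nat.ble 973 i)
noncomputable def s971_974 (i sh : Nat) : Nat := Bool.rec (Nat.shiftRight leaf971 sh) (s972_974 i sh) (Nat.ble 972 i)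
noncomputable def s974_976 (i sh : Nat) : Nat := Bool.rec (Nat.shiftRight leaf974 sh) (Nat.shiftRight leaf975 sh) (Nat.ble 975 i)
noncomputable def s976_978 (i sh : Nat) : Nat := Bool.rec (Nat.shiftRight leaf976 sh) (Nat.shiftRight leaf977 sh) (Nat.ble 977 i)
noncomputable def s974_978 (i sh : Nat) : Nat := Bool.rec (s974_976 i sh) (s976_978 i sh) (Nat.ble 976 i)
noncomputable def s971_978 (i sh : Nat) : Nat := Bool.rec (s971_974 i sh) (s974_978 i sh) (Nat.ble 974 i)
noncomputable def s967_978 (i sh : Nat) : Nat := Bool.rec (s967_971 i sh) (s971_978 i sh) (Nat.ble 971 i)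
noncomputable def s954_978 (i sh : Nat) : Nat := Bool.rec (s954_967 i sh) (s967_978 i sh) (Nat.ble 967 i)
noncomputable def s954_979 (i sh : Nat) : Nat := Bool.rec (s954_978 i sh) (Nat.shiftRight leaf978 sh) (Nat.ble 978 i)
noncomputable def s939_979 (i sh : Nat) : Nat := Bool.rec (s939_954 i sh) (s954_979 i sh) (Nat.ble 954 i)
noncomputable def s979_981 (i sh : Nat) : Nat := Bool.rec (Nat.shiftRight leaf979 sh) (Nat.shiftRight leaf980 sh) (Nat.ble 980 i)
noncomputable def s982_984 (i sh : Nat) : Nat := Bool.rec (Nat.shiftRight leaf982 sh) (Nat.shiftRight leaf983 sh) (Nat.ble 983 i)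
noncomputable def s982_985 (i sh : Nat) : Nat := Bool.rec (s982_984 i sh) (Nat.shiftRight leaf984 sh) (Nat.ble 984 i)
noncomputable def s981_985 (i sh : Nat) : Nat := Bool.rec (Nat.shiftRight leaf981 sh) (s982_985 i sh) (Nat.ble 982 i)
noncomputable def s981_986 (i sh : Nat) : Nat := Bool.rec (s981_985 i sh) (Nat.shiftRight leaf985 sh) (Nat.ble 985 i)
noncomputable def s979_986 (i sh : Nat) : Nat := Bool.rec (s979_981 i sh) (s981_986 i sh) (Nat.ble 981 i)
noncomputable def s988_990 (i sh : Nat) : Nat := Bool.rec (Nat.shiftRight leaf988 sh) (Nat.shiftRight leaf989 sh) (Nat.ble 989 i)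
noncomputable def s988_991 (i sh : Nat) : Nat := Bool.rec (s988_990 i sh) (Nat.shiftRight leaf990 sh) (Nat.ble 990 i)
noncomputable def s987_991 (i sh : Nat) : Nat := Bool.rec (Nat.shiftRight leaf987 sh) (s988_991 i sh) (Nat.ble 988 i)
noncomputable def s986_991 (i sh : Nat) : Nat := Bool.rec (Nat.shiftRight leaf986 sh) (s987_991 i sh) (Nat.ble 987 i)
noncomputable def s979_991 (i sh : Nat) : Nat := Bool.rec (s979_986 i sh) (s986_991 i sh) (Nat.ble 986 i)
noncomputable def s991_993 (i sh : Nat) : Nat := Bool.rec (Nat.shiftRight leaf991 sh) (Nat.shiftRight leaf992 sh) (Nat.ble 992 i)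
noncomputable def s994_996 (i sh : Nat) : Nat := Bool.rec (Nat.shiftRight leaf994 sh) (Nat.shiftRight leaf995 sh) (Nat.ble 995 i)
noncomputable def s993_996 (i sh : Nat) : Nat := Bool.rec (Nat.shiftRight leaf993 sh) (s994_996 i sh) (Nat.ble 994 i)
noncomputable def s993_997 (i sh : Nat) : Nat := Bool.rec (s993_996 i sh) (Nat.shiftRight leaf996 sh) (Nat.ble 996 i)
noncomputable def s991_997 (i sh : Nat) : Nat := Bool.rec (s991_993 i sh) (s993_997 i sh) (Nat.ble 993 i)
noncomputable def s979_997 (i sh : Nat) : Nat := Bool.rec (s979_991 i sh) (s991_997 i sh) (Nat.ble 991 i)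
noncomputable def s999_1001 (i sh : Nat) : Nat := Bool.rec (Nat.shiftRight leaf999 sh) (Nat.shiftRight leaf1000 sh) (Nat.ble 1000 i)
noncomputable def s998_1001 (i sh : Nat) : Nat := Bool.rec (Nat.shiftRight leaf998 sh) (s999_1001 i sh) (Nat.ble 999 i)
noncomputable def s998_1002 (i sh : Nat) : Nat := Bool.rec (s998_1001 i sh) (Nat.shiftRight leaf1001 sh) (Nat.ble 1001 i)
noncomputable def s1002_1004 (i sh : Nat) : Nat := Bool.rec (Nat.shiftRight leaf1002 sh) (Nat.shiftRight leaf1003 sh) (Nat.ble 1003 i)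
noncomputable def s1002_1005 (i sh : Nat) : Nat := Bool.rec (s1002_1004 i sh) (Nat.shiftRight leaf1004 sh) (Nat.ble 1004 i)
noncomputable def s998_1005 (i sh : Nat) : Nat := Bool.rec (s998_1002 i sh) (s1002_1005 i sh) (Nat.ble 1002 i)
noncomputable def s997_1005 (i sh : Nat) : Nat := Bool.rec (Nat.shiftRight leaf997 sh) (s998_1005 i sh) (Nat.ble 998 i)
noncomputable def s979_1005 (i sh : Nat) : Nat := Bool.rec (s979_997 i sh) (s997_1005 i sh) (Nat.ble 997 i)
noncomputable def s939_1005 (i sh : Nat) : Nat := Bool.rec (s939_979 i sh) (s979_1005 i sh) (Nat.ble 979 i)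
noncomputable def s277_1005 (i sh : Nat) : Nat := Bool.rec (s277_939 i sh) (s939_1005 i sh) (Nat.ble 939 i)
noncomputable def s51_1005 (i sh : Nat) : Nat := Bool.rec (s51_277 i sh) (s277_1005 i sh) (Nat.ble 277 i)
noncomputable def s3_1005 (i sh : Nat) : Nat := Bool.rec (s3_51 i sh) (s51_1005 i sh) (Nat.ble 51 i)
noncomputable def s0_1005 (i sh : Nat) : Nat := Bool.rec (s0_3 i sh) (s3_1005 i sh) (Nat.ble 3 i)
noncomputable def s1005_1007 (i sh : Nat) : Nat := Bool.rec (Nat.shiftRight leaf1005 sh) (Nat.shiftRight leaf1006 sh) (Nat.ble 1006 i)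
noncomputable def s1005_1008 (i sh : Nat) : Nat := Bool.rec (s1005_1007 i sh) (Nat.shiftRight leaf1007 sh) (Nat.ble 1007 i)
noncomputable def s1008_1010 (i sh : Nat) : Nat := Bool.rec (Nat.shiftRight leaf1008 sh) (Nat.shiftRight leaf1009 sh) (Nat.ble 1009 i)
noncomputable def s1008_1011 (i sh : Nat) : Nat := Bool.rec (s1008_1010 i sh) (Nat.shiftRight leaf1010 sh) (Nat.ble 1010 i)
noncomputable def s1005_1011 (i sh : Nat) : Nat := Bool.rec (s1005_1008 i sh) (s1008_1011 i sh) (Nat.ble 1008 i)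
noncomputable def s1012_1014 (i sh : Nat) : Nat := Bool.rec (Nat.shiftRight leaf1012 sh) (Nat.shiftRight leaf1013 sh) (Nat.ble 1013 i)
noncomputable def s1014_1016 (i sh : Nat) : Nat := Bool.rec (Nat.shiftRight leaf1014 sh) (Nat.shiftRight leaf1015 sh) (Nat.ble 1015 i)
noncomputable def s1012_1016 (i sh : Nat) : Nat := Bool.rec (s1012_1014 i sh) (s1014_1016 i sh) (Nat.ble 1014 i)
noncomputable def s1011_1016 (i sh : Nat) : Nat := Bool.rec (Nat.shiftRight leaf1011 sh) (s1012_1016 i sh) (Nat.ble 1012 i)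
noncomputable def s1005_1016 (i sh : Nat) : Nat := Bool.rec (s1005_1011 i sh) (s1011_1016 i sh) (Nat.ble 1011 i)
noncomputable def s1016_1018 (i sh : Nat) : Nat := Bool.rec (Nat.shiftRight leaf1016 sh) (Nat.shiftRight leaf1017 sh) (Nat.ble 1017 i)
noncomputable def s1016_1019 (i sh : Nat) : Nat := Bool.rec (s1016_1018 i sh) (Nat.shiftRight leaf1018 sh) (Nat.ble 1018 i)
noncomputable def s1019_1021 (i sh : Nat) : Nat := Bool.rec (Nat.shiftRight leaf1019 sh) (Nat.shiftRight leaf1020 sh) (Nat.ble 1020 i)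
noncomputable def s1021_1023 (i sh : Nat) : Nat := Bool.rec (Nat.shiftRight leaf1021 sh) (Nat.shiftRight leaf1022 sh) (Nat.ble 1022 i)
noncomputable def s1019_1023 (i sh : Nat) : Nat := Bool.rec (s1019_1021 i sh) (s1021_1023 i sh) (Nat.ble 1021 i)
noncomputable def s1023_1025 (i sh : Nat) : Nat := Bool.rec (Nat.shiftRight leaf1023 sh) (Nat.shiftRight leaf1024 sh) (Nat.ble 1024 i)
noncomputable def s1025_1027 (i sh : Nat) : Nat := Bool.rec (Nat.shiftRight leaf1025 sh) (Nat.shiftRight leaf1026 sh) (Nat.ble 1026 i)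
noncomputable def s1027_1029 (i sh : Nat) : Nat := Bool.rec (Nat.shiftRight leaf1027 sh) (Nat.shiftRight leaf1028 sh) (Nat.ble 1028 i)
noncomputable def s1027_1030 (i sh : Nat) : Nat := Bool.rec (s1027_1029 i sh) (Nat.shiftRight leaf1029 sh) (Nat.ble 1029 i)
noncomputable def s1027_1031 (i sh : Nat) : Nat := Bool.rec (s1027_1030 i sh) (Nat.shiftRight leaf1030 sh) (Nat.ble 1030 i)
noncomputable def s1025_1031 (i sh : Nat) : Nat := Bool.rec (s1025_1027 i sh) (s1027_1031 i sh) (Nat.ble 1027 i)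
noncomputable def s1023_1031 (i sh : Nat) : Nat := Bool.rec (s1023_1025 i sh) (s1025_1031 i sh) (Nat.ble 1025 i)
noncomputable def s1019_1031 (i sh : Nat) : Nat := Bool.rec (s1019_1023 i sh) (s1023_1031 i sh) (Nat.ble 1023 i)
noncomputable def s1016_1031 (i sh : Nat) : Nat := Bool.rec (s1016_1019 i sh) (s1019_1031 i sh) (Nat.ble 1019 i)
noncomputable def s1031_1033 (i sh : Nat) : Nat := Bool.rec (Nat.shiftRight leaf1031 sh) (Nat.shiftRight leaf1032 sh) (Nat.ble 1032 i)
noncomputable def s1031_1034 (i sh : Nat) : Nat := Bool.rec (s1031_1033 i sh) (Nat.shiftRight leaf1033 sh) (Nat.ble 1033 i)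
noncomputable def s1034_1036 (i sh : Nat) : Nat := Bool.rec (Nat.shiftRight leaf1034 sh) (Nat.shiftRight leaf1035 sh) (Nat.ble 1035 i)
noncomputable def s1037_1039 (i sh : Nat) : Nat := Bool.rec (Nat.shiftRight leaf1037 sh) (Nat.shiftRight leaf1038 sh) (Nat.ble 1038 i)
noncomputable def s1036_1039 (i sh : Nat) : Nat := Bool.rec (Nat.shiftRight leaf1036 sh) (s1037_1039 i sh) (Nat.ble 1037 i)
noncomputable def s1034_1039 (i sh : Nat) : Nat := Bool.rec (s1034_1036 i sh) (s1036_1039 i sh) (Nat.ble 1036 i)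
noncomputable def s1031_1039 (i sh : Nat) : Nat := Bool.rec (s1031_1034 i sh) (s1034_1039 i sh) (Nat.ble 1034 i)
noncomputable def s1041_1043 (i sh : Nat) : Nat := Bool.rec (Nat.shiftRight leaf1041 sh) (Nat.shiftRight leaf1042 sh) (Nat.ble 1042 i)
noncomputable def s1040_1043 (i sh : Nat) : Nat := Bool.rec (Nat.shiftRight leaf1040 sh) (s1041_1043 i sh) (Nat.ble 1041 i)
noncomputable def s1039_1043 (i sh : Nat) : Nat := Bool.rec (Nat.shiftRight leaf1039 sh) (s1040_1043 i sh) (Nat.ble 1040 i)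
noncomputable def s1031_1043 (i sh : Nat) : Nat := Bool.rec (s1031_1039 i sh) (s1039_1043 i sh) (Nat.ble 1039 i)
noncomputable def s1044_1046 (i sh : Nat) : Nat := Bool.rec (Nat.shiftRight leaf1044 sh) (Nat.shiftRight leaf1045 sh) (Nat.ble 1045 i)
noncomputable def s1043_1046 (i sh : Nat) : Nat := Bool.rec (Nat.shiftRight leaf1043 sh) (s1044_1046 i sh) (Nat.ble 1044 i)
noncomputable def s1031_1046 (i sh : Nat) : Nat := Bool.rec (s1031_1043 i sh) (s1043_1046 i sh) (Nat.ble 1043 i)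
noncomputable def s1016_1046 (i sh : Nat) : Nat := Bool.rec (s1016_1031 i sh) (s1031_1046 i sh) (Nat.ble 1031 i)
noncomputable def s1005_1046 (i sh : Nat) : Nat := Bool.rec (s1005_1016 i sh) (s1016_1046 i sh) (Nat.ble 1016 i)
noncomputable def s1046_1048 (i sh : Nat) : Nat := Bool.rec (Nat.shiftRight leaf1046 sh) (Nat.shiftRight leaf1047 sh) (Nat.ble 1047 i)
noncomputable def s1050_1052 (i sh : Nat) : Nat := Bool.rec (Nat.shiftRight leaf1050 sh) (Nat.shiftRight leaf1051 sh) (Nat.ble 1051 i)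
noncomputable def s1049_1052 (i sh : Nat) : Nat := Bool.rec (Nat.shiftRight leaf1049 sh) (s1050_1052 i sh) (Nat.ble 1050 i)
noncomputable def s1049_1053 (i sh : Nat) : Nat := Bool.rec (s1049_1052 i sh) (Nat.shiftRight leaf1052 sh) (Nat.ble 1052 i)
noncomputable def s1053_1055 (i sh : Nat) : Nat := Bool.rec (Nat.shiftRight leaf1053 sh) (Nat.shiftRight leaf1054 sh) (Nat.ble 1054 i)
noncomputable def s1053_1056 (i sh : Nat) : Nat := Bool.rec (s1053_1055 i sh) (Nat.shiftRight leaf1055 sh) (Nat.ble 1055 i)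
noncomputable def s1049_1056 (i sh : Nat) : Nat := Bool.rec (s1049_1053 i sh) (s1053_1056 i sh) (Nat.ble 1053 i)
noncomputable def s1048_1056 (i sh : Nat) : Nat := Bool.rec (Nat.shiftRight leaf1048 sh) (s1049_1056 i sh) (Nat.ble 1049 i)
noncomputable def s1046_1056 (i sh : Nat) : Nat := Bool.rec (s1046_1048 i sh) (s1048_1056 i sh) (Nat.ble 1048 i)
noncomputable def s1056_1058 (i sh : Nat) : Nat := Bool.rec (Nat.shiftRight leaf1056 sh) (Nat.shiftRight leaf1057 sh) (Nat.ble 1057 i)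
noncomputable def s1056_1059 (i sh : Nat) : Nat := Bool.rec (s1056_1058 i sh) (Nat.shiftRight leaf1058 sh) (Nat.ble 1058 i)
noncomputable def s1056_1060 (i sh : Nat) : Nat := Bool.rec (s1056_1059 i sh) (Nat.shiftRight leaf1059 sh) (Nat.ble 1059 i)
noncomputable def s1060_1062 (i sh : Nat) : Nat := Bool.rec (Nat.shiftRight leaf1060 sh) (Nat.shiftRight leaf1061 sh) (Nat.ble 1061 i)
noncomputable def s1060_1063 (i sh : Nat) : Nat := Bool.rec (s1060_1062 i sh) (Nat.shiftRight leaf1062 sh) (Nat.ble 1062 i)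
noncomputable def s1063_1065 (i sh : Nat) : Nat := Bool.rec (Nat.shiftRight leaf1063 sh) (Nat.shiftRight leaf1064 sh) (Nat.ble 1064 i)
noncomputable def s1065_1067 (i sh : Nat) : Nat := Bool.rec (Nat.shiftRight leaf1065 sh) (Nat.shiftRight leaf1066 sh) (Nat.ble 1066 i)
noncomputable def s1063_1067 (i sh : Nat) : Nat := Bool.rec (s1063_1065 i sh) (s1065_1067 i sh) (Nat.ble 1065 i)
noncomputable def s1060_1067 (i sh : Nat) : Nat := Bool.rec (s1060_1063 i sh) (s1063_1067 i sh) (Nat.ble 1063 i)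
noncomputable def s1056_1067 (i sh : Nat) : Nat := Bool.rec (s1056_1060 i sh) (s1060_1067 i sh) (Nat.ble 1060 i)
noncomputable def s1046_1067 (i sh : Nat) : Nat := Bool.rec (s1046_1056 i sh) (s1056_1067 i sh) (Nat.ble 1056 i)
noncomputable def s1067_1069 (i sh : Nat) : Nat := Bool.rec (Nat.shiftRight leaf1067 sh) (Nat.shiftRight leaf1068 sh) (Nat.ble 1068 i)
noncomputable def s1070_1072 (i sh : Nat) : Nat := Bool.rec (Nat.shiftRight leaf1070 sh) (Nat.shiftRight leaf1071 sh) (Nat.ble 1071 i)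
noncomputable def s1072_1074 (i sh : Nat) : Nat := Bool.rec (Nat.shiftRight leaf1072 sh) (Nat.shiftRight leaf1073 sh) (Nat.ble 1073 i)
noncomputable def s1070_1074 (i sh : Nat) : Nat := Bool.rec (s1070_1072 i sh) (s1072_1074 i sh) (Nat.ble 1072 i)
noncomputable def s1069_1074 (i sh : Nat) : Nat := Bool.rec (Nat.shiftRight leaf1069 sh) (s1070_1074 i sh) (Nat.ble 1070 i)
noncomputable def s1067_1074 (i sh : Nat) : Nat := Bool.rec (s1067_1069 i sh) (s1069_1074 i sh) (Nat.ble 1069 i)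
noncomputable def s1074_1076 (i sh : Nat) : Nat := Bool.rec (Nat.shiftRight leaf1074 sh) (Nat.shiftRight leaf1075 sh) (Nat.ble 1075 i)
noncomputable def s1076_1078 (i sh : Nat) : Nat := Bool.rec (Nat.shiftRight leaf1076 sh) (Nat.shiftRight leaf1077 sh) (Nat.ble 1077 i)
noncomputable def s1074_1078 (i sh : Nat) : Nat := Bool.rec (s1074_1076 i sh) (s1076_1078 i sh) (Nat.ble 1076 i)
noncomputable def s1078_1080 (i sh : Nat) : Nat := Bool.rec (Nat.shiftRight leaf1078 sh) (Nat.shiftRight leaf1079 sh) (Nat.ble 1079 i)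
noncomputable def s1080_1082 (i sh : Nat) : Nat := Bool.rec (Nat.shiftRight leaf1080 sh) (Nat.shiftRight leaf1081 sh) (Nat.ble 1081 i)
noncomputable def s1078_1082 (i sh : Nat) : Nat := Bool.rec (s1078_1080 i sh) (s1080_1082 i sh) (Nat.ble 1080 i)
noncomputable def s1074_1082 (i sh : Nat) : Nat := Bool.rec (s1074_1078 i sh) (s1078_1082 i sh) (Nat.ble 1078 i)
noncomputable def s1067_1082 (i sh : Nat) : Nat := Bool.rec (s1067_1074 i sh) (s1074_1082 i sh) (Nat.ble 1074 i)
noncomputable def s1082_1084 (i sh : Nat) : Nat := Bool.rec (Nat.shiftRight leaf1082 sh) (Nat.shiftRight leaf1083 sh) (Nat.ble 1083 i)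
noncomputable def s1085_1087 (i sh : Nat) : Nat := Bool.rec (Nat.shiftRight leaf1085 sh) (Nat.shiftRight leaf1086 sh) (Nat.ble 1086 i)
noncomputable def s1084_1087 (i sh : Nat) : Nat := Bool.rec (Nat.shiftRight leaf1084 sh) (s1085_1087 i sh) (Nat.ble 1085 i)
noncomputable def s1082_1087 (i sh : Nat) : Nat := Bool.rec (s1082_1084 i sh) (s1084_1087 i sh) (Nat.ble 1084 i)
noncomputable def s1087_1089 (i sh : Nat) : Nat := Bool.rec (Nat.shiftRight leaf1087 sh) (Nat.shiftRight leaf1088 sh) (Nat.ble 1088 i)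
noncomputable def s1089_1091 (i sh : Nat) : Nat := Bool.rec (Nat.shiftRight leaf1089 sh) (Nat.shiftRight leaf1090 sh) (Nat.ble 1090 i)
noncomputable def s1087_1091 (i sh : Nat) : Nat := Bool.rec (s1087_1089 i sh) (s1089_1091 i sh) (Nat.ble 1089 i)
noncomputable def s1082_1091 (i sh : Nat) : Nat := Bool.rec (s1082_1087 i sh) (s1087_1091 i sh) (Nat.ble 1087 i)
noncomputable def s1067_1091 (i sh : Nat) : Nat := Bool.rec (s1067_1082 i sh) (s1082_1091 i sh) (Nat.ble 1082 i)
noncomputable def s1046_1091 (i sh : Nat) : Nat := Bool.rec (s1046_1067 i sh) (s1067_1091 i sh) (Nat.ble 1067 i)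
noncomputable def s1005_1091 (i sh : Nat) : Nat := Bool.rec (s1005_1046 i sh) (s1046_1091 i sh) (Nat.ble 1046 i)
noncomputable def s1091_1093 (i sh : Nat) : Nat := Bool.rec (Nat.shiftRight leaf1091 sh) (Nat.shiftRight leaf1092 sh) (Nat.ble 1092 i)
noncomputable def s1091_1094 (i sh : Nat) : Nat := Bool.rec (s1091_1093 i sh) (Nat.shiftRight leaf1093 sh) (Nat.ble 1093 i)
noncomputable def s1094_1096 (i sh : Nat) : Nat := Bool.rec (Nat.shiftRight leaf1094 sh) (Nat.shiftRight leaf1095 sh) (Nat.ble 1095 i)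
noncomputable def s1091_1096 (i sh : Nat) : Nat := Bool.rec (s1091_1094 i sh) (s1094_1096 i sh) (Nat.ble 1094 i)
noncomputable def s1096_1098 (i sh : Nat) : Nat := Bool.rec (Nat.shiftRight leaf1096 sh) (Nat.shiftRight leaf1097 sh) (Nat.ble 1097 i)
noncomputable def s1096_1099 (i sh : Nat) : Nat := Bool.rec (s1096_1098 i sh) (Nat.shiftRight leaf1098 sh) (Nat.ble 1098 i)
noncomputable def s1099_1101 (i sh : Nat) : Nat := Bool.rec (Nat.shiftRight leaf1099 sh) (Nat.shiftRight leaf1100 sh) (Nat.ble 1100 i)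
noncomputable def s1096_1101 (i sh : Nat) : Nat := Bool.rec (s1096_1099 i sh) (s1099_1101 i sh) (Nat.ble 1099 i)
noncomputable def s1101_1103 (i sh : Nat) : Nat := Bool.rec (Nat.shiftRight leaf1101 sh) (Nat.shiftRight leaf1102 sh) (Nat.ble 1102 i)
noncomputable def s1103_1105 (i sh : Nat) : Nat := Bool.rec (Nat.shiftRight leaf1103 sh) (Nat.shiftRight leaf1104 sh) (Nat.ble 1104 i)
noncomputable def s1101_1105 (i sh : Nat) : Nat := Bool.rec (s1101_1103 i sh) (s1103_1105 i sh) (Nat.ble 1103 i)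
noncomputable def s1096_1105 (i sh : Nat) : Nat := Bool.rec (s1096_1101 i sh) (s1101_1105 i sh) (Nat.ble 1101 i)
noncomputable def s1091_1105 (i sh : Nat) : Nat := Bool.rec (s1091_1096 i sh) (s1096_1105 i sh) (Nat.ble 1096 i)
noncomputable def s1107_1109 (i sh : Nat) : Nat := Bool.rec (Nat.shiftRight leaf1107 sh) (Nat.shiftRight leaf1108 sh) (Nat.ble 1108 i)
noncomputable def s1106_1109 (i sh : Nat) : Nat := Bool.rec (Nat.shiftRight leaf1106 sh) (s1107_1109 i sh) (Nat.ble 1107 i)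
noncomputable def s1105_1109 (i sh : Nat) : Nat := Bool.rec (Nat.shiftRight leaf1105 sh) (s1106_1109 i sh) (Nat.ble 1106 i)
noncomputable def s1109_1111 (i sh : Nat) : Nat := Bool.rec (Nat.shiftRight leaf1109 sh) (Nat.shiftRight leaf1110 sh) (Nat.ble 1110 i)
noncomputable def s1111_1113 (i sh : Nat) : Nat := Bool.rec (Nat.shiftRight leaf1111 sh) (Nat.shiftRight leaf1112 sh) (Nat.ble 1112 i)
noncomputable def s1109_1113 (i sh : Nat) : Nat := Bool.rec (s1109_1111 i sh) (s1111_1113 i sh) (Nat.ble 1111 i)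
noncomputable def s1113_1115 (i sh : Nat) : Nat := Bool.rec (Nat.shiftRight leaf1113 sh) (Nat.shiftRight leaf1114 sh) (Nat.ble 1114 i)
noncomputable def s1109_1115 (i sh : Nat) : Nat := Bool.rec (s1109_1113 i sh) (s1113_1115 i sh) (Nat.ble 1113 i)
noncomputable def s1115_1117 (i sh : Nat) : Nat := Bool.rec (Nat.shiftRight leaf1115 sh) (Nat.shiftRight leaf1116 sh) (Nat.ble 1116 i)
noncomputable def s1117_1119 (i sh : Nat) : Nat := Bool.rec (Nat.shiftRight leaf1117 sh) (Nat.shiftRight leaf1118 sh) (Nat.ble 1118 i)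
noncomputable def s1119_1121 (i sh : Nat) : Nat := Bool.rec (Nat.shiftRight leaf1119 sh) (Nat.shiftRight leaf1120 sh) (Nat.ble 1120 i)
noncomputable def s1117_1121 (i sh : Nat) : Nat := Bool.rec (s1117_1119 i sh) (s1119_1121 i sh) (Nat.ble 1119 i)
noncomputable def s1115_1121 (i sh : Nat) : Nat := Bool.rec (s1115_1117 i sh) (s1117_1121 i sh) (Nat.ble 1117 i)
noncomputable def s1109_1121 (i sh : Nat) : Nat := Bool.rec (s1109_1115 i sh) (s1115_1121 i sh) (Nat.ble 1115 i)
noncomputable def s1105_1121 (i sh : Nat) : Nat := Bool.rec (s1105_1109 i sh) (s1109_1121 i sh) (Nat.ble 1109 i)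
noncomputable def s1091_1121 (i sh : Nat) : Nat := Bool.rec (s1091_1105 i sh) (s1105_1121 i sh) (Nat.ble 1105 i)
noncomputable def s1121_1123 (i sh : Nat) : Nat := Bool.rec (Nat.shiftRight leaf1121 sh) (Nat.shiftRight leaf1122 sh) (Nat.ble 1122 i)
noncomputable def s1123_1125 (i sh : Nat) : Nat := Bool.rec (Nat.shiftRight leaf1123 sh) (Nat.shiftRight leaf1124 sh) (Nat.ble 1124 i)
noncomputable def s1125_1127 (i sh : Nat) : Nat := Bool.rec (Nat.shiftRight leaf1125 sh) (Nat.shiftRight leaf1126 sh) (Nat.ble 1126 i)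
noncomputable def s1125_1128 (i sh : Nat) : Nat := Bool.rec (s1125_1127 i sh) (Nat.shiftRight leaf1127 sh) (Nat.ble 1127 i)
noncomputable def s1123_1128 (i sh : Nat) : Nat := Bool.rec (s1123_1125 i sh) (s1125_1128 i sh) (Nat.ble 1125 i)
noncomputable def s1121_1128 (i sh : Nat) : Nat := Bool.rec (s1121_1123 i sh) (s1123_1128 i sh) (Nat.ble 1123 i)
noncomputable def s1128_1130 (i sh : Nat) : Nat := Bool.rec (Nat.shiftRight leaf1128 sh) (Nat.shiftRight leaf1129 sh) (Nat.ble 1129 i)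
noncomputable def s1130_1132 (i sh : Nat) : Nat := Bool.rec (Nat.shiftRight leaf1130 sh) (Nat.shiftRight leaf1131 sh) (Nat.ble 1131 i)
noncomputable def s1128_1132 (i sh : Nat) : Nat := Bool.rec (s1128_1130 i sh) (s1130_1132 i sh) (Nat.ble 1130 i)
noncomputable def s1132_1134 (i sh : Nat) : Nat := Bool.rec (Nat.shiftRight leaf1132 sh) (Nat.shiftRight leaf1133 sh) (Nat.ble 1133 i)
noncomputable def s1134_1136 (i sh : Nat) : Nat := Bool.rec (Nat.shiftRight leaf1134 sh) (Nat.shiftRight leaf1135 sh) (Nat.ble 1135 i)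
noncomputable def s1132_1136 (i sh : Nat) : Nat := Bool.rec (s1132_1134 i sh) (s1134_1136 i sh) (Nat.ble 1134 i)
noncomputable def s1128_1136 (i sh : Nat) : Nat := Bool.rec (s1128_1132 i sh) (s1132_1136 i sh) (Nat.ble 1132 i)
noncomputable def s1121_1136 (i sh : Nat) : Nat := Bool.rec (s1121_1128 i sh) (s1128_1136 i sh) (Nat.ble 1128 i)
noncomputable def s1137_1139 (i sh : Nat) : Nat := Bool.rec (Nat.shiftRight leaf1137 sh) (Nat.shiftRight leaf1138 sh) (Nat.ble 1138 i)
noncomputable def s1137_1140 (i sh : Nat) : Nat := Bool.rec (s1137_1139 i sh) (Nat.shiftRight leaf1139 sh) (Nat.ble 1139 i)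
noncomputable def s1136_1140 (i sh : Nat) : Nat := Bool.rec (Nat.shiftRight leaf1136 sh) (s1137_1140 i sh) (Nat.ble 1137 i)
noncomputable def s1141_1143 (i sh : Nat) : Nat := Bool.rec (Nat.shiftRight leaf1141 sh) (Nat.shiftRight leaf1142 sh) (Nat.ble 1142 i)
noncomputable def s1140_1143 (i sh : Nat) : Nat := Bool.rec (Nat.shiftRight leaf1140 sh) (s1141_1143 i sh) (Nat.ble 1141 i)
noncomputable def s1136_1143 (i sh : Nat) : Nat := Bool.rec (s1136_1140 i sh) (s1140_1143 i sh) (Nat.ble 1140 i)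
noncomputable def s1143_1145 (i sh : Nat) : Nat := Bool.rec (Nat.shiftRight leaf1143 sh) (Nat.shiftRight leaf1144 sh) (Nat.ble 1144 i)
noncomputable def s1143_1146 (i sh : Nat) : Nat := Bool.rec (s1143_1145 i sh) (Nat.shiftRight leaf1145 sh) (Nat.ble 1145 i)
noncomputable def s1146_1148 (i sh : Nat) : Nat := Bool.rec (Nat.shiftRight leaf1146 sh) (Nat.shiftRight leaf1147 sh) (Nat.ble 1147 i)
noncomputable def s1143_1148 (i sh : Nat) : Nat := Bool.rec (s1143_1146 i sh) (s1146_1148 i sh) (Nat.ble 1146 i)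
noncomputable def s1136_1148 (i sh : Nat) : Nat := Bool.rec (s1136_1143 i sh) (s1143_1148 i sh) (Nat.ble 1143 i)
noncomputable def s1121_1148 (i sh : Nat) : Nat := Bool.rec (s1121_1136 i sh) (s1136_1148 i sh) (Nat.ble 1136 i)
noncomputable def s1149_1151 (i sh : Nat) : Nat := Bool.rec (Nat.shiftRight leaf1149 sh) (Nat.shiftRight leaf1150 sh) (Nat.ble 1150 i)
noncomputable def s1148_1151 (i sh : Nat) : Nat := Bool.rec (Nat.shiftRight leaf1148 sh) (s1149_1151 i sh) (Nat.ble 1149 i)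
noncomputable def s1151_1153 (i sh : Nat) : Nat := Bool.rec (Nat.shiftRight leaf1151 sh) (Nat.shiftRight leaf1152 sh) (Nat.ble 1152 i)
noncomputable def s1148_1153 (i sh : Nat) : Nat := Bool.rec (s1148_1151 i sh) (s1151_1153 i sh) (Nat.ble 1151 i)
noncomputable def s1153_1155 (i sh : Nat) : Nat := Bool.rec (Nat.shiftRight leaf1153 sh) (Nat.shiftRight leaf1154 sh) (Nat.ble 1154 i)
noncomputable def s1153_1156 (i sh : Nat) : Nat := Bool.rec (s1153_1155 i sh) (Nat.shiftRight leaf1155 sh) (Nat.ble 1155 i)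
noncomputable def s1156_1158 (i sh : Nat) : Nat := Bool.rec (Nat.shiftRight leaf1156 sh) (Nat.shiftRight leaf1157 sh) (Nat.ble 1157 i)
noncomputable def s1158_1160 (i sh : Nat) : Nat := Bool.rec (Nat.shiftRight leaf1158 sh) (Nat.shiftRight leaf1159 sh) (Nat.ble 1159 i)
noncomputable def s1156_1160 (i sh : Nat) : Nat := Bool.rec (s1156_1158 i sh) (s1158_1160 i sh) (Nat.ble 1158 i)
noncomputable def s1153_1160 (i sh : Nat) : Nat := Bool.rec (s1153_1156 i sh) (s1156_1160 i sh) (Nat.ble 1156 i)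
noncomputable def s1148_1160 (i sh : Nat) : Nat := Bool.rec (s1148_1153 i sh) (s1153_1160 i sh) (Nat.ble 1153 i)
noncomputable def s1160_1162 (i sh : Nat) : Nat := Bool.rec (Nat.shiftRight leaf1160 sh) (Nat.shiftRight leaf1161 sh) (Nat.ble 1161 i)
noncomputable def s1160_1163 (i sh : Nat) : Nat := Bool.rec (s1160_1162 i sh) (Nat.shiftRight leaf1162 sh) (Nat.ble 1162 i)
noncomputable def s1160_1164 (i sh : Nat) : Nat := Bool.rec (s1160_1163 i sh) (Nat.shiftRight leaf1163 sh) (Nat.ble 1163 i)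
noncomputable def s1164_1166 (i sh : Nat) : Nat := Bool.rec (Nat.shiftRight leaf1164 sh) (Nat.shiftRight leaf1165 sh) (Nat.ble 1165 i)
noncomputable def s1166_1168 (i sh : Nat) : Nat := Bool.rec (Nat.shiftRight leaf1166 sh) (Nat.shiftRight leaf1167 sh) (Nat.ble 1167 i)
noncomputable def s1168_1170 (i sh : Nat) : Nat := Bool.rec (Nat.shiftRight leaf1168 sh) (Nat.shiftRight leaf1169 sh) (Nat.ble 1169 i)
noncomputable def s1166_1170 (i sh : Nat) : Nat := Bool.rec (s1166_1168 i sh) (s1168_1170 i sh) (Nat.ble 1168 i)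
noncomputable def s1164_1170 (i sh : Nat) : Nat := Bool.rec (s1164_1166 i sh) (s1166_1170 i sh) (Nat.ble 1166 i)
noncomputable def s1160_1170 (i sh : Nat) : Nat := Bool.rec (s1160_1164 i sh) (s1164_1170 i sh) (Nat.ble 1164 i)
noncomputable def s1148_1170 (i sh : Nat) : Nat := Bool.rec (s1148_1160 i sh) (s1160_1170 i sh) (Nat.ble 1160 i)
noncomputable def s1170_1172 (i sh : Nat) : Nat := Bool.rec (Nat.shiftRight leaf1170 sh) (Nat.shiftRight leaf1171 sh) (Nat.ble 1171 i)
noncomputable def s1173_1175 (i sh : Nat) : Nat := Bool.rec (Nat.shiftRight leaf1173 sh) (Nat.shiftRight leaf1174 sh) (Nat.ble 1174 i)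
noncomputable def s1172_1175 (i sh : Nat) : Nat := Bool.rec (Nat.shiftRight leaf1172 sh) (s1173_1175 i sh) (Nat.ble 1173 i)
noncomputable def s1170_1175 (i sh : Nat) : Nat := Bool.rec (s1170_1172 i sh) (s1172_1175 i sh) (Nat.ble 1172 i)
noncomputable def s1175_1177 (i sh : Nat) : Nat := Bool.rec (Nat.shiftRight leaf1175 sh) (Nat.shiftRight leaf1176 sh) (Nat.ble 1176 i)
noncomputable def s1175_1178 (i sh : Nat) : Nat := Bool.rec (s1175_1177 i sh) (Nat.shiftRight leaf1177 sh) (Nat.ble 1177 i)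
noncomputable def s1170_1178 (i sh : Nat) : Nat := Bool.rec (s1170_1175 i sh) (s1175_1178 i sh) (Nat.ble 1175 i)
noncomputable def s1178_1180 (i sh : Nat) : Nat := Bool.rec (Nat.shiftRight leaf1178 sh) (Nat.shiftRight leaf1179 sh) (Nat.ble 1179 i)
noncomputable def s1178_1181 (i sh : Nat) : Nat := Bool.rec (s1178_1180 i sh) (Nat.shiftRight leaf1180 sh) (Nat.ble 1180 i)
noncomputable def s1181_1183 (i sh : Nat) : Nat := Bool.rec (Nat.shiftRight leaf1181 sh) (Nat.shiftRight leaf1182 sh) (Nat.ble 1182 i)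
noncomputable def s1178_1183 (i sh : Nat) : Nat := Bool.rec (s1178_1181 i sh) (s1181_1183 i sh) (Nat.ble 1181 i)
noncomputable def s1170_1183 (i sh : Nat) : Nat := Bool.rec (s1170_1178 i sh) (s1178_1183 i sh) (Nat.ble 1178 i)
noncomputable def s1184_1186 (i sh : Nat) : Nat := Bool.rec (Nat.shiftRight leaf1184 sh) (Nat.shiftRight leaf1185 sh) (Nat.ble 1185 i)
noncomputable def s1183_1186 (i sh : Nat) : Nat := Bool.rec (Nat.shiftRight leaf1183 sh) (s1184_1186 i sh) (Nat.ble 1184 i)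
noncomputable def s1188_1190 (i sh : Nat) : Nat := Bool.rec (Nat.shiftRight leaf1188 sh) (Nat.shiftRight leaf1189 sh) (Nat.ble 1189 i)
noncomputable def s1187_1190 (i sh : Nat) : Nat := Bool.rec (Nat.shiftRight leaf1187 sh) (s1188_1190 i sh) (Nat.ble 1188 i)
noncomputable def s1186_1190 (i sh : Nat) : Nat := Bool.rec (Nat.shiftRight leaf1186 sh) (s1187_1190 i sh) (Nat.ble 1187 i)
noncomputable def s1183_1190 (i sh : Nat) : Nat := Bool.rec (s1183_1186 i sh) (s1186_1190 i sh) (Nat.ble 1186 i)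
noncomputable def s1183_1191 (i sh : Nat) : Nat := Bool.rec (s1183_1190 i sh) (Nat.shiftRight leaf1190 sh) (Nat.ble 1190 i)
noncomputable def s1170_1191 (i sh : Nat) : Nat := Bool.rec (s1170_1183 i sh) (s1183_1191 i sh) (Nat.ble 1183 i)
noncomputable def s1148_1191 (i sh : Nat) : Nat := Bool.rec (s1148_1170 i sh) (s1170_1191 i sh) (Nat.ble 1170 i)
noncomputable def s1121_1191 (i sh : Nat) : Nat := Bool.rec (s1121_1148 i sh) (s1148_1191 i sh) (Nat.ble 1148 i)
noncomputable def s1091_1191 (i sh : Nat) : Nat := Bool.rec (s1091_1121 i sh) (s1121_1191 i sh) (Nat.ble 1121 i)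
noncomputable def s1192_1194 (i sh : Nat) : Nat := Bool.rec (Nat.shiftRight leaf1192 sh) (Nat.shiftRight leaf1193 sh) (Nat.ble 1193 i)
noncomputable def s1192_1195 (i sh : Nat) : Nat := Bool.rec (s1192_1194 i sh) (Nat.shiftRight leaf1194 sh) (Nat.ble 1194 i)
noncomputable def s1191_1195 (i sh : Nat) : Nat := Bool.rec (Nat.shiftRight leaf1191 sh) (s1192_1195 i sh) (Nat.ble 1192 i)
noncomputable def s1196_1198 (i sh : Nat) : Nat := Bool.rec (Nat.shiftRight leaf1196 sh) (Nat.shiftRight leaf1197 sh) (Nat.ble 1197 i)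
noncomputable def s1195_1198 (i sh : Nat) : Nat := Bool.rec (Nat.shiftRight leaf1195 sh) (s1196_1198 i sh) (Nat.ble 1196 i)
noncomputable def s1191_1198 (i sh : Nat) : Nat := Bool.rec (s1191_1195 i sh) (s1195_1198 i sh) (Nat.ble 1195 i)
noncomputable def s1198_1200 (i sh : Nat) : Nat := Bool.rec (Nat.shiftRight leaf1198 sh) (Nat.shiftRight leaf1199 sh) (Nat.ble 1199 i)
noncomputable def s1200_1202 (i sh : Nat) : Nat := Bool.rec (Nat.shiftRight leaf1200 sh) (Nat.shiftRight leaf1201 sh) (Nat.ble 1201 i)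
noncomputable def s1200_1203 (i sh : Nat) : Nat := Bool.rec (s1200_1202 i sh) (Nat.shiftRight leaf1202 sh) (Nat.ble 1202 i)
noncomputable def s1204_1206 (i sh : Nat) : Nat := Bool.rec (Nat.shiftRight leaf1204 sh) (Nat.shiftRight leaf1205 sh) (Nat.ble 1205 i)
noncomputable def s1203_1206 (i sh : Nat) : Nat := Bool.rec (Nat.shiftRight leaf1203 sh) (s1204_1206 i sh) (Nat.ble 1204 i)
noncomputable def s1200_1206 (i sh : Nat) : Nat := Bool.rec (s1200_1203 i sh) (s1203_1206 i sh) (Nat.ble 1203 i)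
noncomputable def s1198_1206 (i sh : Nat) : Nat := Bool.rec (s1198_1200 i sh) (s1200_1206 i sh) (Nat.ble 1200 i)
noncomputable def s1191_1206 (i sh : Nat) : Nat := Bool.rec (s1191_1198 i sh) (s1198_1206 i sh) (Nat.ble 1198 i)
noncomputable def s1207_1209 (i sh : Nat) : Nat := Bool.rec (Nat.shiftRight leaf1207 sh) (Nat.shiftRight leaf1208 sh) (Nat.ble 1208 i)
noncomputable def s1206_1209 (i sh : Nat) : Nat := Bool.rec (Nat.shiftRight leaf1206 sh) (s1207_1209 i sh) (Nat.ble 1207 i)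
noncomputable def s1209_1211 (i sh : Nat) : Nat := Bool.rec (Nat.shiftRight leaf1209 sh) (Nat.shiftRight leaf1210 sh) (Nat.ble 1210 i)
noncomputable def s1211_1213 (i sh : Nat) : Nat := Bool.rec (Nat.shiftRight leaf1211 sh) (Nat.shiftRight leaf1212 sh) (Nat.ble 1212 i)
noncomputable def s1209_1213 (i sh : Nat) : Nat := Bool.rec (s1209_1211 i sh) (s1211_1213 i sh) (Nat.ble 1211 i)
noncomputable def s1214_1216 (i sh : Nat) : Nat := Bool.rec (Nat.shiftRight leaf1214 sh) (Nat.shiftRight leaf1215 sh) (Nat.ble 1215 i)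
noncomputable def s1213_1216 (i sh : Nat) : Nat := Bool.rec (Nat.shiftRight leaf1213 sh) (s1214_1216 i sh) (Nat.ble 1214 i)
noncomputable def s1209_1216 (i sh : Nat) : Nat := Bool.rec (s1209_1213 i sh) (s1213_1216 i sh) (Nat.ble 1213 i)
noncomputable def s1206_1216 (i sh : Nat) : Nat := Bool.rec (s1206_1209 i sh) (s1209_1216 i sh) (Nat.ble 1209 i)
noncomputable def s1216_1218 (i sh : Nat) : Nat := Bool.rec (Nat.shiftRight leaf1216 sh) (Nat.shiftRight leaf1217 sh) (Nat.ble 1217 i)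
noncomputable def s1216_1219 (i sh : Nat) : Nat := Bool.rec (s1216_1218 i sh) (Nat.shiftRight leaf1218 sh) (Nat.ble 1218 i)
noncomputable def s1219_1221 (i sh : Nat) : Nat := Bool.rec (Nat.shiftRight leaf1219 sh) (Nat.shiftRight leaf1220 sh) (Nat.ble 1220 i)
noncomputable def s1222_1224 (i sh : Nat) : Nat := Bool.rec (Nat.shiftRight leaf1222 sh) (Nat.shiftRight leaf1223 sh) (Nat.ble 1223 i)
noncomputable def s1221_1224 (i sh : Nat) : Nat := Bool.rec (Nat.shiftRight leaf1221 sh) (s1222_1224 i sh) (Nat.ble 1222 i)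
noncomputable def s1219_1224 (i sh : Nat) : Nat := Bool.rec (s1219_1221 i sh) (s1221_1224 i sh) (Nat.ble 1221 i)
noncomputable def s1216_1224 (i sh : Nat) : Nat := Bool.rec (s1216_1219 i sh) (s1219_1224 i sh) (Nat.ble 1219 i)
noncomputable def s1206_1224 (i sh : Nat) : Nat := Bool.rec (s1206_1216 i sh) (s1216_1224 i sh) (Nat.ble 1216 i)
noncomputable def s1191_1224 (i sh : Nat) : Nat := Bool.rec (s1191_1206 i sh) (s1206_1224 i sh) (Nat.ble 1206 i)
noncomputable def s1224_1226 (i sh : Nat) : Nat := Bool.rec (Nat.shiftRight leaf1224 sh) (Nat.shiftRight leaf1225 sh) (Nat.ble 1225 i)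
noncomputable def s1224_1227 (i sh : Nat) : Nat := Bool.rec (s1224_1226 i sh) (Nat.shiftRight leaf1226 sh) (Nat.ble 1226 i)
noncomputable def s1227_1229 (i sh : Nat) : Nat := Bool.rec (Nat.shiftRight leaf1227 sh) (Nat.shiftRight leaf1228 sh) (Nat.ble 1228 i)
noncomputable def s1229_1231 (i sh : Nat) : Nat := Bool.rec (Nat.shiftRight leaf1229 sh) (Nat.shiftRight leaf1230 sh) (Nat.ble 1230 i)
noncomputable def s1227_1231 (i sh : Nat) : Nat := Bool.rec (s1227_1229 i sh) (s1229_1231 i sh) (Nat.ble 1229 i)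
noncomputable def s1224_1231 (i sh : Nat) : Nat := Bool.rec (s1224_1227 i sh) (s1227_1231 i sh) (Nat.ble 1227 i)
noncomputable def s1233_1235 (i sh : Nat) : Nat := Bool.rec (Nat.shiftRight leaf1233 sh) (Nat.shiftRight leaf1234 sh) (Nat.ble 1234 i)
noncomputable def s1232_1235 (i sh : Nat) : Nat := Bool.rec (Nat.shiftRight leaf1232 sh) (s1233_1235 i sh) (Nat.ble 1233 i)
noncomputable def s1235_1237 (i sh : Nat) : Nat := Bool.rec (Nat.shiftRight leaf1235 sh) (Nat.shiftRight leaf1236 sh) (Nat.ble 1236 i)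
noncomputable def s1232_1237 (i sh : Nat) : Nat := Bool.rec (s1232_1235 i sh) (s1235_1237 i sh) (Nat.ble 1235 i)
noncomputable def s1231_1237 (i sh : Nat) : Nat := Bool.rec (Nat.shiftRight leaf1231 sh) (s1232_1237 i sh) (Nat.ble 1232 i)
noncomputable def s1224_1237 (i sh : Nat) : Nat := Bool.rec (s1224_1231 i sh) (s1231_1237 i sh) (Nat.ble 1231 i)
noncomputable def s1237_1239 (i sh : Nat) : Nat := Bool.rec (Nat.shiftRight leaf1237 sh) (Nat.shiftRight leaf1238 sh) (Nat.ble 1238 i)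
noncomputable def s1237_1240 (i sh : Nat) : Nat := Bool.rec (s1237_1239 i sh) (Nat.shiftRight leaf1239 sh) (Nat.ble 1239 i)
noncomputable def s1240_1242 (i sh : Nat) : Nat := Bool.rec (Nat.shiftRight leaf1240 sh) (Nat.shiftRight leaf1241 sh) (Nat.ble 1241 i)
noncomputable def s1242_1244 (i sh : Nat) : Nat := Bool.rec (Nat.shiftRight leaf1242 sh) (Nat.shiftRight leaf1243 sh) (Nat.ble 1243 i)
noncomputable def s1240_1244 (i sh : Nat) : Nat := Bool.rec (s1240_1242 i sh) (s1242_1244 i sh) (Nat.ble 1242 i)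
noncomputable def s1237_1244 (i sh : Nat) : Nat := Bool.rec (s1237_1240 i sh) (s1240_1244 i sh) (Nat.ble 1240 i)
noncomputable def s1237_1245 (i sh : Nat) : Nat := Bool.rec (s1237_1244 i sh) (Nat.shiftRight leaf1244 sh) (Nat.ble 1244 i)
noncomputable def s1224_1245 (i sh : Nat) : Nat := Bool.rec (s1224_1237 i sh) (s1237_1245 i sh) (Nat.ble 1237 i)
noncomputable def s1245_1247 (i sh : Nat) : Nat := Bool.rec (Nat.shiftRight leaf1245 sh) (Nat.shiftRight leaf1246 sh) (Nat.ble 1246 i)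
noncomputable def s1245_1248 (i sh : Nat) : Nat := Bool.rec (s1245_1247 i sh) (Nat.shiftRight leaf1247 sh) (Nat.ble 1247 i)
noncomputable def s1248_1250 (i sh : Nat) : Nat := Bool.rec (Nat.shiftRight leaf1248 sh) (Nat.shiftRight leaf1249 sh) (Nat.ble 1249 i)
noncomputable def s1248_1251 (i sh : Nat) : Nat := Bool.rec (s1248_1250 i sh) (Nat.shiftRight leaf1250 sh) (Nat.ble 1250 i)
noncomputable def s1245_1251 (i sh : Nat) : Nat := Bool.rec (s1245_1248 i sh) (s1248_1251 i sh) (Nat.ble 1248 i)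
noncomputable def s1251_1253 (i sh : Nat) : Nat := Bool.rec (Nat.shiftRight leaf1251 sh) (Nat.shiftRight leaf1252 sh) (Nat.ble 1252 i)
noncomputable def s1245_1253 (i sh : Nat) : Nat := Bool.rec (s1245_1251 i sh) (s1251_1253 i sh) (Nat.ble 1251 i)
noncomputable def s1224_1253 (i sh : Nat) : Nat := Bool.rec (s1224_1245 i sh) (s1245_1253 i sh) (Nat.ble 1245 i)
noncomputable def s1191_1253 (i sh : Nat) : Nat := Bool.rec (s1191_1224 i sh) (s1224_1253 i sh) (Nat.ble 1224 i)
noncomputable def s1255_1257 (i sh : Nat) : Nat := Bool.rec (Nat.shiftRight leaf1255 sh) (Nat.shiftRight leaf1256 sh) (Nat.ble 1256 i)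
noncomputable def s1254_1257 (i sh : Nat) : Nat := Bool.rec (Nat.shiftRight leaf1254 sh) (s1255_1257 i sh) (Nat.ble 1255 i)
noncomputable def s1253_1257 (i sh : Nat) : Nat := Bool.rec (Nat.shiftRight leaf1253 sh) (s1254_1257 i sh) (Nat.ble 1254 i)
noncomputable def s1257_1259 (i sh : Nat) : Nat := Bool.rec (Nat.shiftRight leaf1257 sh) (Nat.shiftRight leaf1258 sh) (Nat.ble 1258 i)
noncomputable def s1259_1261 (i sh : Nat) : Nat := Bool.rec (Nat.shiftRight leaf1259 sh) (Nat.shiftRight leaf1260 sh) (Nat.ble 1260 i)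
noncomputable def s1257_1261 (i sh : Nat) : Nat := Bool.rec (s1257_1259 i sh) (s1259_1261 i sh) (Nat.ble 1259 i)
noncomputable def s1261_1263 (i sh : Nat) : Nat := Bool.rec (Nat.shiftRight leaf1261 sh) (Nat.shiftRight leaf1262 sh) (Nat.ble 1262 i)
noncomputable def s1261_1264 (i sh : Nat) : Nat := Bool.rec (s1261_1263 i sh) (Nat.shiftRight leaf1263 sh) (Nat.ble 1263 i)
noncomputable def s1257_1264 (i sh : Nat) : Nat := Bool.rec (s1257_1261 i sh) (s1261_1264 i sh) (Nat.ble 1261 i)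
noncomputable def s1253_1264 (i sh : Nat) : Nat := Bool.rec (s1253_1257 i sh) (s1257_1264 i sh) (Nat.ble 1257 i)
noncomputable def s1264_1266 (i sh : Nat) : Nat := Bool.rec (Nat.shiftRight leaf1264 sh) (Nat.shiftRight leaf1265 sh) (Nat.ble 1265 i)
noncomputable def s1266_1268 (i sh : Nat) : Nat := Bool.rec (Nat.shiftRight leaf1266 sh) (Nat.shiftRight leaf1267 sh) (Nat.ble 1267 i)
noncomputable def s1264_1268 (i sh : Nat) : Nat := Bool.rec (s1264_1266 i sh) (s1266_1268 i sh) (Nat.ble 1266 i)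
noncomputable def s1269_1271 (i sh : Nat) : Nat := Bool.rec (Nat.shiftRight leaf1269 sh) (Nat.shiftRight leaf1270 sh) (Nat.ble 1270 i)
noncomputable def s1268_1271 (i sh : Nat) : Nat := Bool.rec (Nat.shiftRight leaf1268 sh) (s1269_1271 i sh) (Nat.ble 1269 i)
noncomputable def s1264_1271 (i sh : Nat) : Nat := Bool.rec (s1264_1268 i sh) (s1268_1271 i sh) (Nat.ble 1268 i)
noncomputable def s1253_1271 (i sh : Nat) : Nat := Bool.rec (s1253_1264 i sh) (s1264_1271 i sh) (Nat.ble 1264 i)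
noncomputable def s1272_1274 (i sh : Nat) : Nat := Bool.rec (Nat.shiftRight leaf1272 sh) (Nat.shiftRight leaf1273 sh) (Nat.ble 1273 i)
noncomputable def s1271_1274 (i sh : Nat) : Nat := Bool.rec (Nat.shiftRight leaf1271 sh) (s1272_1274 i sh) (Nat.ble 1272 i)
noncomputable def s1274_1276 (i sh : Nat) : Nat := Bool.rec (Nat.shiftRight leaf1274 sh) (Nat.shiftRight leaf1275 sh) (Nat.ble 1275 i)
noncomputable def s1271_1276 (i sh : Nat) : Nat := Bool.rec (s1271_1274 i sh) (s1274_1276 i sh) (Nat.ble 1274 i)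
noncomputable def s1277_1279 (i sh : Nat) : Nat := Bool.rec (Nat.shiftRight leaf1277 sh) (Nat.shiftRight leaf1278 sh) (Nat.ble 1278 i)
noncomputable def s1276_1279 (i sh : Nat) : Nat := Bool.rec (Nat.shiftRight leaf1276 sh) (s1277_1279 i sh) (Nat.ble 1277 i)
noncomputable def s1271_1279 (i sh : Nat) : Nat := Bool.rec (s1271_1276 i sh) (s1276_1279 i sh) (Nat.ble 1276 i)
noncomputable def s1279_1281 (i sh : Nat) : Nat := Bool.rec (Nat.shiftRight leaf1279 sh) (Nat.shiftRight leaf1280 sh) (Nat.ble 1280 i)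
noncomputable def s1279_1282 (i sh : Nat) : Nat := Bool.rec (s1279_1281 i sh) (Nat.shiftRight leaf1281 sh) (Nat.ble 1281 i)
noncomputable def s1282_1284 (i sh : Nat) : Nat := Bool.rec (Nat.shiftRight leaf1282 sh) (Nat.shiftRight leaf1283 sh) (Nat.ble 1283 i)
noncomputable def s1282_1285 (i sh : Nat) : Nat := Bool.rec (s1282_1284 i sh) (Nat.shiftRight leaf1284 sh) (Nat.ble 1284 i)
noncomputable def s1279_1285 (i sh : Nat) : Nat := Bool.rec (s1279_1282 i sh) (s1282_1285 i sh) (Nat.ble 1282 i)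
noncomputable def s1271_1285 (i sh : Nat) : Nat := Bool.rec (s1271_1279 i sh) (s1279_1285 i sh) (Nat.ble 1279 i)
noncomputable def s1286_1288 (i sh : Nat) : Nat := Bool.rec (Nat.shiftRight leaf1286 sh) (Nat.shiftRight leaf1287 sh) (Nat.ble 1287 i)
noncomputable def s1285_1288 (i sh : Nat) : Nat := Bool.rec (Nat.shiftRight leaf1285 sh) (s1286_1288 i sh) (Nat.ble 1286 i)
noncomputable def s1290_1292 (i sh : Nat) : Nat := Bool.rec (Nat.shiftRight leaf1290 sh) (Nat.shiftRight leaf1291 sh) (Nat.ble 1291 i)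
noncomputable def s1289_1292 (i sh : Nat) : Nat := Bool.rec (Nat.shiftRight leaf1289 sh) (s1290_1292 i sh) (Nat.ble 1290 i)
noncomputable def s1288_1292 (i sh : Nat) : Nat := Bool.rec (Nat.shiftRight leaf1288 sh) (s1289_1292 i sh) (Nat.ble 1289 i)
noncomputable def s1285_1292 (i sh : Nat) : Nat := Bool.rec (s1285_1288 i sh) (s1288_1292 i sh) (Nat.ble 1288 i)
noncomputable def s1292_1294 (i sh : Nat) : Nat := Bool.rec (Nat.shiftRight leaf1292 sh) (Nat.shiftRight leaf1293 sh) (Nat.ble 1293 i)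
noncomputable def s1294_1296 (i sh : Nat) : Nat := Bool.rec (Nat.shiftRight leaf1294 sh) (Nat.shiftRight leaf1295 sh) (Nat.ble 1295 i)
noncomputable def s1294_1297 (i sh : Nat) : Nat := Bool.rec (s1294_1296 i sh) (Nat.shiftRight leaf1296 sh) (Nat.ble 1296 i)
noncomputable def s1292_1297 (i sh : Nat) : Nat := Bool.rec (s1292_1294 i sh) (s1294_1297 i sh) (Nat.ble 1294 i)
noncomputable def s1297_1299 (i sh : Nat) : Nat := Bool.rec (Nat.shiftRight leaf1297 sh) (Nat.shiftRight leaf1298 sh) (Nat.ble 1298 i)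
noncomputable def s1299_1301 (i sh : Nat) : Nat := Bool.rec (Nat.shiftRight leaf1299 sh) (Nat.shiftRight leaf1300 sh) (Nat.ble 1300 i)
noncomputable def s1297_1301 (i sh : Nat) : Nat := Bool.rec (s1297_1299 i sh) (s1299_1301 i sh) (Nat.ble 1299 i)
noncomputable def s1292_1301 (i sh : Nat) : Nat := Bool.rec (s1292_1297 i sh) (s1297_1301 i sh) (Nat.ble 1297 i)
noncomputable def s1285_1301 (i sh : Nat) : Nat := Bool.rec (s1285_1292 i sh) (s1292_1301 i sh) (Nat.ble 1292 i)
noncomputable def s1271_1301 (i sh : Nat) : Nat := Bool.rec (s1271_1285 i sh) (s1285_1301 i sh) (Nat.ble 1285 i)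
noncomputable def s1253_1301 (i sh : Nat) : Nat := Bool.rec (s1253_1271 i sh) (s1271_1301 i sh) (Nat.ble 1271 i)
noncomputable def s1301_1303 (i sh : Nat) : Nat := Bool.rec (Nat.shiftRight leaf1301 sh) (Nat.shiftRight leaf1302 sh) (Nat.ble 1302 i)
noncomputable def s1301_1304 (i sh : Nat) : Nat := Bool.rec (s1301_1303 i sh) (Nat.shiftRight leaf1303 sh) (Nat.ble 1303 i)
noncomputable def s1304_1306 (i sh : Nat) : Nat := Bool.rec (Nat.shiftRight leaf1304 sh) (Nat.shiftRight leaf1305 sh) (Nat.ble 1305 i)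
noncomputable def s1301_1306 (i sh : Nat) : Nat := Bool.rec (s1301_1304 i sh) (s1304_1306 i sh) (Nat.ble 1304 i)
noncomputable def s1306_1308 (i sh : Nat) : Nat := Bool.rec (Nat.shiftRight leaf1306 sh) (Nat.shiftRight leaf1307 sh) (Nat.ble 1307 i)
noncomputable def s1309_1311 (i sh : Nat) : Nat := Bool.rec (Nat.shiftRight leaf1309 sh) (Nat.shiftRight leaf1310 sh) (Nat.ble 1310 i)
noncomputable def s1308_1311 (i sh : Nat) : Nat := Bool.rec (Nat.shiftRight leaf1308 sh) (s1309_1311 i sh) (Nat.ble 1309 i)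
noncomputable def s1306_1311 (i sh : Nat) : Nat := Bool.rec (s1306_1308 i sh) (s1308_1311 i sh) (Nat.ble 1308 i)
noncomputable def s1301_1311 (i sh : Nat) : Nat := Bool.rec (s1301_1306 i sh) (s1306_1311 i sh) (Nat.ble 1306 i)
noncomputable def s1311_1313 (i sh : Nat) : Nat := Bool.rec (Nat.shiftRight leaf1311 sh) (Nat.shiftRight leaf1312 sh) (Nat.ble 1312 i)
noncomputable def s1311_1314 (i sh : Nat) : Nat := Bool.rec (s1311_1313 i sh) (Nat.shiftRight leaf1313 sh) (Nat.ble 1313 i)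
noncomputable def s1315_1317 (i sh : Nat) : Nat := Bool.rec (Nat.shiftRight leaf1315 sh) (Nat.shiftRight leaf1316 sh) (Nat.ble 1316 i)
noncomputable def s1314_1317 (i sh : Nat) : Nat := Bool.rec (Nat.shiftRight leaf1314 sh) (s1315_1317 i sh) (Nat.ble 1315 i)
noncomputable def s1311_1317 (i sh : Nat) : Nat := Bool.rec (s1311_1314 i sh) (s1314_1317 i sh) (Nat.ble 1314 i)
noncomputable def s1317_1319 (i sh : Nat) : Nat := Bool.rec (Nat.shiftRight leaf1317 sh) (Nat.shiftRight leaf1318 sh) (Nat.ble 1318 i)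
noncomputable def s1311_1319 (i sh : Nat) : Nat := Bool.rec (s1311_1317 i sh) (s1317_1319 i sh) (Nat.ble 1317 i)
noncomputable def s1301_1319 (i sh : Nat) : Nat := Bool.rec (s1301_1311 i sh) (s1311_1319 i sh) (Nat.ble 1311 i)
noncomputable def s1301_1320 (i sh : Nat) : Nat := Bool.rec (s1301_1319 i sh) (Nat.shiftRight leaf1319 sh) (Nat.ble 1319 i)
noncomputable def s1253_1320 (i sh : Nat) : Nat := Bool.rec (s1253_1301 i sh) (s1301_1320 i sh) (Nat.ble 1301 i)
noncomputable def s1191_1320 (i sh : Nat) : Nat := Bool.rec (s1191_1253 i sh) (s1253_1320 i sh) (Nat.ble 1253 i)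
noncomputable def s1320_1322 (i sh : Nat) : Nat := Bool.rec (Nat.shiftRight leaf1320 sh) (Nat.shiftRight leaf1321 sh) (Nat.ble 1321 i)
noncomputable def s1322_1324 (i sh : Nat) : Nat := Bool.rec (Nat.shiftRight leaf1322 sh) (Nat.shiftRight leaf1323 sh) (Nat.ble 1323 i)
noncomputable def s1324_1326 (i sh : Nat) : Nat := Bool.rec (Nat.shiftRight leaf1324 sh) (Nat.shiftRight leaf1325 sh) (Nat.ble 1325 i)
noncomputable def s1322_1326 (i sh : Nat) : Nat := Bool.rec (s1322_1324 i sh) (s1324_1326 i sh) (Nat.ble 1324 i)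
noncomputable def s1320_1326 (i sh : Nat) : Nat := Bool.rec (s1320_1322 i sh) (s1322_1326 i sh) (Nat.ble 1322 i)
noncomputable def s1326_1328 (i sh : Nat) : Nat := Bool.rec (Nat.shiftRight leaf1326 sh) (Nat.shiftRight leaf1327 sh) (Nat.ble 1327 i)
noncomputable def s1326_1329 (i sh : Nat) : Nat := Bool.rec (s1326_1328 i sh) (Nat.shiftRight leaf1328 sh) (Nat.ble 1328 i)
noncomputable def s1329_1331 (i sh : Nat) : Nat := Bool.rec (Nat.shiftRight leaf1329 sh) (Nat.shiftRight leaf1330 sh) (Nat.ble 1330 i)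
noncomputable def s1326_1331 (i sh : Nat) : Nat := Bool.rec (s1326_1329 i sh) (s1329_1331 i sh) (Nat.ble 1329 i)
noncomputable def s1332_1334 (i sh : Nat) : Nat := Bool.rec (Nat.shiftRight leaf1332 sh) (Nat.shiftRight leaf1333 sh) (Nat.ble 1333 i)
noncomputable def s1332_1335 (i sh : Nat) : Nat := Bool.rec (s1332_1334 i sh) (Nat.shiftRight leaf1334 sh) (Nat.ble 1334 i)
noncomputable def s1331_1335 (i sh : Nat) : Nat := Bool.rec (Nat.shiftRight leaf1331 sh) (s1332_1335 i sh) (Nat.ble 1332 i)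
noncomputable def s1326_1335 (i sh : Nat) : Nat := Bool.rec (s1326_1331 i sh) (s1331_1335 i sh) (Nat.ble 1331 i)
noncomputable def s1320_1335 (i sh : Nat) : Nat := Bool.rec (s1320_1326 i sh) (s1326_1335 i sh) (Nat.ble 1326 i)
noncomputable def s1336_1338 (i sh : Nat) : Nat := Bool.rec (Nat.shiftRight leaf1336 sh) (Nat.shiftRight leaf1337 sh) (Nat.ble 1337 i)
noncomputable def s1335_1338 (i sh : Nat) : Nat := Bool.rec (Nat.shiftRight leaf1335 sh) (s1336_1338 i sh) (Nat.ble 1336 i)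
noncomputable def s1340_1342 (i sh : Nat) : Nat := Bool.rec (Nat.shiftRight leaf1340 sh) (Nat.shiftRight leaf1341 sh) (Nat.ble 1341 i)
noncomputable def s1339_1342 (i sh : Nat) : Nat := Bool.rec (Nat.shiftRight leaf1339 sh) (s1340_1342 i sh) (Nat.ble 1340 i)
noncomputable def s1338_1342 (i sh : Nat) : Nat := Bool.rec (Nat.shiftRight leaf1338 sh) (s1339_1342 i sh) (Nat.ble 1339 i)
noncomputable def s1335_1342 (i sh : Nat) : Nat := Bool.rec (s1335_1338 i sh) (s1338_1342 i sh) (Nat.ble 1338 i)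
noncomputable def s1342_1344 (i sh : Nat) : Nat := Bool.rec (Nat.shiftRight leaf1342 sh) (Nat.shiftRight leaf1343 sh) (Nat.ble 1343 i)
noncomputable def s1344_1346 (i sh : Nat) : Nat := Bool.rec (Nat.shiftRight leaf1344 sh) (Nat.shiftRight leaf1345 sh) (Nat.ble 1345 i)
noncomputable def s1342_1346 (i sh : Nat) : Nat := Bool.rec (s1342_1344 i sh) (s1344_1346 i sh) (Nat.ble 1344 i)
noncomputable def s1342_1347 (i sh : Nat) : Nat := Bool.rec (s1342_1346 i sh) (Nat.shiftRight leaf1346 sh) (Nat.ble 1346 i)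
noncomputable def s1342_1348 (i sh : Nat) : Nat := Bool.rec (s1342_1347 i sh) (Nat.shiftRight leaf1347 sh) (Nat.ble 1347 i)
noncomputable def s1335_1348 (i sh : Nat) : Nat := Bool.rec (s1335_1342 i sh) (s1342_1348 i sh) (Nat.ble 1342 i)
noncomputable def s1335_1349 (i sh : Nat) : Nat := Bool.rec (s1335_1348 i sh) (Nat.shiftRight leaf1348 sh) (Nat.ble 1348 i)
noncomputable def s1320_1349 (i sh : Nat) : Nat := Bool.rec (s1320_1335 i sh) (s1335_1349 i sh) (Nat.ble 1335 i)
noncomputable def s1191_1349 (i sh : Nat) : Nat := Bool.rec (s1191_1320 i sh) (s1320_1349 i sh) (Nat.ble 1320 i)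
noncomputable def s1091_1349 (i sh : Nat) : Nat := Bool.rec (s1091_1191 i sh) (s1191_1349 i sh) (Nat.ble 1191 i)
noncomputable def s1005_1349 (i sh : Nat) : Nat := Bool.rec (s1005_1091 i sh) (s1091_1349 i sh) (Nat.ble 1091 i)
noncomputable def s1350_1352 (i sh : Nat) : Nat := Bool.rec (Nat.shiftRight leaf1350 sh) (Nat.shiftRight leaf1351 sh) (Nat.ble 1351 i)
noncomputable def s1352_1354 (i sh : Nat) : Nat := Bool.rec (Nat.shiftRight leaf1352 sh) (Nat.shiftRight leaf1353 sh) (Nat.ble 1353 i)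
noncomputable def s1354_1356 (i sh : Nat) : Nat := Bool.rec (Nat.shiftRight leaf1354 sh) (Nat.shiftRight leaf1355 sh) (Nat.ble 1355 i)
noncomputable def s1352_1356 (i sh : Nat) : Nat := Bool.rec (s1352_1354 i sh) (s1354_1356 i sh) (Nat.ble 1354 i)
noncomputable def s1350_1356 (i sh : Nat) : Nat := Bool.rec (s1350_1352 i sh) (s1352_1356 i sh) (Nat.ble 1352 i)
noncomputable def s1349_1356 (i sh : Nat) : Nat := Bool.rec (Nat.shiftRight leaf1349 sh) (s1350_1356 i sh) (Nat.ble 1350 i)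
noncomputable def s1356_1358 (i sh : Nat) : Nat := Bool.rec (Nat.shiftRight leaf1356 sh) (Nat.shiftRight leaf1357 sh) (Nat.ble 1357 i)
noncomputable def s1358_1360 (i sh : Nat) : Nat := Bool.rec (Nat.shiftRight leaf1358 sh) (Nat.shiftRight leaf1359 sh) (Nat.ble 1359 i)
noncomputable def s1356_1360 (i sh : Nat) : Nat := Bool.rec (s1356_1358 i sh) (s1358_1360 i sh) (Nat.ble 1358 i)
noncomputable def s1360_1362 (i sh : Nat) : Nat := Bool.rec (Nat.shiftRight leaf1360 sh) (Nat.shiftRight leaf1361 sh) (Nat.ble 1361 i)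
noncomputable def s1363_1365 (i sh : Nat) : Nat := Bool.rec (Nat.shiftRight leaf1363 sh) (Nat.shiftRight leaf1364 sh) (Nat.ble 1364 i)
noncomputable def s1362_1365 (i sh : Nat) : Nat := Bool.rec (Nat.shiftRight leaf1362 sh) (s1363_1365 i sh) (Nat.ble 1363 i)
noncomputable def s1360_1365 (i sh : Nat) : Nat := Bool.rec (s1360_1362 i sh) (s1362_1365 i sh) (Nat.ble 1362 i)
noncomputable def s1356_1365 (i sh : Nat) : Nat := Bool.rec (s1356_1360 i sh) (s1360_1365 i sh) (Nat.ble 1360 i)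
noncomputable def s1349_1365 (i sh : Nat) : Nat := Bool.rec (s1349_1356 i sh) (s1356_1365 i sh) (Nat.ble 1356 i)
noncomputable def s1365_1367 (i sh : Nat) : Nat := Bool.rec (Nat.shiftRight leaf1365 sh) (Nat.shiftRight leaf1366 sh) (Nat.ble 1366 i)
noncomputable def s1367_1369 (i sh : Nat) : Nat := Bool.rec (Nat.shiftRight leaf1367 sh) (Nat.shiftRight leaf1368 sh) (Nat.ble 1368 i)
noncomputable def s1365_1369 (i sh : Nat) : Nat := Bool.rec (s1365_1367 i sh) (s1367_1369 i sh) (Nat.ble 1367 i)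
noncomputable def s1369_1371 (i sh : Nat) : Nat := Bool.rec (Nat.shiftRight leaf1369 sh) (Nat.shiftRight leaf1370 sh) (Nat.ble 1370 i)
noncomputable def s1369_1372 (i sh : Nat) : Nat := Bool.rec (s1369_1371 i sh) (Nat.shiftRight leaf1371 sh) (Nat.ble 1371 i)
noncomputable def s1365_1372 (i sh : Nat) : Nat := Bool.rec (s1365_1369 i sh) (s1369_1372 i sh) (Nat.ble 1369 i)
noncomputable def s1374_1376 (i sh : Nat) : Nat := Bool.rec (Nat.shiftRight leaf1374 sh) (Nat.shiftRight leaf1375 sh) (Nat.ble 1375 i)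
noncomputable def s1373_1376 (i sh : Nat) : Nat := Bool.rec (Nat.shiftRight leaf1373 sh) (s1374_1376 i sh) (Nat.ble 1374 i)
noncomputable def s1372_1376 (i sh : Nat) : Nat := Bool.rec (Nat.shiftRight leaf1372 sh) (s1373_1376 i sh) (Nat.ble 1373 i)
noncomputable def s1365_1376 (i sh : Nat) : Nat := Bool.rec (s1365_1372 i sh) (s1372_1376 i sh) (Nat.ble 1372 i)
noncomputable def s1376_1378 (i sh : Nat) : Nat := Bool.rec (Nat.shiftRight leaf1376 sh) (Nat.shiftRight leaf1377 sh) (Nat.ble 1377 i)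
noncomputable def s1378_1380 (i sh : Nat) : Nat := Bool.rec (Nat.shiftRight leaf1378 sh) (Nat.shiftRight leaf1379 sh) (Nat.ble 1379 i)
noncomputable def s1376_1380 (i sh : Nat) : Nat := Bool.rec (s1376_1378 i sh) (s1378_1380 i sh) (Nat.ble 1378 i)
noncomputable def s1381_1383 (i sh : Nat) : Nat := Bool.rec (Nat.shiftRight leaf1381 sh) (Nat.shiftRight leaf1382 sh) (Nat.ble 1382 i)
noncomputable def s1380_1383 (i sh : Nat) : Nat := Bool.rec (Nat.shiftRight leaf1380 sh) (s1381_1383 i sh) (Nat.ble 1381 i)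
noncomputable def s1376_1383 (i sh : Nat) : Nat := Bool.rec (s1376_1380 i sh) (s1380_1383 i sh) (Nat.ble 1380 i)
noncomputable def s1383_1385 (i sh : Nat) : Nat := Bool.rec (Nat.shiftRight leaf1383 sh) (Nat.shiftRight leaf1384 sh) (Nat.ble 1384 i)
noncomputable def s1385_1387 (i sh : Nat) : Nat := Bool.rec (Nat.shiftRight leaf1385 sh) (Nat.shiftRight leaf1386 sh) (Nat.ble 1386 i)
noncomputable def s1383_1387 (i sh : Nat) : Nat := Bool.rec (s1383_1385 i sh) (s1385_1387 i sh) (Nat.ble 1385 i)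
noncomputable def s1376_1387 (i sh : Nat) : Nat := Bool.rec (s1376_1383 i sh) (s1383_1387 i sh) (Nat.ble 1383 i)
noncomputable def s1365_1387 (i sh : Nat) : Nat := Bool.rec (s1365_1376 i sh) (s1376_1387 i sh) (Nat.ble 1376 i)
noncomputable def s1349_1387 (i sh : Nat) : Nat := Bool.rec (s1349_1365 i sh) (s1365_1387 i sh) (Nat.ble 1365 i)
noncomputable def s1387_1389 (i sh : Nat) : Nat := Bool.rec (Nat.shiftRight leaf1387 sh) (Nat.shiftRight leaf1388 sh) (Nat.ble 1388 i)
noncomputable def s1387_1390 (i sh : Nat) : Nat := Bool.rec (s1387_1389 i sh) (Nat.shiftRight leaf1389 sh) (Nat.ble 1389 i)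
noncomputable def s1387_1391 (i sh : Nat) : Nat := Bool.rec (s1387_1390 i sh) (Nat.shiftRight leaf1390 sh) (Nat.ble 1390 i)
noncomputable def s1391_1393 (i sh : Nat) : Nat := Bool.rec (Nat.shiftRight leaf1391 sh) (Nat.shiftRight leaf1392 sh) (Nat.ble 1392 i)
noncomputable def s1391_1394 (i sh : Nat) : Nat := Bool.rec (s1391_1393 i sh) (Nat.shiftRight leaf1393 sh) (Nat.ble 1393 i)
noncomputable def s1387_1394 (i sh : Nat) : Nat := Bool.rec (s1387_1391 i sh) (s1391_1394 i sh) (Nat.ble 1391 i)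
noncomputable def s1394_1396 (i sh : Nat) : Nat := Bool.rec (Nat.shiftRight leaf1394 sh) (Nat.shiftRight leaf1395 sh) (Nat.ble 1395 i)
noncomputable def s1397_1399 (i sh : Nat) : Nat := Bool.rec (Nat.shiftRight leaf1397 sh) (Nat.shiftRight leaf1398 sh) (Nat.ble 1398 i)
noncomputable def s1396_1399 (i sh : Nat) : Nat := Bool.rec (Nat.shiftRight leaf1396 sh) (s1397_1399 i sh) (Nat.ble 1397 i)
noncomputable def s1394_1399 (i sh : Nat) : Nat := Bool.rec (s1394_1396 i sh) (s1396_1399 i sh) (Nat.ble 1396 i)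
noncomputable def s1399_1401 (i sh : Nat) : Nat := Bool.rec (Nat.shiftRight leaf1399 sh) (Nat.shiftRight leaf1400 sh) (Nat.ble 1400 i)
noncomputable def s1401_1403 (i sh : Nat) : Nat := Bool.rec (Nat.shiftRight leaf1401 sh) (Nat.shiftRight leaf1402 sh) (Nat.ble 1402 i)
noncomputable def s1399_1403 (i sh : Nat) : Nat := Bool.rec (s1399_1401 i sh) (s1401_1403 i sh) (Nat.ble 1401 i)
noncomputable def s1394_1403 (i sh : Nat) : Nat := Bool.rec (s1394_1399 i sh) (s1399_1403 i sh) (Nat.ble 1399 i)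
noncomputable def s1387_1403 (i sh : Nat) : Nat := Bool.rec (s1387_1394 i sh) (s1394_1403 i sh) (Nat.ble 1394 i)
noncomputable def s1404_1406 (i sh : Nat) : Nat := Bool.rec (Nat.shiftRight leaf1404 sh) (Nat.shiftRight leaf1405 sh) (Nat.ble 1405 i)
noncomputable def s1403_1406 (i sh : Nat) : Nat := Bool.rec (Nat.shiftRight leaf1403 sh) (s1404_1406 i sh) (Nat.ble 1404 i)
noncomputable def s1407_1409 (i sh : Nat) : Nat := Bool.rec (Nat.shiftRight leaf1407 sh) (Nat.shiftRight leaf1408 sh) (Nat.ble 1408 i)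
noncomputable def s1406_1409 (i sh : Nat) : Nat := Bool.rec (Nat.shiftRight leaf1406 sh) (s1407_1409 i sh) (Nat.ble 1407 i)
noncomputable def s1403_1409 (i sh : Nat) : Nat := Bool.rec (s1403_1406 i sh) (s1406_1409 i sh) (Nat.ble 1406 i)
noncomputable def s1409_1411 (i sh : Nat) : Nat := Bool.rec (Nat.shiftRight leaf1409 sh) (Nat.shiftRight leaf1410 sh) (Nat.ble 1410 i)
noncomputable def s1412_1414 (i sh : Nat) : Nat := Bool.rec (Nat.shiftRight leaf1412 sh) (Nat.shiftRight leaf1413 sh) (Nat.ble 1413 i)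
noncomputable def s1411_1414 (i sh : Nat) : Nat := Bool.rec (Nat.shiftRight leaf1411 sh) (s1412_1414 i sh) (Nat.ble 1412 i)
noncomputable def s1409_1414 (i sh : Nat) : Nat := Bool.rec (s1409_1411 i sh) (s1411_1414 i sh) (Nat.ble 1411 i)
noncomputable def s1403_1414 (i sh : Nat) : Nat := Bool.rec (s1403_1409 i sh) (s1409_1414 i sh) (Nat.ble 1409 i)
noncomputable def s1415_1417 (i sh : Nat) : Nat := Bool.rec (Nat.shiftRight leaf1415 sh) (Nat.shiftRight leaf1416 sh) (Nat.ble 1416 i)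
noncomputable def s1414_1417 (i sh : Nat) : Nat := Bool.rec (Nat.shiftRight leaf1414 sh) (s1415_1417 i sh) (Nat.ble 1415 i)
noncomputable def s1417_1419 (i sh : Nat) : Nat := Bool.rec (Nat.shiftRight leaf1417 sh) (Nat.shiftRight leaf1418 sh) (Nat.ble 1418 i)
noncomputable def s1414_1419 (i sh : Nat) : Nat := Bool.rec (s1414_1417 i sh) (s1417_1419 i sh) (Nat.ble 1417 i)
noncomputable def s1419_1421 (i sh : Nat) : Nat := Bool.rec (Nat.shiftRight leaf1419 sh) (Nat.shiftRight leaf1420 sh) (Nat.ble 1420 i)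
noncomputable def s1421_1423 (i sh : Nat) : Nat := Bool.rec (Nat.shiftRight leaf1421 sh) (Nat.shiftRight leaf1422 sh) (Nat.ble 1422 i)
noncomputable def s1419_1423 (i sh : Nat) : Nat := Bool.rec (s1419_1421 i sh) (s1421_1423 i sh) (Nat.ble 1421 i)
noncomputable def s1423_1425 (i sh : Nat) : Nat := Bool.rec (Nat.shiftRight leaf1423 sh) (Nat.shiftRight leaf1424 sh) (Nat.ble 1424 i)
noncomputable def s1423_1426 (i sh : Nat) : Nat := Bool.rec (s1423_1425 i sh) (Nat.shiftRight leaf1425 sh) (Nat.ble 1425 i)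
noncomputable def s1419_1426 (i sh : Nat) : Nat := Bool.rec (s1419_1423 i sh) (s1423_1426 i sh) (Nat.ble 1423 i)
noncomputable def s1414_1426 (i sh : Nat) : Nat := Bool.rec (s1414_1419 i sh) (s1419_1426 i sh) (Nat.ble 1419 i)
noncomputable def s1403_1426 (i sh : Nat) : Nat := Bool.rec (s1403_1414 i sh) (s1414_1426 i sh) (Nat.ble 1414 i)
noncomputable def s1387_1426 (i sh : Nat) : Nat := Bool.rec (s1387_1403 i sh) (s1403_1426 i sh) (Nat.ble 1403 i)
noncomputable def s1428_1430 (i sh : Nat) : Nat := Bool.rec (Nat.shiftRight leaf1428 sh) (Nat.shiftRight leaf1429 sh) (Nat.ble 1429 i)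
noncomputable def s1427_1430 (i sh : Nat) : Nat := Bool.rec (Nat.shiftRight leaf1427 sh) (s1428_1430 i sh) (Nat.ble 1428 i)
noncomputable def s1426_1430 (i sh : Nat) : Nat := Bool.rec (Nat.shiftRight leaf1426 sh) (s1427_1430 i sh) (Nat.ble 1427 i)
noncomputable def s1430_1432 (i sh : Nat) : Nat := Bool.rec (Nat.shiftRight leaf1430 sh) (Nat.shiftRight leaf1431 sh) (Nat.ble 1431 i)
noncomputable def s1430_1433 (i sh : Nat) : Nat := Bool.rec (s1430_1432 i sh) (Nat.shiftRight leaf1432 sh) (Nat.ble 1432 i)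
noncomputable def s1426_1433 (i sh : Nat) : Nat := Bool.rec (s1426_1430 i sh) (s1430_1433 i sh) (Nat.ble 1430 i)
noncomputable def s1426_1434 (i sh : Nat) : Nat := Bool.rec (s1426_1433 i sh) (Nat.shiftRight leaf1433 sh) (Nat.ble 1433 i)
noncomputable def s1434_1436 (i sh : Nat) : Nat := Bool.rec (Nat.shiftRight leaf1434 sh) (Nat.shiftRight leaf1435 sh) (Nat.ble 1435 i)
noncomputable def s1426_1436 (i sh : Nat) : Nat := Bool.rec (s1426_1434 i sh) (s1434_1436 i sh) (Nat.ble 1434 i)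
noncomputable def s1426_1437 (i sh : Nat) : Nat := Bool.rec (s1426_1436 i sh) (Nat.shiftRight leaf1436 sh) (Nat.ble 1436 i)
noncomputable def s1387_1437 (i sh : Nat) : Nat := Bool.rec (s1387_1426 i sh) (s1426_1437 i sh) (Nat.ble 1426 i)
noncomputable def s1349_1437 (i sh : Nat) : Nat := Bool.rec (s1349_1387 i sh) (s1387_1437 i sh) (Nat.ble 1387 i)
noncomputable def s1437_1439 (i sh : Nat) : Nat := Bool.rec (Nat.shiftRight leaf1437 sh) (Nat.shiftRight leaf1438 sh) (Nat.ble 1438 i)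
noncomputable def s1437_1440 (i sh : Nat) : Nat := Bool.rec (s1437_1439 i sh) (Nat.shiftRight leaf1439 sh) (Nat.ble 1439 i)
noncomputable def s1441_1443 (i sh : Nat) : Nat := Bool.rec (Nat.shiftRight leaf1441 sh) (Nat.shiftRight leaf1442 sh) (Nat.ble 1442 i)
noncomputable def s1441_1444 (i sh : Nat) : Nat := Bool.rec (s1441_1443 i sh) (Nat.shiftRight leaf1443 sh) (Nat.ble 1443 i)
noncomputable def s1444_1446 (i sh : Nat) : Nat := Bool.rec (Nat.shiftRight leaf1444 sh) (Nat.shiftRight leaf1445 sh) (Nat.ble 1445 i)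
noncomputable def s1446_1448 (i sh : Nat) : Nat := Bool.rec (Nat.shiftRight leaf1446 sh) (Nat.shiftRight leaf1447 sh) (Nat.ble 1447 i)
noncomputable def s1444_1448 (i sh : Nat) : Nat := Bool.rec (s1444_1446 i sh) (s1446_1448 i sh) (Nat.ble 1446 i)
noncomputable def s1441_1448 (i sh : Nat) : Nat := Bool.rec (s1441_1444 i sh) (s1444_1448 i sh) (Nat.ble 1444 i)
noncomputable def s1448_1450 (i sh : Nat) : Nat := Bool.rec (Nat.shiftRight leaf1448 sh) (Nat.shiftRight leaf1449 sh) (Nat.ble 1449 i)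
noncomputable def s1450_1452 (i sh : Nat) : Nat := Bool.rec (Nat.shiftRight leaf1450 sh) (Nat.shiftRight leaf1451 sh) (Nat.ble 1451 i)
noncomputable def s1452_1454 (i sh : Nat) : Nat := Bool.rec (Nat.shiftRight leaf1452 sh) (Nat.shiftRight leaf1453 sh) (Nat.ble 1453 i)
noncomputable def s1450_1454 (i sh : Nat) : Nat := Bool.rec (s1450_1452 i sh) (s1452_1454 i sh) (Nat.ble 1452 i)
noncomputable def s1448_1454 (i sh : Nat) : Nat := Bool.rec (s1448_1450 i sh) (s1450_1454 i sh) (Nat.ble 1450 i)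
noncomputable def s1441_1454 (i sh : Nat) : Nat := Bool.rec (s1441_1448 i sh) (s1448_1454 i sh) (Nat.ble 1448 i)
noncomputable def s1440_1454 (i sh : Nat) : Nat := Bool.rec (Nat.shiftRight leaf1440 sh) (s1441_1454 i sh) (Nat.ble 1441 i)
noncomputable def s1437_1454 (i sh : Nat) : Nat := Bool.rec (s1437_1440 i sh) (s1440_1454 i sh) (Nat.ble 1440 i)
noncomputable def s1455_1457 (i sh : Nat) : Nat := Bool.rec (Nat.shiftRight leaf1455 sh) (Nat.shiftRight leaf1456 sh) (Nat.ble 1456 i)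
noncomputable def s1455_1458 (i sh : Nat) : Nat := Bool.rec (s1455_1457 i sh) (Nat.shiftRight leaf1457 sh) (Nat.ble 1457 i)
noncomputable def s1454_1458 (i sh : Nat) : Nat := Bool.rec (Nat.shiftRight leaf1454 sh) (s1455_1458 i sh) (Nat.ble 1455 i)
noncomputable def s1454_1459 (i sh : Nat) : Nat := Bool.rec (s1454_1458 i sh) (Nat.shiftRight leaf1458 sh) (Nat.ble 1458 i)
noncomputable def s1454_1460 (i sh : Nat) : Nat := Bool.rec (s1454_1459 i sh) (Nat.shiftRight leaf1459 sh) (Nat.ble 1459 i)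
noncomputable def s1462_1464 (i sh : Nat) : Nat := Bool.rec (Nat.shiftRight leaf1462 sh) (Nat.shiftRight leaf1463 sh) (Nat.ble 1463 i)
noncomputable def s1461_1464 (i sh : Nat) : Nat := Bool.rec (Nat.shiftRight leaf1461 sh) (s1462_1464 i sh) (Nat.ble 1462 i)
noncomputable def s1465_1467 (i sh : Nat) : Nat := Bool.rec (Nat.shiftRight leaf1465 sh) (Nat.shiftRight leaf1466 sh) (Nat.ble 1466 i)
noncomputable def s1465_1468 (i sh : Nat) : Nat := Bool.rec (s1465_1467 i sh) (Nat.shiftRight leaf1467 sh) (Nat.ble 1467 i)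
noncomputable def s1464_1468 (i sh : Nat) : Nat := Bool.rec (Nat.shiftRight leaf1464 sh) (s1465_1468 i sh) (Nat.ble 1465 i)
noncomputable def s1461_1468 (i sh : Nat) : Nat := Bool.rec (s1461_1464 i sh) (s1464_1468 i sh) (Nat.ble 1464 i)
noncomputable def s1460_1468 (i sh : Nat) : Nat := Bool.rec (Nat.shiftRight leaf1460 sh) (s1461_1468 i sh) (Nat.ble 1461 i)
noncomputable def s1454_1468 (i sh : Nat) : Nat := Bool.rec (s1454_1460 i sh) (s1460_1468 i sh) (Nat.ble 1460 i)
noncomputable def s1437_1468 (i sh : Nat) : Nat := Bool.rec (s1437_1454 i sh) (s1454_1468 i sh) (Nat.ble 1454 i)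
noncomputable def s1468_1470 (i sh : Nat) : Nat := Bool.rec (Nat.shiftRight leaf1468 sh) (Nat.shiftRight leaf1469 sh) (Nat.ble 1469 i)
noncomputable def s1470_1472 (i sh : Nat) : Nat := Bool.rec (Nat.shiftRight leaf1470 sh) (Nat.shiftRight leaf1471 sh) (Nat.ble 1471 i)
noncomputable def s1470_1473 (i sh : Nat) : Nat := Bool.rec (s1470_1472 i sh) (Nat.shiftRight leaf1472 sh) (Nat.ble 1472 i)
noncomputable def s1468_1473 (i sh : Nat) : Nat := Bool.rec (s1468_1470 i sh) (s1470_1473 i sh) (Nat.ble 1470 i)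
noncomputable def s1473_1475 (i sh : Nat) : Nat := Bool.rec (Nat.shiftRight leaf1473 sh) (Nat.shiftRight leaf1474 sh) (Nat.ble 1474 i)
noncomputable def s1473_1476 (i sh : Nat) : Nat := Bool.rec (s1473_1475 i sh) (Nat.shiftRight leaf1475 sh) (Nat.ble 1475 i)
noncomputable def s1476_1478 (i sh : Nat) : Nat := Bool.rec (Nat.shiftRight leaf1476 sh) (Nat.shiftRight leaf1477 sh) (Nat.ble 1477 i)
noncomputable def s1478_1480 (i sh : Nat) : Nat := Bool.rec (Nat.shiftRight leaf1478 sh) (Nat.shiftRight leaf1479 sh) (Nat.ble 1479 i)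
noncomputable def s1478_1481 (i sh : Nat) : Nat := Bool.rec (s1478_1480 i sh) (Nat.shiftRight leaf1480 sh) (Nat.ble 1480 i)
noncomputable def s1481_1483 (i sh : Nat) : Nat := Bool.rec (Nat.shiftRight leaf1481 sh) (Nat.shiftRight leaf1482 sh) (Nat.ble 1482 i)
noncomputable def s1478_1483 (i sh : Nat) : Nat := Bool.rec (s1478_1481 i sh) (s1481_1483 i sh) (Nat.ble 1481 i)
noncomputable def s1476_1483 (i sh : Nat) : Nat := Bool.rec (s1476_1478 i sh) (s1478_1483 i sh) (Nat.ble 1478 i)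
noncomputable def s1473_1483 (i sh : Nat) : Nat := Bool.rec (s1473_1476 i sh) (s1476_1483 i sh) (Nat.ble 1476 i)
noncomputable def s1468_1483 (i sh : Nat) : Nat := Bool.rec (s1468_1473 i sh) (s1473_1483 i sh) (Nat.ble 1473 i)
noncomputable def s1483_1485 (i sh : Nat) : Nat := Bool.rec (Nat.shiftRight leaf1483 sh) (Nat.shiftRight leaf1484 sh) (Nat.ble 1484 i)
noncomputable def s1485_1487 (i sh : Nat) : Nat := Bool.rec (Nat.shiftRight leaf1485 sh) (Nat.shiftRight leaf1486 sh) (Nat.ble 1486 i)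
noncomputable def s1483_1487 (i sh : Nat) : Nat := Bool.rec (s1483_1485 i sh) (s1485_1487 i sh) (Nat.ble 1485 i)
noncomputable def s1487_1489 (i sh : Nat) : Nat := Bool.rec (Nat.shiftRight leaf1487 sh) (Nat.shiftRight leaf1488 sh) (Nat.ble 1488 i)
noncomputable def s1489_1491 (i sh : Nat) : Nat := Bool.rec (Nat.shiftRight leaf1489 sh) (Nat.shiftRight leaf1490 sh) (Nat.ble 1490 i)
noncomputable def s1487_1491 (i sh : Nat) : Nat := Bool.rec (s1487_1489 i sh) (s1489_1491 i sh) (Nat.ble 1489 i)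
noncomputable def s1483_1491 (i sh : Nat) : Nat := Bool.rec (s1483_1487 i sh) (s1487_1491 i sh) (Nat.ble 1487 i)
noncomputable def s1491_1493 (i sh : Nat) : Nat := Bool.rec (Nat.shiftRight leaf1491 sh) (Nat.shiftRight leaf1492 sh) (Nat.ble 1492 i)
noncomputable def s1493_1495 (i sh : Nat) : Nat := Bool.rec (Nat.shiftRight leaf1493 sh) (Nat.shiftRight leaf1494 sh) (Nat.ble 1494 i)
noncomputable def s1491_1495 (i sh : Nat) : Nat := Bool.rec (s1491_1493 i sh) (s1493_1495 i sh) (Nat.ble 1493 i)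
noncomputable def s1491_1496 (i sh : Nat) : Nat := Bool.rec (s1491_1495 i sh) (Nat.shiftRight leaf1495 sh) (Nat.ble 1495 i)
noncomputable def s1483_1496 (i sh : Nat) : Nat := Bool.rec (s1483_1491 i sh) (s1491_1496 i sh) (Nat.ble 1491 i)
noncomputable def s1496_1498 (i sh : Nat) : Nat := Bool.rec (Nat.shiftRight leaf1496 sh) (Nat.shiftRight leaf1497 sh) (Nat.ble 1497 i)
noncomputable def s1498_1500 (i sh : Nat) : Nat := Bool.rec (Nat.shiftRight leaf1498 sh) (Nat.shiftRight leaf1499 sh) (Nat.ble 1499 i)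
noncomputable def s1500_1502 (i sh : Nat) : Nat := Bool.rec (Nat.shiftRight leaf1500 sh) (Nat.shiftRight leaf1501 sh) (Nat.ble 1501 i)
noncomputable def s1500_1503 (i sh : Nat) : Nat := Bool.rec (s1500_1502 i sh) (Nat.shiftRight leaf1502 sh) (Nat.ble 1502 i)
noncomputable def s1498_1503 (i sh : Nat) : Nat := Bool.rec (s1498_1500 i sh) (s1500_1503 i sh) (Nat.ble 1500 i)
noncomputable def s1496_1503 (i sh : Nat) : Nat := Bool.rec (s1496_1498 i sh) (s1498_1503 i sh) (Nat.ble 1498 i)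
noncomputable def s1504_1506 (i sh : Nat) : Nat := Bool.rec (Nat.shiftRight leaf1504 sh) (Nat.shiftRight leaf1505 sh) (Nat.ble 1505 i)
noncomputable def s1503_1506 (i sh : Nat) : Nat := Bool.rec (Nat.shiftRight leaf1503 sh) (s1504_1506 i sh) (Nat.ble 1504 i)
noncomputable def s1496_1506 (i sh : Nat) : Nat := Bool.rec (s1496_1503 i sh) (s1503_1506 i sh) (Nat.ble 1503 i)
noncomputable def s1483_1506 (i sh : Nat) : Nat := Bool.rec (s1483_1496 i sh) (s1496_1506 i sh) (Nat.ble 1496 i)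
noncomputable def s1468_1506 (i sh : Nat) : Nat := Bool.rec (s1468_1483 i sh) (s1483_1506 i sh) (Nat.ble 1483 i)
noncomputable def s1506_1508 (i sh : Nat) : Nat := Bool.rec (Nat.shiftRight leaf1506 sh) (Nat.shiftRight leaf1507 sh) (Nat.ble 1507 i)
noncomputable def s1508_1510 (i sh : Nat) : Nat := Bool.rec (Nat.shiftRight leaf1508 sh) (Nat.shiftRight leaf1509 sh) (Nat.ble 1509 i)
noncomputable def s1506_1510 (i sh : Nat) : Nat := Bool.rec (s1506_1508 i sh) (s1508_1510 i sh) (Nat.ble 1508 i)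
noncomputable def s1510_1512 (i sh : Nat) : Nat := Bool.rec (Nat.shiftRight leaf1510 sh) (Nat.shiftRight leaf1511 sh) (Nat.ble 1511 i)
noncomputable def s1510_1513 (i sh : Nat) : Nat := Bool.rec (s1510_1512 i sh) (Nat.shiftRight leaf1512 sh) (Nat.ble 1512 i)
noncomputable def s1513_1515 (i sh : Nat) : Nat := Bool.rec (Nat.shiftRight leaf1513 sh) (Nat.shiftRight leaf1514 sh) (Nat.ble 1514 i)
noncomputable def s1510_1515 (i sh : Nat) : Nat := Bool.rec (s1510_1513 i sh) (s1513_1515 i sh) (Nat.ble 1513 i)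
noncomputable def s1506_1515 (i sh : Nat) : Nat := Bool.rec (s1506_1510 i sh) (s1510_1515 i sh) (Nat.ble 1510 i)
noncomputable def s1516_1518 (i sh : Nat) : Nat := Bool.rec (Nat.shiftRight leaf1516 sh) (Nat.shiftRight leaf1517 sh) (Nat.ble 1517 i)
noncomputable def s1515_1518 (i sh : Nat) : Nat := Bool.rec (Nat.shiftRight leaf1515 sh) (s1516_1518 i sh) (Nat.ble 1516 i)
noncomputable def s1518_1520 (i sh : Nat) : Nat := Bool.rec (Nat.shiftRight leaf1518 sh) (Nat.shiftRight leaf1519 sh) (Nat.ble 1519 i)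
noncomputable def s1518_1521 (i sh : Nat) : Nat := Bool.rec (s1518_1520 i sh) (Nat.shiftRight leaf1520 sh) (Nat.ble 1520 i)
noncomputable def s1518_1522 (i sh : Nat) : Nat := Bool.rec (s1518_1521 i sh) (Nat.shiftRight leaf1521 sh) (Nat.ble 1521 i)
noncomputable def s1515_1522 (i sh : Nat) : Nat := Bool.rec (s1515_1518 i sh) (s1518_1522 i sh) (Nat.ble 1518 i)
noncomputable def s1506_1522 (i sh : Nat) : Nat := Bool.rec (s1506_1515 i sh) (s1515_1522 i sh) (Nat.ble 1515 i)
noncomputable def s1523_1525 (i sh : Nat) : Nat := Bool.rec (Nat.shiftRight leaf1523 sh) (Nat.shiftRight leaf1524 sh) (Nat.ble 1524 i)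
noncomputable def s1525_1527 (i sh : Nat) : Nat := Bool.rec (Nat.shiftRight leaf1525 sh) (Nat.shiftRight leaf1526 sh) (Nat.ble 1526 i)
noncomputable def s1523_1527 (i sh : Nat) : Nat := Bool.rec (s1523_1525 i sh) (s1525_1527 i sh) (Nat.ble 1525 i)
noncomputable def s1522_1527 (i sh : Nat) : Nat := Bool.rec (Nat.shiftRight leaf1522 sh) (s1523_1527 i sh) (Nat.ble 1523 i)
noncomputable def s1528_1530 (i sh : Nat) : Nat := Bool.rec (Nat.shiftRight leaf1528 sh) (Nat.shiftRight leaf1529 sh) (Nat.ble 1529 i)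
noncomputable def s1527_1530 (i sh : Nat) : Nat := Bool.rec (Nat.shiftRight leaf1527 sh) (s1528_1530 i sh) (Nat.ble 1528 i)
noncomputable def s1531_1533 (i sh : Nat) : Nat := Bool.rec (Nat.shiftRight leaf1531 sh) (Nat.shiftRight leaf1532 sh) (Nat.ble 1532 i)
noncomputable def s1530_1533 (i sh : Nat) : Nat := Bool.rec (Nat.shiftRight leaf1530 sh) (s1531_1533 i sh) (Nat.ble 1531 i)
noncomputable def s1533_1535 (i sh : Nat) : Nat := Bool.rec (Nat.shiftRight leaf1533 sh) (Nat.shiftRight leaf1534 sh) (Nat.ble 1534 i)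
noncomputable def s1535_1537 (i sh : Nat) : Nat := Bool.rec (Nat.shiftRight leaf1535 sh) (Nat.shiftRight leaf1536 sh) (Nat.ble 1536 i)
noncomputable def s1533_1537 (i sh : Nat) : Nat := Bool.rec (s1533_1535 i sh) (s1535_1537 i sh) (Nat.ble 1535 i)
noncomputable def s1530_1537 (i sh : Nat) : Nat := Bool.rec (s1530_1533 i sh) (s1533_1537 i sh) (Nat.ble 1533 i)
noncomputable def s1527_1537 (i sh : Nat) : Nat := Bool.rec (s1527_1530 i sh) (s1530_1537 i sh) (Nat.ble 1530 i)
noncomputable def s1522_1537 (i sh : Nat) : Nat := Bool.rec (s1522_1527 i sh) (s1527_1537 i sh) (Nat.ble 1527 i)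
noncomputable def s1506_1537 (i sh : Nat) : Nat := Bool.rec (s1506_1522 i sh) (s1522_1537 i sh) (Nat.ble 1522 i)
noncomputable def s1538_1540 (i sh : Nat) : Nat := Bool.rec (Nat.shiftRight leaf1538 sh) (Nat.shiftRight leaf1539 sh) (Nat.ble 1539 i)
noncomputable def s1540_1542 (i sh : Nat) : Nat := Bool.rec (Nat.shiftRight leaf1540 sh) (Nat.shiftRight leaf1541 sh) (Nat.ble 1541 i)
noncomputable def s1538_1542 (i sh : Nat) : Nat := Bool.rec (s1538_1540 i sh) (s1540_1542 i sh) (Nat.ble 1540 i)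
noncomputable def s1537_1542 (i sh : Nat) : Nat := Bool.rec (Nat.shiftRight leaf1537 sh) (s1538_1542 i sh) (Nat.ble 1538 i)
noncomputable def s1542_1544 (i sh : Nat) : Nat := Bool.rec (Nat.shiftRight leaf1542 sh) (Nat.shiftRight leaf1543 sh) (Nat.ble 1543 i)
noncomputable def s1544_1546 (i sh : Nat) : Nat := Bool.rec (Nat.shiftRight leaf1544 sh) (Nat.shiftRight leaf1545 sh) (Nat.ble 1545 i)
noncomputable def s1542_1546 (i sh : Nat) : Nat := Bool.rec (s1542_1544 i sh) (s1544_1546 i sh) (Nat.ble 1544 i)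
noncomputable def s1546_1548 (i sh : Nat) : Nat := Bool.rec (Nat.shiftRight leaf1546 sh) (Nat.shiftRight leaf1547 sh) (Nat.ble 1547 i)
noncomputable def s1548_1550 (i sh : Nat) : Nat := Bool.rec (Nat.shiftRight leaf1548 sh) (Nat.shiftRight leaf1549 sh) (Nat.ble 1549 i)
noncomputable def s1546_1550 (i sh : Nat) : Nat := Bool.rec (s1546_1548 i sh) (s1548_1550 i sh) (Nat.ble 1548 i)
noncomputable def s1542_1550 (i sh : Nat) : Nat := Bool.rec (s1542_1546 i sh) (s1546_1550 i sh) (Nat.ble 1546 i)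
noncomputable def s1550_1552 (i sh : Nat) : Nat := Bool.rec (Nat.shiftRight leaf1550 sh) (Nat.shiftRight leaf1551 sh) (Nat.ble 1551 i)
noncomputable def s1552_1554 (i sh : Nat) : Nat := Bool.rec (Nat.shiftRight leaf1552 sh) (Nat.shiftRight leaf1553 sh) (Nat.ble 1553 i)
noncomputable def s1552_1555 (i sh : Nat) : Nat := Bool.rec (s1552_1554 i sh) (Nat.shiftRight leaf1554 sh) (Nat.ble 1554 i)
noncomputable def s1550_1555 (i sh : Nat) : Nat := Bool.rec (s1550_1552 i sh) (s1552_1555 i sh) (Nat.ble 1552 i)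
noncomputable def s1542_1555 (i sh : Nat) : Nat := Bool.rec (s1542_1550 i sh) (s1550_1555 i sh) (Nat.ble 1550 i)
noncomputable def s1537_1555 (i sh : Nat) : Nat := Bool.rec (s1537_1542 i sh) (s1542_1555 i sh) (Nat.ble 1542 i)
noncomputable def s1506_1555 (i sh : Nat) : Nat := Bool.rec (s1506_1537 i sh) (s1537_1555 i sh) (Nat.ble 1537 i)
noncomputable def s1468_1555 (i sh : Nat) : Nat := Bool.rec (s1468_1506 i sh) (s1506_1555 i sh) (Nat.ble 1506 i)
noncomputable def s1437_1555 (i sh : Nat) : Nat := Bool.rec (s1437_1468 i sh) (s1468_1555 i sh) (Nat.ble 1468 i)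
noncomputable def s1349_1555 (i sh : Nat) : Nat := Bool.rec (s1349_1437 i sh) (s1437_1555 i sh) (Nat.ble 1437 i)
noncomputable def s1555_1557 (i sh : Nat) : Nat := Bool.rec (Nat.shiftRight leaf1555 sh) (Nat.shiftRight leaf1556 sh) (Nat.ble 1556 i)
noncomputable def s1557_1559 (i sh : Nat) : Nat := Bool.rec (Nat.shiftRight leaf1557 sh) (Nat.shiftRight leaf1558 sh) (Nat.ble 1558 i)
noncomputable def s1555_1559 (i sh : Nat) : Nat := Bool.rec (s1555_1557 i sh) (s1557_1559 i sh) (Nat.ble 1557 i)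
noncomputable def s1555_1560 (i sh : Nat) : Nat := Bool.rec (s1555_1559 i sh) (Nat.shiftRight leaf1559 sh) (Nat.ble 1559 i)
noncomputable def s1560_1562 (i sh : Nat) : Nat := Bool.rec (Nat.shiftRight leaf1560 sh) (Nat.shiftRight leaf1561 sh) (Nat.ble 1561 i)
noncomputable def s1560_1563 (i sh : Nat) : Nat := Bool.rec (s1560_1562 i sh) (Nat.shiftRight leaf1562 sh) (Nat.ble 1562 i)
noncomputable def s1555_1563 (i sh : Nat) : Nat := Bool.rec (s1555_1560 i sh) (s1560_1563 i sh) (Nat.ble 1560 i)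
noncomputable def s1565_1567 (i sh : Nat) : Nat := Bool.rec (Nat.shiftRight leaf1565 sh) (Nat.shiftRight leaf1566 sh) (Nat.ble 1566 i)
noncomputable def s1564_1567 (i sh : Nat) : Nat := Bool.rec (Nat.shiftRight leaf1564 sh) (s1565_1567 i sh) (Nat.ble 1565 i)
noncomputable def s1568_1570 (i sh : Nat) : Nat := Bool.rec (Nat.shiftRight leaf1568 sh) (Nat.shiftRight leaf1569 sh) (Nat.ble 1569 i)
noncomputable def s1567_1570 (i sh : Nat) : Nat := Bool.rec (Nat.shiftRight leaf1567 sh) (s1568_1570 i sh) (Nat.ble 1568 i)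
noncomputable def s1570_1572 (i sh : Nat) : Nat := Bool.rec (Nat.shiftRight leaf1570 sh) (Nat.shiftRight leaf1571 sh) (Nat.ble 1571 i)
noncomputable def s1572_1574 (i sh : Nat) : Nat := Bool.rec (Nat.shiftRight leaf1572 sh) (Nat.shiftRight leaf1573 sh) (Nat.ble 1573 i)
noncomputable def s1570_1574 (i sh : Nat) : Nat := Bool.rec (s1570_1572 i sh) (s1572_1574 i sh) (Nat.ble 1572 i)
noncomputable def s1567_1574 (i sh : Nat) : Nat := Bool.rec (s1567_1570 i sh) (s1570_1574 i sh) (Nat.ble 1570 i)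
noncomputable def s1564_1574 (i sh : Nat) : Nat := Bool.rec (s1564_1567 i sh) (s1567_1574 i sh) (Nat.ble 1567 i)
noncomputable def s1563_1574 (i sh : Nat) : Nat := Bool.rec (Nat.shiftRight leaf1563 sh) (s1564_1574 i sh) (Nat.ble 1564 i)
noncomputable def s1555_1574 (i sh : Nat) : Nat := Bool.rec (s1555_1563 i sh) (s1563_1574 i sh) (Nat.ble 1563 i)
noncomputable def s1574_1576 (i sh : Nat) : Nat := Bool.rec (Nat.shiftRight leaf1574 sh) (Nat.shiftRight leaf1575 sh) (Nat.ble 1575 i)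
noncomputable def s1574_1577 (i sh : Nat) : Nat := Bool.rec (s1574_1576 i sh) (Nat.shiftRight leaf1576 sh) (Nat.ble 1576 i)
noncomputable def s1574_1578 (i sh : Nat) : Nat := Bool.rec (s1574_1577 i sh) (Nat.shiftRight leaf1577 sh) (Nat.ble 1577 i)
noncomputable def s1579_1581 (i sh : Nat) : Nat := Bool.rec (Nat.shiftRight leaf1579 sh) (Nat.shiftRight leaf1580 sh) (Nat.ble 1580 i)
noncomputable def s1578_1581 (i sh : Nat) : Nat := Bool.rec (Nat.shiftRight leaf1578 sh) (s1579_1581 i sh) (Nat.ble 1579 i)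
noncomputable def s1574_1581 (i sh : Nat) : Nat := Bool.rec (s1574_1578 i sh) (s1578_1581 i sh) (Nat.ble 1578 i)
noncomputable def s1581_1583 (i sh : Nat) : Nat := Bool.rec (Nat.shiftRight leaf1581 sh) (Nat.shiftRight leaf1582 sh) (Nat.ble 1582 i)
noncomputable def s1583_1585 (i sh : Nat) : Nat := Bool.rec (Nat.shiftRight leaf1583 sh) (Nat.shiftRight leaf1584 sh) (Nat.ble 1584 i)
noncomputable def s1581_1585 (i sh : Nat) : Nat := Bool.rec (s1581_1583 i sh) (s1583_1585 i sh) (Nat.ble 1583 i)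
noncomputable def s1574_1585 (i sh : Nat) : Nat := Bool.rec (s1574_1581 i sh) (s1581_1585 i sh) (Nat.ble 1581 i)
noncomputable def s1586_1588 (i sh : Nat) : Nat := Bool.rec (Nat.shiftRight leaf1586 sh) (Nat.shiftRight leaf1587 sh) (Nat.ble 1587 i)
noncomputable def s1585_1588 (i sh : Nat) : Nat := Bool.rec (Nat.shiftRight leaf1585 sh) (s1586_1588 i sh) (Nat.ble 1586 i)
noncomputable def s1585_1589 (i sh : Nat) : Nat := Bool.rec (s1585_1588 i sh) (Nat.shiftRight leaf1588 sh) (Nat.ble 1588 i)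
noncomputable def s1589_1591 (i sh : Nat) : Nat := Bool.rec (Nat.shiftRight leaf1589 sh) (Nat.shiftRight leaf1590 sh) (Nat.ble 1590 i)
noncomputable def s1589_1592 (i sh : Nat) : Nat := Bool.rec (s1589_1591 i sh) (Nat.shiftRight leaf1591 sh) (Nat.ble 1591 i)
noncomputable def s1592_1594 (i sh : Nat) : Nat := Bool.rec (Nat.shiftRight leaf1592 sh) (Nat.shiftRight leaf1593 sh) (Nat.ble 1593 i)
noncomputable def s1589_1594 (i sh : Nat) : Nat := Bool.rec (s1589_1592 i sh) (s1592_1594 i sh) (Nat.ble 1592 i)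
noncomputable def s1585_1594 (i sh : Nat) : Nat := Bool.rec (s1585_1589 i sh) (s1589_1594 i sh) (Nat.ble 1589 i)
noncomputable def s1574_1594 (i sh : Nat) : Nat := Bool.rec (s1574_1585 i sh) (s1585_1594 i sh) (Nat.ble 1585 i)
noncomputable def s1594_1596 (i sh : Nat) : Nat := Bool.rec (Nat.shiftRight leaf1594 sh) (Nat.shiftRight leaf1595 sh) (Nat.ble 1595 i)
noncomputable def s1596_1598 (i sh : Nat) : Nat := Bool.rec (Nat.shiftRight leaf1596 sh) (Nat.shiftRight leaf1597 sh) (Nat.ble 1597 i)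
noncomputable def s1594_1598 (i sh : Nat) : Nat := Bool.rec (s1594_1596 i sh) (s1596_1598 i sh) (Nat.ble 1596 i)
noncomputable def s1599_1601 (i sh : Nat) : Nat := Bool.rec (Nat.shiftRight leaf1599 sh) (Nat.shiftRight leaf1600 sh) (Nat.ble 1600 i)
noncomputable def s1601_1603 (i sh : Nat) : Nat := Bool.rec (Nat.shiftRight leaf1601 sh) (Nat.shiftRight leaf1602 sh) (Nat.ble 1602 i)
noncomputable def s1599_1603 (i sh : Nat) : Nat := Bool.rec (s1599_1601 i sh) (s1601_1603 i sh) (Nat.ble 1601 i)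
noncomputable def s1598_1603 (i sh : Nat) : Nat := Bool.rec (Nat.shiftRight leaf1598 sh) (s1599_1603 i sh) (Nat.ble 1599 i)
noncomputable def s1594_1603 (i sh : Nat) : Nat := Bool.rec (s1594_1598 i sh) (s1598_1603 i sh) (Nat.ble 1598 i)
noncomputable def s1604_1606 (i sh : Nat) : Nat := Bool.rec (Nat.shiftRight leaf1604 sh) (Nat.shiftRight leaf1605 sh) (Nat.ble 1605 i)
noncomputable def s1603_1606 (i sh : Nat) : Nat := Bool.rec (Nat.shiftRight leaf1603 sh) (s1604_1606 i sh) (Nat.ble 1604 i)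
noncomputable def s1608_1610 (i sh : Nat) : Nat := Bool.rec (Nat.shiftRight leaf1608 sh) (Nat.shiftRight leaf1609 sh) (Nat.ble 1609 i)
noncomputable def s1607_1610 (i sh : Nat) : Nat := Bool.rec (Nat.shiftRight leaf1607 sh) (s1608_1610 i sh) (Nat.ble 1608 i)
noncomputable def s1606_1610 (i sh : Nat) : Nat := Bool.rec (Nat.shiftRight leaf1606 sh) (s1607_1610 i sh) (Nat.ble 1607 i)
noncomputable def s1610_1612 (i sh : Nat) : Nat := Bool.rec (Nat.shiftRight leaf1610 sh) (Nat.shiftRight leaf1611 sh) (Nat.ble 1611 i)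
noncomputable def s1606_1612 (i sh : Nat) : Nat := Bool.rec (s1606_1610 i sh) (s1610_1612 i sh) (Nat.ble 1610 i)
noncomputable def s1603_1612 (i sh : Nat) : Nat := Bool.rec (s1603_1606 i sh) (s1606_1612 i sh) (Nat.ble 1606 i)
noncomputable def s1594_1612 (i sh : Nat) : Nat := Bool.rec (s1594_1603 i sh) (s1603_1612 i sh) (Nat.ble 1603 i)
noncomputable def s1574_1612 (i sh : Nat) : Nat := Bool.rec (s1574_1594 i sh) (s1594_1612 i sh) (Nat.ble 1594 i)
noncomputable def s1555_1612 (i sh : Nat) : Nat := Bool.rec (s1555_1574 i sh) (s1574_1612 i sh) (Nat.ble 1574 i)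
noncomputable def s1612_1614 (i sh : Nat) : Nat := Bool.rec (Nat.shiftRight leaf1612 sh) (Nat.shiftRight leaf1613 sh) (Nat.ble 1613 i)
noncomputable def s1612_1615 (i sh : Nat) : Nat := Bool.rec (s1612_1614 i sh) (Nat.shiftRight leaf1614 sh) (Nat.ble 1614 i)
noncomputable def s1616_1618 (i sh : Nat) : Nat := Bool.rec (Nat.shiftRight leaf1616 sh) (Nat.shiftRight leaf1617 sh) (Nat.ble 1617 i)
noncomputable def s1615_1618 (i sh : Nat) : Nat := Bool.rec (Nat.shiftRight leaf1615 sh) (s1616_1618 i sh) (Nat.ble 1616 i)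
noncomputable def s1615_1619 (i sh : Nat) : Nat := Bool.rec (s1615_1618 i sh) (Nat.shiftRight leaf1618 sh) (Nat.ble 1618 i)
noncomputable def s1612_1619 (i sh : Nat) : Nat := Bool.rec (s1612_1615 i sh) (s1615_1619 i sh) (Nat.ble 1615 i)
noncomputable def s1612_1620 (i sh : Nat) : Nat := Bool.rec (s1612_1619 i sh) (Nat.shiftRight leaf1619 sh) (Nat.ble 1619 i)
noncomputable def s1555_1620 (i sh : Nat) : Nat := Bool.rec (s1555_1612 i sh) (s1612_1620 i sh) (Nat.ble 1612 i)
noncomputable def s1620_1622 (i sh : Nat) : Nat := Bool.rec (Nat.shiftRight leaf1620 sh) (Nat.shiftRight leaf1621 sh) (Nat.ble 1621 i)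
noncomputable def s1620_1623 (i sh : Nat) : Nat := Bool.rec (s1620_1622 i sh) (Nat.shiftRight leaf1622 sh) (Nat.ble 1622 i)
noncomputable def s1623_1625 (i sh : Nat) : Nat := Bool.rec (Nat.shiftRight leaf1623 sh) (Nat.shiftRight leaf1624 sh) (Nat.ble 1624 i)
noncomputable def s1620_1625 (i sh : Nat) : Nat := Bool.rec (s1620_1623 i sh) (s1623_1625 i sh) (Nat.ble 1623 i)
noncomputable def s1625_1627 (i sh : Nat) : Nat := Bool.rec (Nat.shiftRight leaf1625 sh) (Nat.shiftRight leaf1626 sh) (Nat.ble 1626 i)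
noncomputable def s1627_1629 (i sh : Nat) : Nat := Bool.rec (Nat.shiftRight leaf1627 sh) (Nat.shiftRight leaf1628 sh) (Nat.ble 1628 i)
noncomputable def s1630_1632 (i sh : Nat) : Nat := Bool.rec (Nat.shiftRight leaf1630 sh) (Nat.shiftRight leaf1631 sh) (Nat.ble 1631 i)
noncomputable def s1629_1632 (i sh : Nat) : Nat := Bool.rec (Nat.shiftRight leaf1629 sh) (s1630_1632 i sh) (Nat.ble 1630 i)
noncomputable def s1627_1632 (i sh : Nat) : Nat := Bool.rec (s1627_1629 i sh) (s1629_1632 i sh) (Nat.ble 1629 i)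
noncomputable def s1625_1632 (i sh : Nat) : Nat := Bool.rec (s1625_1627 i sh) (s1627_1632 i sh) (Nat.ble 1627 i)
noncomputable def s1620_1632 (i sh : Nat) : Nat := Bool.rec (s1620_1625 i sh) (s1625_1632 i sh) (Nat.ble 1625 i)
noncomputable def s1620_1633 (i sh : Nat) : Nat := Bool.rec (s1620_1632 i sh) (Nat.shiftRight leaf1632 sh) (Nat.ble 1632 i)
noncomputable def s1555_1633 (i sh : Nat) : Nat := Bool.rec (s1555_1620 i sh) (s1620_1633 i sh) (Nat.ble 1620 i)
noncomputable def s1633_1635 (i sh : Nat) : Nat := Bool.rec (Nat.shiftRight leaf1633 sh) (Nat.shiftRight leaf1634 sh) (Nat.ble 1634 i)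
noncomputable def s1636_1638 (i sh : Nat) : Nat := Bool.rec (Nat.shiftRight leaf1636 sh) (Nat.shiftRight leaf1637 sh) (Nat.ble 1637 i)
noncomputable def s1635_1638 (i sh : Nat) : Nat := Bool.rec (Nat.shiftRight leaf1635 sh) (s1636_1638 i sh) (Nat.ble 1636 i)
noncomputable def s1633_1638 (i sh : Nat) : Nat := Bool.rec (s1633_1635 i sh) (s1635_1638 i sh) (Nat.ble 1635 i)
noncomputable def s1639_1641 (i sh : Nat) : Nat := Bool.rec (Nat.shiftRight leaf1639 sh) (Nat.shiftRight leaf1640 sh) (Nat.ble 1640 i)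
noncomputable def s1638_1641 (i sh : Nat) : Nat := Bool.rec (Nat.shiftRight leaf1638 sh) (s1639_1641 i sh) (Nat.ble 1639 i)
noncomputable def s1633_1641 (i sh : Nat) : Nat := Bool.rec (s1633_1638 i sh) (s1638_1641 i sh) (Nat.ble 1638 i)
noncomputable def s1642_1644 (i sh : Nat) : Nat := Bool.rec (Nat.shiftRight leaf1642 sh) (Nat.shiftRight leaf1643 sh) (Nat.ble 1643 i)
noncomputable def s1641_1644 (i sh : Nat) : Nat := Bool.rec (Nat.shiftRight leaf1641 sh) (s1642_1644 i sh) (Nat.ble 1642 i)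
noncomputable def s1645_1647 (i sh : Nat) : Nat := Bool.rec (Nat.shiftRight leaf1645 sh) (Nat.shiftRight leaf1646 sh) (Nat.ble 1646 i)
noncomputable def s1644_1647 (i sh : Nat) : Nat := Bool.rec (Nat.shiftRight leaf1644 sh) (s1645_1647 i sh) (Nat.ble 1645 i)
noncomputable def s1641_1647 (i sh : Nat) : Nat := Bool.rec (s1641_1644 i sh) (s1644_1647 i sh) (Nat.ble 1644 i)
noncomputable def s1641_1648 (i sh : Nat) : Nat := Bool.rec (s1641_1647 i sh) (Nat.shiftRight leaf1647 sh) (Nat.ble 1647 i)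
noncomputable def s1633_1648 (i sh : Nat) : Nat := Bool.rec (s1633_1641 i sh) (s1641_1648 i sh) (Nat.ble 1641 i)
noncomputable def s1648_1650 (i sh : Nat) : Nat := Bool.rec (Nat.shiftRight leaf1648 sh) (Nat.shiftRight leaf1649 sh) (Nat.ble 1649 i)
noncomputable def s1650_1652 (i sh : Nat) : Nat := Bool.rec (Nat.shiftRight leaf1650 sh) (Nat.shiftRight leaf1651 sh) (Nat.ble 1651 i)
noncomputable def s1648_1652 (i sh : Nat) : Nat := Bool.rec (s1648_1650 i sh) (s1650_1652 i sh) (Nat.ble 1650 i)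
noncomputable def s1652_1654 (i sh : Nat) : Nat := Bool.rec (Nat.shiftRight leaf1652 sh) (Nat.shiftRight leaf1653 sh) (Nat.ble 1653 i)
noncomputable def s1654_1656 (i sh : Nat) : Nat := Bool.rec (Nat.shiftRight leaf1654 sh) (Nat.shiftRight leaf1655 sh) (Nat.ble 1655 i)
noncomputable def s1656_1658 (i sh : Nat) : Nat := Bool.rec (Nat.shiftRight leaf1656 sh) (Nat.shiftRight leaf1657 sh) (Nat.ble 1657 i)
noncomputable def s1654_1658 (i sh : Nat) : Nat := Bool.rec (s1654_1656 i sh) (s1656_1658 i sh) (Nat.ble 1656 i)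
noncomputable def s1652_1658 (i sh : Nat) : Nat := Bool.rec (s1652_1654 i sh) (s1654_1658 i sh) (Nat.ble 1654 i)
noncomputable def s1648_1658 (i sh : Nat) : Nat := Bool.rec (s1648_1652 i sh) (s1652_1658 i sh) (Nat.ble 1652 i)
noncomputable def s1659_1661 (i sh : Nat) : Nat := Bool.rec (Nat.shiftRight leaf1659 sh) (Nat.shiftRight leaf1660 sh) (Nat.ble 1660 i)
noncomputable def s1658_1661 (i sh : Nat) : Nat := Bool.rec (Nat.shiftRight leaf1658 sh) (s1659_1661 i sh) (Nat.ble 1659 i)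
noncomputable def s1658_1662 (i sh : Nat) : Nat := Bool.rec (s1658_1661 i sh) (Nat.shiftRight leaf1661 sh) (Nat.ble 1661 i)
noncomputable def s1663_1665 (i sh : Nat) : Nat := Bool.rec (Nat.shiftRight leaf1663 sh) (Nat.shiftRight leaf1664 sh) (Nat.ble 1664 i)
noncomputable def s1662_1665 (i sh : Nat) : Nat := Bool.rec (Nat.shiftRight leaf1662 sh) (s1663_1665 i sh) (Nat.ble 1663 i)
noncomputable def s1665_1667 (i sh : Nat) : Nat := Bool.rec (Nat.shiftRight leaf1665 sh) (Nat.shiftRight leaf1666 sh) (Nat.ble 1666 i)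
noncomputable def s1665_1668 (i sh : Nat) : Nat := Bool.rec (s1665_1667 i sh) (Nat.shiftRight leaf1667 sh) (Nat.ble 1667 i)
noncomputable def s1662_1668 (i sh : Nat) : Nat := Bool.rec (s1662_1665 i sh) (s1665_1668 i sh) (Nat.ble 1665 i)
noncomputable def s1658_1668 (i sh : Nat) : Nat := Bool.rec (s1658_1662 i sh) (s1662_1668 i sh) (Nat.ble 1662 i)
noncomputable def s1648_1668 (i sh : Nat) : Nat := Bool.rec (s1648_1658 i sh) (s1658_1668 i sh) (Nat.ble 1658 i)
noncomputable def s1633_1668 (i sh : Nat) : Nat := Bool.rec (s1633_1648 i sh) (s1648_1668 i sh) (Nat.ble 1648 i)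
noncomputable def s1668_1670 (i sh : Nat) : Nat := Bool.rec (Nat.shiftRight leaf1668 sh) (Nat.shiftRight leaf1669 sh) (Nat.ble 1669 i)
noncomputable def s1668_1671 (i sh : Nat) : Nat := Bool.rec (s1668_1670 i sh) (Nat.shiftRight leaf1670 sh) (Nat.ble 1670 i)
noncomputable def s1672_1674 (i sh : Nat) : Nat := Bool.rec (Nat.shiftRight leaf1672 sh) (Nat.shiftRight leaf1673 sh) (Nat.ble 1673 i)
noncomputable def s1671_1674 (i sh : Nat) : Nat := Bool.rec (Nat.shiftRight leaf1671 sh) (s1672_1674 i sh) (Nat.ble 1672 i)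
noncomputable def s1668_1674 (i sh : Nat) : Nat := Bool.rec (s1668_1671 i sh) (s1671_1674 i sh) (Nat.ble 1671 i)
noncomputable def s1674_1676 (i sh : Nat) : Nat := Bool.rec (Nat.shiftRight leaf1674 sh) (Nat.shiftRight leaf1675 sh) (Nat.ble 1675 i)
noncomputable def s1674_1677 (i sh : Nat) : Nat := Bool.rec (s1674_1676 i sh) (Nat.shiftRight leaf1676 sh) (Nat.ble 1676 i)
noncomputable def s1678_1680 (i sh : Nat) : Nat := Bool.rec (Nat.shiftRight leaf1678 sh) (Nat.shiftRight leaf1679 sh) (Nat.ble 1679 i)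
noncomputable def s1677_1680 (i sh : Nat) : Nat := Bool.rec (Nat.shiftRight leaf1677 sh) (s1678_1680 i sh) (Nat.ble 1678 i)
noncomputable def s1674_1680 (i sh : Nat) : Nat := Bool.rec (s1674_1677 i sh) (s1677_1680 i sh) (Nat.ble 1677 i)
noncomputable def s1668_1680 (i sh : Nat) : Nat := Bool.rec (s1668_1674 i sh) (s1674_1680 i sh) (Nat.ble 1674 i)
noncomputable def s1681_1683 (i sh : Nat) : Nat := Bool.rec (Nat.shiftRight leaf1681 sh) (Nat.shiftRight leaf1682 sh) (Nat.ble 1682 i)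
noncomputable def s1680_1683 (i sh : Nat) : Nat := Bool.rec (Nat.shiftRight leaf1680 sh) (s1681_1683 i sh) (Nat.ble 1681 i)
noncomputable def s1683_1685 (i sh : Nat) : Nat := Bool.rec (Nat.shiftRight leaf1683 sh) (Nat.shiftRight leaf1684 sh) (Nat.ble 1684 i)
noncomputable def s1685_1687 (i sh : Nat) : Nat := Bool.rec (Nat.shiftRight leaf1685 sh) (Nat.shiftRight leaf1686 sh) (Nat.ble 1686 i)
noncomputable def s1683_1687 (i sh : Nat) : Nat := Bool.rec (s1683_1685 i sh) (s1685_1687 i sh) (Nat.ble 1685 i)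
noncomputable def s1680_1687 (i sh : Nat) : Nat := Bool.rec (s1680_1683 i sh) (s1683_1687 i sh) (Nat.ble 1683 i)
noncomputable def s1687_1689 (i sh : Nat) : Nat := Bool.rec (Nat.shiftRight leaf1687 sh) (Nat.shiftRight leaf1688 sh) (Nat.ble 1688 i)
noncomputable def s1689_1691 (i sh : Nat) : Nat := Bool.rec (Nat.shiftRight leaf1689 sh) (Nat.shiftRight leaf1690 sh) (Nat.ble 1690 i)
noncomputable def s1687_1691 (i sh : Nat) : Nat := Bool.rec (s1687_1689 i sh) (s1689_1691 i sh) (Nat.ble 1689 i)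
noncomputable def s1692_1694 (i sh : Nat) : Nat := Bool.rec (Nat.shiftRight leaf1692 sh) (Nat.shiftRight leaf1693 sh) (Nat.ble 1693 i)
noncomputable def s1691_1694 (i sh : Nat) : Nat := Bool.rec (Nat.shiftRight leaf1691 sh) (s1692_1694 i sh) (Nat.ble 1692 i)
noncomputable def s1687_1694 (i sh : Nat) : Nat := Bool.rec (s1687_1691 i sh) (s1691_1694 i sh) (Nat.ble 1691 i)
noncomputable def s1680_1694 (i sh : Nat) : Nat := Bool.rec (s1680_1687 i sh) (s1687_1694 i sh) (Nat.ble 1687 i)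
noncomputable def s1668_1694 (i sh : Nat) : Nat := Bool.rec (s1668_1680 i sh) (s1680_1694 i sh) (Nat.ble 1680 i)
noncomputable def s1694_1696 (i sh : Nat) : Nat := Bool.rec (Nat.shiftRight leaf1694 sh) (Nat.shiftRight leaf1695 sh) (Nat.ble 1695 i)
noncomputable def s1696_1698 (i sh : Nat) : Nat := Bool.rec (Nat.shiftRight leaf1696 sh) (Nat.shiftRight leaf1697 sh) (Nat.ble 1697 i)
noncomputable def s1698_1700 (i sh : Nat) : Nat := Bool.rec (Nat.shiftRight leaf1698 sh) (Nat.shiftRight leaf1699 sh) (Nat.ble 1699 i)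
noncomputable def s1696_1700 (i sh : Nat) : Nat := Bool.rec (s1696_1698 i sh) (s1698_1700 i sh) (Nat.ble 1698 i)
noncomputable def s1700_1702 (i sh : Nat) : Nat := Bool.rec (Nat.shiftRight leaf1700 sh) (Nat.shiftRight leaf1701 sh) (Nat.ble 1701 i)
noncomputable def s1696_1702 (i sh : Nat) : Nat := Bool.rec (s1696_1700 i sh) (s1700_1702 i sh) (Nat.ble 1700 i)
noncomputable def s1702_1704 (i sh : Nat) : Nat := Bool.rec (Nat.shiftRight leaf1702 sh) (Nat.shiftRight leaf1703 sh) (Nat.ble 1703 i)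
noncomputable def s1702_1705 (i sh : Nat) : Nat := Bool.rec (s1702_1704 i sh) (Nat.shiftRight leaf1704 sh) (Nat.ble 1704 i)
noncomputable def s1696_1705 (i sh : Nat) : Nat := Bool.rec (s1696_1702 i sh) (s1702_1705 i sh) (Nat.ble 1702 i)
noncomputable def s1694_1705 (i sh : Nat) : Nat := Bool.rec (s1694_1696 i sh) (s1696_1705 i sh) (Nat.ble 1696 i)
noncomputable def s1668_1705 (i sh : Nat) : Nat := Bool.rec (s1668_1694 i sh) (s1694_1705 i sh) (Nat.ble 1694 i)
noncomputable def s1633_1705 (i sh : Nat) : Nat := Bool.rec (s1633_1668 i sh) (s1668_1705 i sh) (Nat.ble 1668 i)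
noncomputable def s1705_1707 (i sh : Nat) : Nat := Bool.rec (Nat.shiftRight leaf1705 sh) (Nat.shiftRight leaf1706 sh) (Nat.ble 1706 i)
noncomputable def s1707_1709 (i sh : Nat) : Nat := Bool.rec (Nat.shiftRight leaf1707 sh) (Nat.shiftRight leaf1708 sh) (Nat.ble 1708 i)
noncomputable def s1705_1709 (i sh : Nat) : Nat := Bool.rec (s1705_1707 i sh) (s1707_1709 i sh) (Nat.ble 1707 i)
noncomputable def s1711_1713 (i sh : Nat) : Nat := Bool.rec (Nat.shiftRight leaf1711 sh) (Nat.shiftRight leaf1712 sh) (Nat.ble 1712 i)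
noncomputable def s1710_1713 (i sh : Nat) : Nat := Bool.rec (Nat.shiftRight leaf1710 sh) (s1711_1713 i sh) (Nat.ble 1711 i)
noncomputable def s1709_1713 (i sh : Nat) : Nat := Bool.rec (Nat.shiftRight leaf1709 sh) (s1710_1713 i sh) (Nat.ble 1710 i)
noncomputable def s1705_1713 (i sh : Nat) : Nat := Bool.rec (s1705_1709 i sh) (s1709_1713 i sh) (Nat.ble 1709 i)
noncomputable def s1714_1716 (i sh : Nat) : Nat := Bool.rec (Nat.shiftRight leaf1714 sh) (Nat.shiftRight leaf1715 sh) (Nat.ble 1715 i)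
noncomputable def s1713_1716 (i sh : Nat) : Nat := Bool.rec (Nat.shiftRight leaf1713 sh) (s1714_1716 i sh) (Nat.ble 1714 i)
noncomputable def s1716_1718 (i sh : Nat) : Nat := Bool.rec (Nat.shiftRight leaf1716 sh) (Nat.shiftRight leaf1717 sh) (Nat.ble 1717 i)
noncomputable def s1716_1719 (i sh : Nat) : Nat := Bool.rec (s1716_1718 i sh) (Nat.shiftRight leaf1718 sh) (Nat.ble 1718 i)
noncomputable def s1720_1722 (i sh : Nat) : Nat := Bool.rec (Nat.shiftRight leaf1720 sh) (Nat.shiftRight leaf1721 sh) (Nat.ble 1721 i)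
noncomputable def s1719_1722 (i sh : Nat) : Nat := Bool.rec (Nat.shiftRight leaf1719 sh) (s1720_1722 i sh) (Nat.ble 1720 i)
noncomputable def s1716_1722 (i sh : Nat) : Nat := Bool.rec (s1716_1719 i sh) (s1719_1722 i sh) (Nat.ble 1719 i)
noncomputable def s1713_1722 (i sh : Nat) : Nat := Bool.rec (s1713_1716 i sh) (s1716_1722 i sh) (Nat.ble 1716 i)
noncomputable def s1705_1722 (i sh : Nat) : Nat := Bool.rec (s1705_1713 i sh) (s1713_1722 i sh) (Nat.ble 1713 i)
noncomputable def s1722_1724 (i sh : Nat) : Nat := Bool.rec (Nat.shiftRight leaf1722 sh) (Nat.shiftRight leaf1723 sh) (Nat.ble 1723 i)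
noncomputable def s1724_1726 (i sh : Nat) : Nat := Bool.rec (Nat.shiftRight leaf1724 sh) (Nat.shiftRight leaf1725 sh) (Nat.ble 1725 i)
noncomputable def s1722_1726 (i sh : Nat) : Nat := Bool.rec (s1722_1724 i sh) (s1724_1726 i sh) (Nat.ble 1724 i)
noncomputable def s1726_1728 (i sh : Nat) : Nat := Bool.rec (Nat.shiftRight leaf1726 sh) (Nat.shiftRight leaf1727 sh) (Nat.ble 1727 i)
noncomputable def s1722_1728 (i sh : Nat) : Nat := Bool.rec (s1722_1726 i sh) (s1726_1728 i sh) (Nat.ble 1726 i)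
noncomputable def s1730_1732 (i sh : Nat) : Nat := Bool.rec (Nat.shiftRight leaf1730 sh) (Nat.shiftRight leaf1731 sh) (Nat.ble 1731 i)
noncomputable def s1729_1732 (i sh : Nat) : Nat := Bool.rec (Nat.shiftRight leaf1729 sh) (s1730_1732 i sh) (Nat.ble 1730 i)
noncomputable def s1728_1732 (i sh : Nat) : Nat := Bool.rec (Nat.shiftRight leaf1728 sh) (s1729_1732 i sh) (Nat.ble 1729 i)
noncomputable def s1732_1734 (i sh : Nat) : Nat := Bool.rec (Nat.shiftRight leaf1732 sh) (Nat.shiftRight leaf1733 sh) (Nat.ble 1733 i)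
noncomputable def s1734_1736 (i sh : Nat) : Nat := Bool.rec (Nat.shiftRight leaf1734 sh) (Nat.shiftRight leaf1735 sh) (Nat.ble 1735 i)
noncomputable def s1734_1737 (i sh : Nat) : Nat := Bool.rec (s1734_1736 i sh) (Nat.shiftRight leaf1736 sh) (Nat.ble 1736 i)
noncomputable def s1732_1737 (i sh : Nat) : Nat := Bool.rec (s1732_1734 i sh) (s1734_1737 i sh) (Nat.ble 1734 i)
noncomputable def s1728_1737 (i sh : Nat) : Nat := Bool.rec (s1728_1732 i sh) (s1732_1737 i sh) (Nat.ble 1732 i)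
noncomputable def s1722_1737 (i sh : Nat) : Nat := Bool.rec (s1722_1728 i sh) (s1728_1737 i sh) (Nat.ble 1728 i)
noncomputable def s1705_1737 (i sh : Nat) : Nat := Bool.rec (s1705_1722 i sh) (s1722_1737 i sh) (Nat.ble 1722 i)
noncomputable def s1705_1738 (i sh : Nat) : Nat := Bool.rec (s1705_1737 i sh) (Nat.shiftRight leaf1737 sh) (Nat.ble 1737 i)
noncomputable def s1633_1738 (i sh : Nat) : Nat := Bool.rec (s1633_1705 i sh) (s1705_1738 i sh) (Nat.ble 1705 i)
noncomputable def s1738_1740 (i sh : Nat) : Nat := Bool.rec (Nat.shiftRight leaf1738 sh) (Nat.shiftRight leaf1739 sh) (Nat.ble 1739 i)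
noncomputable def s1738_1741 (i sh : Nat) : Nat := Bool.rec (s1738_1740 i sh) (Nat.shiftRight leaf1740 sh) (Nat.ble 1740 i)
noncomputable def s1741_1743 (i sh : Nat) : Nat := Bool.rec (Nat.shiftRight leaf1741 sh) (Nat.shiftRight leaf1742 sh) (Nat.ble 1742 i)
noncomputable def s1743_1745 (i sh : Nat) : Nat := Bool.rec (Nat.shiftRight leaf1743 sh) (Nat.shiftRight leaf1744 sh) (Nat.ble 1744 i)
noncomputable def s1741_1745 (i sh : Nat) : Nat := Bool.rec (s1741_1743 i sh) (s1743_1745 i sh) (Nat.ble 1743 i)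
noncomputable def s1738_1745 (i sh : Nat) : Nat := Bool.rec (s1738_1741 i sh) (s1741_1745 i sh) (Nat.ble 1741 i)
noncomputable def s1746_1748 (i sh : Nat) : Nat := Bool.rec (Nat.shiftRight leaf1746 sh) (Nat.shiftRight leaf1747 sh) (Nat.ble 1747 i)
noncomputable def s1745_1748 (i sh : Nat) : Nat := Bool.rec (Nat.shiftRight leaf1745 sh) (s1746_1748 i sh) (Nat.ble 1746 i)
noncomputable def s1745_1749 (i sh : Nat) : Nat := Bool.rec (s1745_1748 i sh) (Nat.shiftRight leaf1748 sh) (Nat.ble 1748 i)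
noncomputable def s1738_1749 (i sh : Nat) : Nat := Bool.rec (s1738_1745 i sh) (s1745_1749 i sh) (Nat.ble 1745 i)
noncomputable def s1749_1751 (i sh : Nat) : Nat := Bool.rec (Nat.shiftRight leaf1749 sh) (Nat.shiftRight leaf1750 sh) (Nat.ble 1750 i)
noncomputable def s1751_1753 (i sh : Nat) : Nat := Bool.rec (Nat.shiftRight leaf1751 sh) (Nat.shiftRight leaf1752 sh) (Nat.ble 1752 i)
noncomputable def s1751_1754 (i sh : Nat) : Nat := Bool.rec (s1751_1753 i sh) (Nat.shiftRight leaf1753 sh) (Nat.ble 1753 i)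
noncomputable def s1749_1754 (i sh : Nat) : Nat := Bool.rec (s1749_1751 i sh) (s1751_1754 i sh) (Nat.ble 1751 i)
noncomputable def s1754_1756 (i sh : Nat) : Nat := Bool.rec (Nat.shiftRight leaf1754 sh) (Nat.shiftRight leaf1755 sh) (Nat.ble 1755 i)
noncomputable def s1749_1756 (i sh : Nat) : Nat := Bool.rec (s1749_1754 i sh) (s1754_1756 i sh) (Nat.ble 1754 i)
noncomputable def s1756_1758 (i sh : Nat) : Nat := Bool.rec (Nat.shiftRight leaf1756 sh) (Nat.shiftRight leaf1757 sh) (Nat.ble 1757 i)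
noncomputable def s1758_1760 (i sh : Nat) : Nat := Bool.rec (Nat.shiftRight leaf1758 sh) (Nat.shiftRight leaf1759 sh) (Nat.ble 1759 i)
noncomputable def s1756_1760 (i sh : Nat) : Nat := Bool.rec (s1756_1758 i sh) (s1758_1760 i sh) (Nat.ble 1758 i)
noncomputable def s1749_1760 (i sh : Nat) : Nat := Bool.rec (s1749_1756 i sh) (s1756_1760 i sh) (Nat.ble 1756 i)
noncomputable def s1760_1762 (i sh : Nat) : Nat := Bool.rec (Nat.shiftRight leaf1760 sh) (Nat.shiftRight leaf1761 sh) (Nat.ble 1761 i)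
noncomputable def s1760_1763 (i sh : Nat) : Nat := Bool.rec (s1760_1762 i sh) (Nat.shiftRight leaf1762 sh) (Nat.ble 1762 i)
noncomputable def s1760_1764 (i sh : Nat) : Nat := Bool.rec (s1760_1763 i sh) (Nat.shiftRight leaf1763 sh) (Nat.ble 1763 i)
noncomputable def s1764_1766 (i sh : Nat) : Nat := Bool.rec (Nat.shiftRight leaf1764 sh) (Nat.shiftRight leaf1765 sh) (Nat.ble 1765 i)
noncomputable def s1764_1767 (i sh : Nat) : Nat := Bool.rec (s1764_1766 i sh) (Nat.shiftRight leaf1766 sh) (Nat.ble 1766 i)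
noncomputable def s1767_1769 (i sh : Nat) : Nat := Bool.rec (Nat.shiftRight leaf1767 sh) (Nat.shiftRight leaf1768 sh) (Nat.ble 1768 i)
noncomputable def s1764_1769 (i sh : Nat) : Nat := Bool.rec (s1764_1767 i sh) (s1767_1769 i sh) (Nat.ble 1767 i)
noncomputable def s1760_1769 (i sh : Nat) : Nat := Bool.rec (s1760_1764 i sh) (s1764_1769 i sh) (Nat.ble 1764 i)
noncomputable def s1749_1769 (i sh : Nat) : Nat := Bool.rec (s1749_1760 i sh) (s1760_1769 i sh) (Nat.ble 1760 i)
noncomputable def s1738_1769 (i sh : Nat) : Nat := Bool.rec (s1738_1749 i sh) (s1749_1769 i sh) (Nat.ble 1749 i)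
noncomputable def s1770_1772 (i sh : Nat) : Nat := Bool.rec (Nat.shiftRight leaf1770 sh) (Nat.shiftRight leaf1771 sh) (Nat.ble 1771 i)
noncomputable def s1769_1772 (i sh : Nat) : Nat := Bool.rec (Nat.shiftRight leaf1769 sh) (s1770_1772 i sh) (Nat.ble 1770 i)
noncomputable def s1772_1774 (i sh : Nat) : Nat := Bool.rec (Nat.shiftRight leaf1772 sh) (Nat.shiftRight leaf1773 sh) (Nat.ble 1773 i)
noncomputable def s1775_1777 (i sh : Nat) : Nat := Bool.rec (Nat.shiftRight leaf1775 sh) (Nat.shiftRight leaf1776 sh) (Nat.ble 1776 i)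
noncomputable def s1774_1777 (i sh : Nat) : Nat := Bool.rec (Nat.shiftRight leaf1774 sh) (s1775_1777 i sh) (Nat.ble 1775 i)
noncomputable def s1772_1777 (i sh : Nat) : Nat := Bool.rec (s1772_1774 i sh) (s1774_1777 i sh) (Nat.ble 1774 i)
noncomputable def s1778_1780 (i sh : Nat) : Nat := Bool.rec (Nat.shiftRight leaf1778 sh) (Nat.shiftRight leaf1779 sh) (Nat.ble 1779 i)
noncomputable def s1777_1780 (i sh : Nat) : Nat := Bool.rec (Nat.shiftRight leaf1777 sh) (s1778_1780 i sh) (Nat.ble 1778 i)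
noncomputable def s1780_1782 (i sh : Nat) : Nat := Bool.rec (Nat.shiftRight leaf1780 sh) (Nat.shiftRight leaf1781 sh) (Nat.ble 1781 i)
noncomputable def s1782_1784 (i sh : Nat) : Nat := Bool.rec (Nat.shiftRight leaf1782 sh) (Nat.shiftRight leaf1783 sh) (Nat.ble 1783 i)
noncomputable def s1780_1784 (i sh : Nat) : Nat := Bool.rec (s1780_1782 i sh) (s1782_1784 i sh) (Nat.ble 1782 i)
noncomputable def s1777_1784 (i sh : Nat) : Nat := Bool.rec (s1777_1780 i sh) (s1780_1784 i sh) (Nat.ble 1780 i)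
noncomputable def s1772_1784 (i sh : Nat) : Nat := Bool.rec (s1772_1777 i sh) (s1777_1784 i sh) (Nat.ble 1777 i)
noncomputable def s1784_1786 (i sh : Nat) : Nat := Bool.rec (Nat.shiftRight leaf1784 sh) (Nat.shiftRight leaf1785 sh) (Nat.ble 1785 i)
noncomputable def s1786_1788 (i sh : Nat) : Nat := Bool.rec (Nat.shiftRight leaf1786 sh) (Nat.shiftRight leaf1787 sh) (Nat.ble 1787 i)
noncomputable def s1784_1788 (i sh : Nat) : Nat := Bool.rec (s1784_1786 i sh) (s1786_1788 i sh) (Nat.ble 1786 i)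
noncomputable def s1788_1790 (i sh : Nat) : Nat := Bool.rec (Nat.shiftRight leaf1788 sh) (Nat.shiftRight leaf1789 sh) (Nat.ble 1789 i)
noncomputable def s1790_1792 (i sh : Nat) : Nat := Bool.rec (Nat.shiftRight leaf1790 sh) (Nat.shiftRight leaf1791 sh) (Nat.ble 1791 i)
noncomputable def s1788_1792 (i sh : Nat) : Nat := Bool.rec (s1788_1790 i sh) (s1790_1792 i sh) (Nat.ble 1790 i)
noncomputable def s1784_1792 (i sh : Nat) : Nat := Bool.rec (s1784_1788 i sh) (s1788_1792 i sh) (Nat.ble 1788 i)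
noncomputable def s1792_1794 (i sh : Nat) : Nat := Bool.rec (Nat.shiftRight leaf1792 sh) (Nat.shiftRight leaf1793 sh) (Nat.ble 1793 i)
noncomputable def s1795_1797 (i sh : Nat) : Nat := Bool.rec (Nat.shiftRight leaf1795 sh) (Nat.shiftRight leaf1796 sh) (Nat.ble 1796 i)
noncomputable def s1794_1797 (i sh : Nat) : Nat := Bool.rec (Nat.shiftRight leaf1794 sh) (s1795_1797 i sh) (Nat.ble 1795 i)
noncomputable def s1792_1797 (i sh : Nat) : Nat := Bool.rec (s1792_1794 i sh) (s1794_1797 i sh) (Nat.ble 1794 i)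
noncomputable def s1784_1797 (i sh : Nat) : Nat := Bool.rec (s1784_1792 i sh) (s1792_1797 i sh) (Nat.ble 1792 i)
noncomputable def s1772_1797 (i sh : Nat) : Nat := Bool.rec (s1772_1784 i sh) (s1784_1797 i sh) (Nat.ble 1784 i)
noncomputable def s1769_1797 (i sh : Nat) : Nat := Bool.rec (s1769_1772 i sh) (s1772_1797 i sh) (Nat.ble 1772 i)
noncomputable def s1738_1797 (i sh : Nat) : Nat := Bool.rec (s1738_1769 i sh) (s1769_1797 i sh) (Nat.ble 1769 i)
noncomputable def s1797_1799 (i sh : Nat) : Nat := Bool.rec (Nat.shiftRight leaf1797 sh) (Nat.shiftRight leaf1798 sh) (Nat.ble 1798 i)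
noncomputable def s1797_1800 (i sh : Nat) : Nat := Bool.rec (s1797_1799 i sh) (Nat.shiftRight leaf1799 sh) (Nat.ble 1799 i)
noncomputable def s1801_1803 (i sh : Nat) : Nat := Bool.rec (Nat.shiftRight leaf1801 sh) (Nat.shiftRight leaf1802 sh) (Nat.ble 1802 i)
noncomputable def s1800_1803 (i sh : Nat) : Nat := Bool.rec (Nat.shiftRight leaf1800 sh) (s1801_1803 i sh) (Nat.ble 1801 i)
noncomputable def s1797_1803 (i sh : Nat) : Nat := Bool.rec (s1797_1800 i sh) (s1800_1803 i sh) (Nat.ble 1800 i)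
noncomputable def s1804_1806 (i sh : Nat) : Nat := Bool.rec (Nat.shiftRight leaf1804 sh) (Nat.shiftRight leaf1805 sh) (Nat.ble 1805 i)
noncomputable def s1803_1806 (i sh : Nat) : Nat := Bool.rec (Nat.shiftRight leaf1803 sh) (s1804_1806 i sh) (Nat.ble 1804 i)
noncomputable def s1806_1808 (i sh : Nat) : Nat := Bool.rec (Nat.shiftRight leaf1806 sh) (Nat.shiftRight leaf1807 sh) (Nat.ble 1807 i)
noncomputable def s1803_1808 (i sh : Nat) : Nat := Bool.rec (s1803_1806 i sh) (s1806_1808 i sh) (Nat.ble 1806 i)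
noncomputable def s1797_1808 (i sh : Nat) : Nat := Bool.rec (s1797_1803 i sh) (s1803_1808 i sh) (Nat.ble 1803 i)
noncomputable def s1809_1811 (i sh : Nat) : Nat := Bool.rec (Nat.shiftRight leaf1809 sh) (Nat.shiftRight leaf1810 sh) (Nat.ble 1810 i)
noncomputable def s1808_1811 (i sh : Nat) : Nat := Bool.rec (Nat.shiftRight leaf1808 sh) (s1809_1811 i sh) (Nat.ble 1809 i)
noncomputable def s1811_1813 (i sh : Nat) : Nat := Bool.rec (Nat.shiftRight leaf1811 sh) (Nat.shiftRight leaf1812 sh) (Nat.ble 1812 i)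
noncomputable def s1813_1815 (i sh : Nat) : Nat := Bool.rec (Nat.shiftRight leaf1813 sh) (Nat.shiftRight leaf1814 sh) (Nat.ble 1814 i)
noncomputable def s1811_1815 (i sh : Nat) : Nat := Bool.rec (s1811_1813 i sh) (s1813_1815 i sh) (Nat.ble 1813 i)
noncomputable def s1808_1815 (i sh : Nat) : Nat := Bool.rec (s1808_1811 i sh) (s1811_1815 i sh) (Nat.ble 1811 i)
noncomputable def s1815_1817 (i sh : Nat) : Nat := Bool.rec (Nat.shiftRight leaf1815 sh) (Nat.shiftRight leaf1816 sh) (Nat.ble 1816 i)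
noncomputable def s1817_1819 (i sh : Nat) : Nat := Bool.rec (Nat.shiftRight leaf1817 sh) (Nat.shiftRight leaf1818 sh) (Nat.ble 1818 i)
noncomputable def s1815_1819 (i sh : Nat) : Nat := Bool.rec (s1815_1817 i sh) (s1817_1819 i sh) (Nat.ble 1817 i)
noncomputable def s1819_1821 (i sh : Nat) : Nat := Bool.rec (Nat.shiftRight leaf1819 sh) (Nat.shiftRight leaf1820 sh) (Nat.ble 1820 i)
noncomputable def s1819_1822 (i sh : Nat) : Nat := Bool.rec (s1819_1821 i sh) (Nat.shiftRight leaf1821 sh) (Nat.ble 1821 i)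
noncomputable def s1815_1822 (i sh : Nat) : Nat := Bool.rec (s1815_1819 i sh) (s1819_1822 i sh) (Nat.ble 1819 i)
noncomputable def s1808_1822 (i sh : Nat) : Nat := Bool.rec (s1808_1815 i sh) (s1815_1822 i sh) (Nat.ble 1815 i)
noncomputable def s1797_1822 (i sh : Nat) : Nat := Bool.rec (s1797_1808 i sh) (s1808_1822 i sh) (Nat.ble 1808 i)
noncomputable def s1822_1824 (i sh : Nat) : Nat := Bool.rec (Nat.shiftRight leaf1822 sh) (Nat.shiftRight leaf1823 sh) (Nat.ble 1823 i)
noncomputable def s1822_1825 (i sh : Nat) : Nat := Bool.rec (s1822_1824 i sh) (Nat.shiftRight leaf1824 sh) (Nat.ble 1824 i)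
noncomputable def s1825_1827 (i sh : Nat) : Nat := Bool.rec (Nat.shiftRight leaf1825 sh) (Nat.shiftRight leaf1826 sh) (Nat.ble 1826 i)
noncomputable def s1822_1827 (i sh : Nat) : Nat := Bool.rec (s1822_1825 i sh) (s1825_1827 i sh) (Nat.ble 1825 i)
noncomputable def s1827_1829 (i sh : Nat) : Nat := Bool.rec (Nat.shiftRight leaf1827 sh) (Nat.shiftRight leaf1828 sh) (Nat.ble 1828 i)
noncomputable def s1829_1831 (i sh : Nat) : Nat := Bool.rec (Nat.shiftRight leaf1829 sh) (Nat.shiftRight leaf1830 sh) (Nat.ble 1830 i)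
noncomputable def s1831_1833 (i sh : Nat) : Nat := Bool.rec (Nat.shiftRight leaf1831 sh) (Nat.shiftRight leaf1832 sh) (Nat.ble 1832 i)
noncomputable def s1829_1833 (i sh : Nat) : Nat := Bool.rec (s1829_1831 i sh) (s1831_1833 i sh) (Nat.ble 1831 i)
noncomputable def s1827_1833 (i sh : Nat) : Nat := Bool.rec (s1827_1829 i sh) (s1829_1833 i sh) (Nat.ble 1829 i)
noncomputable def s1822_1833 (i sh : Nat) : Nat := Bool.rec (s1822_1827 i sh) (s1827_1833 i sh) (Nat.ble 1827 i)
noncomputable def s1833_1835 (i sh : Nat) : Nat := Bool.rec (Nat.shiftRight leaf1833 sh) (Nat.shiftRight leaf1834 sh) (Nat.ble 1834 i)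
noncomputable def s1835_1837 (i sh : Nat) : Nat := Bool.rec (Nat.shiftRight leaf1835 sh) (Nat.shiftRight leaf1836 sh) (Nat.ble 1836 i)
noncomputable def s1833_1837 (i sh : Nat) : Nat := Bool.rec (s1833_1835 i sh) (s1835_1837 i sh) (Nat.ble 1835 i)
noncomputable def s1837_1839 (i sh : Nat) : Nat := Bool.rec (Nat.shiftRight leaf1837 sh) (Nat.shiftRight leaf1838 sh) (Nat.ble 1838 i)
noncomputable def s1833_1839 (i sh : Nat) : Nat := Bool.rec (s1833_1837 i sh) (s1837_1839 i sh) (Nat.ble 1837 i)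
noncomputable def s1839_1841 (i sh : Nat) : Nat := Bool.rec (Nat.shiftRight leaf1839 sh) (Nat.shiftRight leaf1840 sh) (Nat.ble 1840 i)
noncomputable def s1839_1842 (i sh : Nat) : Nat := Bool.rec (s1839_1841 i sh) (Nat.shiftRight leaf1841 sh) (Nat.ble 1841 i)
noncomputable def s1842_1844 (i sh : Nat) : Nat := Bool.rec (Nat.shiftRight leaf1842 sh) (Nat.shiftRight leaf1843 sh) (Nat.ble 1843 i)
noncomputable def s1845_1847 (i sh : Nat) : Nat := Bool.rec (Nat.shiftRight leaf1845 sh) (Nat.shiftRight leaf1846 sh) (Nat.ble 1846 i)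
noncomputable def s1844_1847 (i sh : Nat) : Nat := Bool.rec (Nat.shiftRight leaf1844 sh) (s1845_1847 i sh) (Nat.ble 1845 i)
noncomputable def s1842_1847 (i sh : Nat) : Nat := Bool.rec (s1842_1844 i sh) (s1844_1847 i sh) (Nat.ble 1844 i)
noncomputable def s1839_1847 (i sh : Nat) : Nat := Bool.rec (s1839_1842 i sh) (s1842_1847 i sh) (Nat.ble 1842 i)
noncomputable def s1833_1847 (i sh : Nat) : Nat := Bool.rec (s1833_1839 i sh) (s1839_1847 i sh) (Nat.ble 1839 i)
noncomputable def s1822_1847 (i sh : Nat) : Nat := Bool.rec (s1822_1833 i sh) (s1833_1847 i sh) (Nat.ble 1833 i)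
noncomputable def s1797_1847 (i sh : Nat) : Nat := Bool.rec (s1797_1822 i sh) (s1822_1847 i sh) (Nat.ble 1822 i)
noncomputable def s1848_1850 (i sh : Nat) : Nat := Bool.rec (Nat.shiftRight leaf1848 sh) (Nat.shiftRight leaf1849 sh) (Nat.ble 1849 i)
noncomputable def s1848_1851 (i sh : Nat) : Nat := Bool.rec (s1848_1850 i sh) (Nat.shiftRight leaf1850 sh) (Nat.ble 1850 i)
noncomputable def s1847_1851 (i sh : Nat) : Nat := Bool.rec (Nat.shiftRight leaf1847 sh) (s1848_1851 i sh) (Nat.ble 1848 i)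
noncomputable def s1851_1853 (i sh : Nat) : Nat := Bool.rec (Nat.shiftRight leaf1851 sh) (Nat.shiftRight leaf1852 sh) (Nat.ble 1852 i)
noncomputable def s1853_1855 (i sh : Nat) : Nat := Bool.rec (Nat.shiftRight leaf1853 sh) (Nat.shiftRight leaf1854 sh) (Nat.ble 1854 i)
noncomputable def s1851_1855 (i sh : Nat) : Nat := Bool.rec (s1851_1853 i sh) (s1853_1855 i sh) (Nat.ble 1853 i)
noncomputable def s1851_1856 (i sh : Nat) : Nat := Bool.rec (s1851_1855 i sh) (Nat.shiftRight leaf1855 sh) (Nat.ble 1855 i)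
noncomputable def s1857_1859 (i sh : Nat) : Nat := Bool.rec (Nat.shiftRight leaf1857 sh) (Nat.shiftRight leaf1858 sh) (Nat.ble 1858 i)
noncomputable def s1856_1859 (i sh : Nat) : Nat := Bool.rec (Nat.shiftRight leaf1856 sh) (s1857_1859 i sh) (Nat.ble 1857 i)
noncomputable def s1859_1861 (i sh : Nat) : Nat := Bool.rec (Nat.shiftRight leaf1859 sh) (Nat.shiftRight leaf1860 sh) (Nat.ble 1860 i)
noncomputable def s1856_1861 (i sh : Nat) : Nat := Bool.rec (s1856_1859 i sh) (s1859_1861 i sh) (Nat.ble 1859 i)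
noncomputable def s1851_1861 (i sh : Nat) : Nat := Bool.rec (s1851_1856 i sh) (s1856_1861 i sh) (Nat.ble 1856 i)
noncomputable def s1847_1861 (i sh : Nat) : Nat := Bool.rec (s1847_1851 i sh) (s1851_1861 i sh) (Nat.ble 1851 i)
noncomputable def s1861_1863 (i sh : Nat) : Nat := Bool.rec (Nat.shiftRight leaf1861 sh) (Nat.shiftRight leaf1862 sh) (Nat.ble 1862 i)
noncomputable def s1863_1865 (i sh : Nat) : Nat := Bool.rec (Nat.shiftRight leaf1863 sh) (Nat.shiftRight leaf1864 sh) (Nat.ble 1864 i)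
noncomputable def s1863_1866 (i sh : Nat) : Nat := Bool.rec (s1863_1865 i sh) (Nat.shiftRight leaf1865 sh) (Nat.ble 1865 i)
noncomputable def s1861_1866 (i sh : Nat) : Nat := Bool.rec (s1861_1863 i sh) (s1863_1866 i sh) (Nat.ble 1863 i)
noncomputable def s1866_1868 (i sh : Nat) : Nat := Bool.rec (Nat.shiftRight leaf1866 sh) (Nat.shiftRight leaf1867 sh) (Nat.ble 1867 i)
noncomputable def s1866_1869 (i sh : Nat) : Nat := Bool.rec (s1866_1868 i sh) (Nat.shiftRight leaf1868 sh) (Nat.ble 1868 i)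
noncomputable def s1869_1871 (i sh : Nat) : Nat := Bool.rec (Nat.shiftRight leaf1869 sh) (Nat.shiftRight leaf1870 sh) (Nat.ble 1870 i)
noncomputable def s1869_1872 (i sh : Nat) : Nat := Bool.rec (s1869_1871 i sh) (Nat.shiftRight leaf1871 sh) (Nat.ble 1871 i)
noncomputable def s1866_1872 (i sh : Nat) : Nat := Bool.rec (s1866_1869 i sh) (s1869_1872 i sh) (Nat.ble 1869 i)
noncomputable def s1861_1872 (i sh : Nat) : Nat := Bool.rec (s1861_1866 i sh) (s1866_1872 i sh) (Nat.ble 1866 i)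
noncomputable def s1872_1874 (i sh : Nat) : Nat := Bool.rec (Nat.shiftRight leaf1872 sh) (Nat.shiftRight leaf1873 sh) (Nat.ble 1873 i)
noncomputable def s1874_1876 (i sh : Nat) : Nat := Bool.rec (Nat.shiftRight leaf1874 sh) (Nat.shiftRight leaf1875 sh) (Nat.ble 1875 i)
noncomputable def s1876_1878 (i sh : Nat) : Nat := Bool.rec (Nat.shiftRight leaf1876 sh) (Nat.shiftRight leaf1877 sh) (Nat.ble 1877 i)
noncomputable def s1878_1880 (i sh : Nat) : Nat := Bool.rec (Nat.shiftRight leaf1878 sh) (Nat.shiftRight leaf1879 sh) (Nat.ble 1879 i)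
noncomputable def s1878_1881 (i sh : Nat) : Nat := Bool.rec (s1878_1880 i sh) (Nat.shiftRight leaf1880 sh) (Nat.ble 1880 i)
noncomputable def s1876_1881 (i sh : Nat) : Nat := Bool.rec (s1876_1878 i sh) (s1878_1881 i sh) (Nat.ble 1878 i)
noncomputable def s1874_1881 (i sh : Nat) : Nat := Bool.rec (s1874_1876 i sh) (s1876_1881 i sh) (Nat.ble 1876 i)
noncomputable def s1872_1881 (i sh : Nat) : Nat := Bool.rec (s1872_1874 i sh) (s1874_1881 i sh) (Nat.ble 1874 i)
noncomputable def s1861_1881 (i sh : Nat) : Nat := Bool.rec (s1861_1872 i sh) (s1872_1881 i sh) (Nat.ble 1872 i)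
noncomputable def s1847_1881 (i sh : Nat) : Nat := Bool.rec (s1847_1861 i sh) (s1861_1881 i sh) (Nat.ble 1861 i)
noncomputable def s1797_1881 (i sh : Nat) : Nat := Bool.rec (s1797_1847 i sh) (s1847_1881 i sh) (Nat.ble 1847 i)
noncomputable def s1738_1881 (i sh : Nat) : Nat := Bool.rec (s1738_1797 i sh) (s1797_1881 i sh) (Nat.ble 1797 i)
noncomputable def s1633_1881 (i sh : Nat) : Nat := Bool.rec (s1633_1738 i sh) (s1738_1881 i sh) (Nat.ble 1738 i)
noncomputable def s1555_1881 (i sh : Nat) : Nat := Bool.rec (s1555_1633 i sh) (s1633_1881 i sh) (Nat.ble 1633 i)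
noncomputable def s1349_1881 (i sh : Nat) : Nat := Bool.rec (s1349_1555 i sh) (s1555_1881 i sh) (Nat.ble 1555 i)
noncomputable def s1005_1881 (i sh : Nat) : Nat := Bool.rec (s1005_1349 i sh) (s1349_1881 i sh) (Nat.ble 1349 i)
noncomputable def s1881_1883 (i sh : Nat) : Nat := Bool.rec (Nat.shiftRight leaf1881 sh) (Nat.shiftRight leaf1882 sh) (Nat.ble 1882 i)
noncomputable def s1883_1885 (i sh : Nat) : Nat := Bool.rec (Nat.shiftRight leaf1883 sh) (Nat.shiftRight leaf1884 sh) (Nat.ble 1884 i)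
noncomputable def s1881_1885 (i sh : Nat) : Nat := Bool.rec (s1881_1883 i sh) (s1883_1885 i sh) (Nat.ble 1883 i)
noncomputable def s1885_1887 (i sh : Nat) : Nat := Bool.rec (Nat.shiftRight leaf1885 sh) (Nat.shiftRight leaf1886 sh) (Nat.ble 1886 i)
noncomputable def s1887_1889 (i sh : Nat) : Nat := Bool.rec (Nat.shiftRight leaf1887 sh) (Nat.shiftRight leaf1888 sh) (Nat.ble 1888 i)
noncomputable def s1885_1889 (i sh : Nat) : Nat := Bool.rec (s1885_1887 i sh) (s1887_1889 i sh) (Nat.ble 1887 i)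
noncomputable def s1881_1889 (i sh : Nat) : Nat := Bool.rec (s1881_1885 i sh) (s1885_1889 i sh) (Nat.ble 1885 i)
noncomputable def s1889_1891 (i sh : Nat) : Nat := Bool.rec (Nat.shiftRight leaf1889 sh) (Nat.shiftRight leaf1890 sh) (Nat.ble 1890 i)
noncomputable def s1891_1893 (i sh : Nat) : Nat := Bool.rec (Nat.shiftRight leaf1891 sh) (Nat.shiftRight leaf1892 sh) (Nat.ble 1892 i)
noncomputable def s1889_1893 (i sh : Nat) : Nat := Bool.rec (s1889_1891 i sh) (s1891_1893 i sh) (Nat.ble 1891 i)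
noncomputable def s1894_1896 (i sh : Nat) : Nat := Bool.rec (Nat.shiftRight leaf1894 sh) (Nat.shiftRight leaf1895 sh) (Nat.ble 1895 i)
noncomputable def s1893_1896 (i sh : Nat) : Nat := Bool.rec (Nat.shiftRight leaf1893 sh) (s1894_1896 i sh) (Nat.ble 1894 i)
noncomputable def s1896_1898 (i sh : Nat) : Nat := Bool.rec (Nat.shiftRight leaf1896 sh) (Nat.shiftRight leaf1897 sh) (Nat.ble 1897 i)
noncomputable def s1893_1898 (i sh : Nat) : Nat := Bool.rec (s1893_1896 i sh) (s1896_1898 i sh) (Nat.ble 1896 i)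
noncomputable def s1889_1898 (i sh : Nat) : Nat := Bool.rec (s1889_1893 i sh) (s1893_1898 i sh) (Nat.ble 1893 i)
noncomputable def s1881_1898 (i sh : Nat) : Nat := Bool.rec (s1881_1889 i sh) (s1889_1898 i sh) (Nat.ble 1889 i)
noncomputable def s1899_1901 (i sh : Nat) : Nat := Bool.rec (Nat.shiftRight leaf1899 sh) (Nat.shiftRight leaf1900 sh) (Nat.ble 1900 i)
noncomputable def s1898_1901 (i sh : Nat) : Nat := Bool.rec (Nat.shiftRight leaf1898 sh) (s1899_1901 i sh) (Nat.ble 1899 i)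
noncomputable def s1898_1902 (i sh : Nat) : Nat := Bool.rec (s1898_1901 i sh) (Nat.shiftRight leaf1901 sh) (Nat.ble 1901 i)
noncomputable def s1902_1904 (i sh : Nat) : Nat := Bool.rec (Nat.shiftRight leaf1902 sh) (Nat.shiftRight leaf1903 sh) (Nat.ble 1903 i)
noncomputable def s1904_1906 (i sh : Nat) : Nat := Bool.rec (Nat.shiftRight leaf1904 sh) (Nat.shiftRight leaf1905 sh) (Nat.ble 1905 i)
noncomputable def s1902_1906 (i sh : Nat) : Nat := Bool.rec (s1902_1904 i sh) (s1904_1906 i sh) (Nat.ble 1904 i)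
noncomputable def s1906_1908 (i sh : Nat) : Nat := Bool.rec (Nat.shiftRight leaf1906 sh) (Nat.shiftRight leaf1907 sh) (Nat.ble 1907 i)
noncomputable def s1906_1909 (i sh : Nat) : Nat := Bool.rec (s1906_1908 i sh) (Nat.shiftRight leaf1908 sh) (Nat.ble 1908 i)
noncomputable def s1902_1909 (i sh : Nat) : Nat := Bool.rec (s1902_1906 i sh) (s1906_1909 i sh) (Nat.ble 1906 i)
noncomputable def s1898_1909 (i sh : Nat) : Nat := Bool.rec (s1898_1902 i sh) (s1902_1909 i sh) (Nat.ble 1902 i)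
noncomputable def s1881_1909 (i sh : Nat) : Nat := Bool.rec (s1881_1898 i sh) (s1898_1909 i sh) (Nat.ble 1898 i)
noncomputable def s1910_1912 (i sh : Nat) : Nat := Bool.rec (Nat.shiftRight leaf1910 sh) (Nat.shiftRight leaf1911 sh) (Nat.ble 1911 i)
noncomputable def s1909_1912 (i sh : Nat) : Nat := Bool.rec (Nat.shiftRight leaf1909 sh) (s1910_1912 i sh) (Nat.ble 1910 i)
noncomputable def s1913_1915 (i sh : Nat) : Nat := Bool.rec (Nat.shiftRight leaf1913 sh) (Nat.shiftRight leaf1914 sh) (Nat.ble 1914 i)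
noncomputable def s1912_1915 (i sh : Nat) : Nat := Bool.rec (Nat.shiftRight leaf1912 sh) (s1913_1915 i sh) (Nat.ble 1913 i)
noncomputable def s1909_1915 (i sh : Nat) : Nat := Bool.rec (s1909_1912 i sh) (s1912_1915 i sh) (Nat.ble 1912 i)
noncomputable def s1915_1917 (i sh : Nat) : Nat := Bool.rec (Nat.shiftRight leaf1915 sh) (Nat.shiftRight leaf1916 sh) (Nat.ble 1916 i)
noncomputable def s1915_1918 (i sh : Nat) : Nat := Bool.rec (s1915_1917 i sh) (Nat.shiftRight leaf1917 sh) (Nat.ble 1917 i)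
noncomputable def s1919_1921 (i sh : Nat) : Nat := Bool.rec (Nat.shiftRight leaf1919 sh) (Nat.shiftRight leaf1920 sh) (Nat.ble 1920 i)
noncomputable def s1918_1921 (i sh : Nat) : Nat := Bool.rec (Nat.shiftRight leaf1918 sh) (s1919_1921 i sh) (Nat.ble 1919 i)
noncomputable def s1915_1921 (i sh : Nat) : Nat := Bool.rec (s1915_1918 i sh) (s1918_1921 i sh) (Nat.ble 1918 i)
noncomputable def s1909_1921 (i sh : Nat) : Nat := Bool.rec (s1909_1915 i sh) (s1915_1921 i sh) (Nat.ble 1915 i)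
noncomputable def s1921_1923 (i sh : Nat) : Nat := Bool.rec (Nat.shiftRight leaf1921 sh) (Nat.shiftRight leaf1922 sh) (Nat.ble 1922 i)
noncomputable def s1923_1925 (i sh : Nat) : Nat := Bool.rec (Nat.shiftRight leaf1923 sh) (Nat.shiftRight leaf1924 sh) (Nat.ble 1924 i)
noncomputable def s1923_1926 (i sh : Nat) : Nat := Bool.rec (s1923_1925 i sh) (Nat.shiftRight leaf1925 sh) (Nat.ble 1925 i)
noncomputable def s1926_1928 (i sh : Nat) : Nat := Bool.rec (Nat.shiftRight leaf1926 sh) (Nat.shiftRight leaf1927 sh) (Nat.ble 1927 i)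
noncomputable def s1928_1930 (i sh : Nat) : Nat := Bool.rec (Nat.shiftRight leaf1928 sh) (Nat.shiftRight leaf1929 sh) (Nat.ble 1929 i)
noncomputable def s1926_1930 (i sh : Nat) : Nat := Bool.rec (s1926_1928 i sh) (s1928_1930 i sh) (Nat.ble 1928 i)
noncomputable def s1923_1930 (i sh : Nat) : Nat := Bool.rec (s1923_1926 i sh) (s1926_1930 i sh) (Nat.ble 1926 i)
noncomputable def s1921_1930 (i sh : Nat) : Nat := Bool.rec (s1921_1923 i sh) (s1923_1930 i sh) (Nat.ble 1923 i)
noncomputable def s1909_1930 (i sh : Nat) : Nat := Bool.rec (s1909_1921 i sh) (s1921_1930 i sh) (Nat.ble 1921 i)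
noncomputable def s1881_1930 (i sh : Nat) : Nat := Bool.rec (s1881_1909 i sh) (s1909_1930 i sh) (Nat.ble 1909 i)
noncomputable def s1881_1931 (i sh : Nat) : Nat := Bool.rec (s1881_1930 i sh) (Nat.shiftRight leaf1930 sh) (Nat.ble 1930 i)
noncomputable def s1931_1933 (i sh : Nat) : Nat := Bool.rec (Nat.shiftRight leaf1931 sh) (Nat.shiftRight leaf1932 sh) (Nat.ble 1932 i)
noncomputable def s1931_1934 (i sh : Nat) : Nat := Bool.rec (s1931_1933 i sh) (Nat.shiftRight leaf1933 sh) (Nat.ble 1933 i)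
noncomputable def s1934_1936 (i sh : Nat) : Nat := Bool.rec (Nat.shiftRight leaf1934 sh) (Nat.shiftRight leaf1935 sh) (Nat.ble 1935 i)
noncomputable def s1934_1937 (i sh : Nat) : Nat := Bool.rec (s1934_1936 i sh) (Nat.shiftRight leaf1936 sh) (Nat.ble 1936 i)
noncomputable def s1931_1937 (i sh : Nat) : Nat := Bool.rec (s1931_1934 i sh) (s1934_1937 i sh) (Nat.ble 1934 i)
noncomputable def s1937_1939 (i sh : Nat) : Nat := Bool.rec (Nat.shiftRight leaf1937 sh) (Nat.shiftRight leaf1938 sh) (Nat.ble 1938 i)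
noncomputable def s1939_1941 (i sh : Nat) : Nat := Bool.rec (Nat.shiftRight leaf1939 sh) (Nat.shiftRight leaf1940 sh) (Nat.ble 1940 i)
noncomputable def s1937_1941 (i sh : Nat) : Nat := Bool.rec (s1937_1939 i sh) (s1939_1941 i sh) (Nat.ble 1939 i)
noncomputable def s1931_1941 (i sh : Nat) : Nat := Bool.rec (s1931_1937 i sh) (s1937_1941 i sh) (Nat.ble 1937 i)
noncomputable def s1941_1943 (i sh : Nat) : Nat := Bool.rec (Nat.shiftRight leaf1941 sh) (Nat.shiftRight leaf1942 sh) (Nat.ble 1942 i)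
noncomputable def s1943_1945 (i sh : Nat) : Nat := Bool.rec (Nat.shiftRight leaf1943 sh) (Nat.shiftRight leaf1944 sh) (Nat.ble 1944 i)
noncomputable def s1941_1945 (i sh : Nat) : Nat := Bool.rec (s1941_1943 i sh) (s1943_1945 i sh) (Nat.ble 1943 i)
noncomputable def s1945_1947 (i sh : Nat) : Nat := Bool.rec (Nat.shiftRight leaf1945 sh) (Nat.shiftRight leaf1946 sh) (Nat.ble 1946 i)
noncomputable def s1941_1947 (i sh : Nat) : Nat := Bool.rec (s1941_1945 i sh) (s1945_1947 i sh) (Nat.ble 1945 i)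
noncomputable def s1931_1947 (i sh : Nat) : Nat := Bool.rec (s1931_1941 i sh) (s1941_1947 i sh) (Nat.ble 1941 i)
noncomputable def s1947_1949 (i sh : Nat) : Nat := Bool.rec (Nat.shiftRight leaf1947 sh) (Nat.shiftRight leaf1948 sh) (Nat.ble 1948 i)
noncomputable def s1931_1949 (i sh : Nat) : Nat := Bool.rec (s1931_1947 i sh) (s1947_1949 i sh) (Nat.ble 1947 i)
noncomputable def s1949_1951 (i sh : Nat) : Nat := Bool.rec (Nat.shiftRight leaf1949 sh) (Nat.shiftRight leaf1950 sh) (Nat.ble 1950 i)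
noncomputable def s1951_1953 (i sh : Nat) : Nat := Bool.rec (Nat.shiftRight leaf1951 sh) (Nat.shiftRight leaf1952 sh) (Nat.ble 1952 i)
noncomputable def s1953_1955 (i sh : Nat) : Nat := Bool.rec (Nat.shiftRight leaf1953 sh) (Nat.shiftRight leaf1954 sh) (Nat.ble 1954 i)
noncomputable def s1951_1955 (i sh : Nat) : Nat := Bool.rec (s1951_1953 i sh) (s1953_1955 i sh) (Nat.ble 1953 i)
noncomputable def s1949_1955 (i sh : Nat) : Nat := Bool.rec (s1949_1951 i sh) (s1951_1955 i sh) (Nat.ble 1951 i)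
noncomputable def s1956_1958 (i sh : Nat) : Nat := Bool.rec (Nat.shiftRight leaf1956 sh) (Nat.shiftRight leaf1957 sh) (Nat.ble 1957 i)
noncomputable def s1955_1958 (i sh : Nat) : Nat := Bool.rec (Nat.shiftRight leaf1955 sh) (s1956_1958 i sh) (Nat.ble 1956 i)
noncomputable def s1958_1960 (i sh : Nat) : Nat := Bool.rec (Nat.shiftRight leaf1958 sh) (Nat.shiftRight leaf1959 sh) (Nat.ble 1959 i)
noncomputable def s1955_1960 (i sh : Nat) : Nat := Bool.rec (s1955_1958 i sh) (s1958_1960 i sh) (Nat.ble 1958 i)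
noncomputable def s1960_1962 (i sh : Nat) : Nat := Bool.rec (Nat.shiftRight leaf1960 sh) (Nat.shiftRight leaf1961 sh) (Nat.ble 1961 i)
noncomputable def s1960_1963 (i sh : Nat) : Nat := Bool.rec (s1960_1962 i sh) (Nat.shiftRight leaf1962 sh) (Nat.ble 1962 i)
noncomputable def s1963_1965 (i sh : Nat) : Nat := Bool.rec (Nat.shiftRight leaf1963 sh) (Nat.shiftRight leaf1964 sh) (Nat.ble 1964 i)
noncomputable def s1960_1965 (i sh : Nat) : Nat := Bool.rec (s1960_1963 i sh) (s1963_1965 i sh) (Nat.ble 1963 i)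
noncomputable def s1955_1965 (i sh : Nat) : Nat := Bool.rec (s1955_1960 i sh) (s1960_1965 i sh) (Nat.ble 1960 i)
noncomputable def s1949_1965 (i sh : Nat) : Nat := Bool.rec (s1949_1955 i sh) (s1955_1965 i sh) (Nat.ble 1955 i)
noncomputable def s1966_1968 (i sh : Nat) : Nat := Bool.rec (Nat.shiftRight leaf1966 sh) (Nat.shiftRight leaf1967 sh) (Nat.ble 1967 i)
noncomputable def s1965_1968 (i sh : Nat) : Nat := Bool.rec (Nat.shiftRight leaf1965 sh) (s1966_1968 i sh) (Nat.ble 1966 i)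
noncomputable def s1968_1970 (i sh : Nat) : Nat := Bool.rec (Nat.shiftRight leaf1968 sh) (Nat.shiftRight leaf1969 sh) (Nat.ble 1969 i)
noncomputable def s1968_1971 (i sh : Nat) : Nat := Bool.rec (s1968_1970 i sh) (Nat.shiftRight leaf1970 sh) (Nat.ble 1970 i)
noncomputable def s1965_1971 (i sh : Nat) : Nat := Bool.rec (s1965_1968 i sh) (s1968_1971 i sh) (Nat.ble 1968 i)
noncomputable def s1965_1972 (i sh : Nat) : Nat := Bool.rec (s1965_1971 i sh) (Nat.shiftRight leaf1971 sh) (Nat.ble 1971 i)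
noncomputable def s1949_1972 (i sh : Nat) : Nat := Bool.rec (s1949_1965 i sh) (s1965_1972 i sh) (Nat.ble 1965 i)
noncomputable def s1931_1972 (i sh : Nat) : Nat := Bool.rec (s1931_1949 i sh) (s1949_1972 i sh) (Nat.ble 1949 i)
noncomputable def s1881_1972 (i sh : Nat) : Nat := Bool.rec (s1881_1931 i sh) (s1931_1972 i sh) (Nat.ble 1931 i)
noncomputable def s1973_1975 (i sh : Nat) : Nat := Bool.rec (Nat.shiftRight leaf1973 sh) (Nat.shiftRight leaf1974 sh) (Nat.ble 1974 i)
noncomputable def s1972_1975 (i sh : Nat) : Nat := Bool.rec (Nat.shiftRight leaf1972 sh) (s1973_1975 i sh) (Nat.ble 1973 i)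
noncomputable def s1975_1977 (i sh : Nat) : Nat := Bool.rec (Nat.shiftRight leaf1975 sh) (Nat.shiftRight leaf1976 sh) (Nat.ble 1976 i)
noncomputable def s1972_1977 (i sh : Nat) : Nat := Bool.rec (s1972_1975 i sh) (s1975_1977 i sh) (Nat.ble 1975 i)
noncomputable def s1978_1980 (i sh : Nat) : Nat := Bool.rec (Nat.shiftRight leaf1978 sh) (Nat.shiftRight leaf1979 sh) (Nat.ble 1979 i)
noncomputable def s1977_1980 (i sh : Nat) : Nat := Bool.rec (Nat.shiftRight leaf1977 sh) (s1978_1980 i sh) (Nat.ble 1978 i)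
noncomputable def s1977_1981 (i sh : Nat) : Nat := Bool.rec (s1977_1980 i sh) (Nat.shiftRight leaf1980 sh) (Nat.ble 1980 i)
noncomputable def s1972_1981 (i sh : Nat) : Nat := Bool.rec (s1972_1977 i sh) (s1977_1981 i sh) (Nat.ble 1977 i)
noncomputable def s1981_1983 (i sh : Nat) : Nat := Bool.rec (Nat.shiftRight leaf1981 sh) (Nat.shiftRight leaf1982 sh) (Nat.ble 1982 i)
noncomputable def s1981_1984 (i sh : Nat) : Nat := Bool.rec (s1981_1983 i sh) (Nat.shiftRight leaf1983 sh) (Nat.ble 1983 i)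
noncomputable def s1972_1984 (i sh : Nat) : Nat := Bool.rec (s1972_1981 i sh) (s1981_1984 i sh) (Nat.ble 1981 i)
noncomputable def s1984_1986 (i sh : Nat) : Nat := Bool.rec (Nat.shiftRight leaf1984 sh) (Nat.shiftRight leaf1985 sh) (Nat.ble 1985 i)
noncomputable def s1984_1987 (i sh : Nat) : Nat := Bool.rec (s1984_1986 i sh) (Nat.shiftRight leaf1986 sh) (Nat.ble 1986 i)
noncomputable def s1987_1989 (i sh : Nat) : Nat := Bool.rec (Nat.shiftRight leaf1987 sh) (Nat.shiftRight leaf1988 sh) (Nat.ble 1988 i)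
noncomputable def s1984_1989 (i sh : Nat) : Nat := Bool.rec (s1984_1987 i sh) (s1987_1989 i sh) (Nat.ble 1987 i)
noncomputable def s1989_1991 (i sh : Nat) : Nat := Bool.rec (Nat.shiftRight leaf1989 sh) (Nat.shiftRight leaf1990 sh) (Nat.ble 1990 i)
noncomputable def s1991_1993 (i sh : Nat) : Nat := Bool.rec (Nat.shiftRight leaf1991 sh) (Nat.shiftRight leaf1992 sh) (Nat.ble 1992 i)
noncomputable def s1991_1994 (i sh : Nat) : Nat := Bool.rec (s1991_1993 i sh) (Nat.shiftRight leaf1993 sh) (Nat.ble 1993 i)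
noncomputable def s1989_1994 (i sh : Nat) : Nat := Bool.rec (s1989_1991 i sh) (s1991_1994 i sh) (Nat.ble 1991 i)
noncomputable def s1994_1996 (i sh : Nat) : Nat := Bool.rec (Nat.shiftRight leaf1994 sh) (Nat.shiftRight leaf1995 sh) (Nat.ble 1995 i)
noncomputable def s1996_1998 (i sh : Nat) : Nat := Bool.rec (Nat.shiftRight leaf1996 sh) (Nat.shiftRight leaf1997 sh) (Nat.ble 1997 i)
noncomputable def s1994_1998 (i sh : Nat) : Nat := Bool.rec (s1994_1996 i sh) (s1996_1998 i sh) (Nat.ble 1996 i)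
noncomputable def s1999_2001 (i sh : Nat) : Nat := Bool.rec (Nat.shiftRight leaf1999 sh) (Nat.shiftRight leaf2000 sh) (Nat.ble 2000 i)
noncomputable def s1998_2001 (i sh : Nat) : Nat := Bool.rec (Nat.shiftRight leaf1998 sh) (s1999_2001 i sh) (Nat.ble 1999 i)
noncomputable def s1994_2001 (i sh : Nat) : Nat := Bool.rec (s1994_1998 i sh) (s1998_2001 i sh) (Nat.ble 1998 i)
noncomputable def s1989_2001 (i sh : Nat) : Nat := Bool.rec (s1989_1994 i sh) (s1994_2001 i sh) (Nat.ble 1994 i)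
noncomputable def s1984_2001 (i sh : Nat) : Nat := Bool.rec (s1984_1989 i sh) (s1989_2001 i sh) (Nat.ble 1989 i)
noncomputable def s1972_2001 (i sh : Nat) : Nat := Bool.rec (s1972_1984 i sh) (s1984_2001 i sh) (Nat.ble 1984 i)
noncomputable def s2002_2004 (i sh : Nat) : Nat := Bool.rec (Nat.shiftRight leaf2002 sh) (Nat.shiftRight leaf2003 sh) (Nat.ble 2003 i)
noncomputable def s2001_2004 (i sh : Nat) : Nat := Bool.rec (Nat.shiftRight leaf2001 sh) (s2002_2004 i sh) (Nat.ble 2002 i)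
noncomputable def s2005_2007 (i sh : Nat) : Nat := Bool.rec (Nat.shiftRight leaf2005 sh) (Nat.shiftRight leaf2006 sh) (Nat.ble 2006 i)
noncomputable def s2004_2007 (i sh : Nat) : Nat := Bool.rec (Nat.shiftRight leaf2004 sh) (s2005_2007 i sh) (Nat.ble 2005 i)
noncomputable def s2001_2007 (i sh : Nat) : Nat := Bool.rec (s2001_2004 i sh) (s2004_2007 i sh) (Nat.ble 2004 i)
noncomputable def s2007_2009 (i sh : Nat) : Nat := Bool.rec (Nat.shiftRight leaf2007 sh) (Nat.shiftRight leaf2008 sh) (Nat.ble 2008 i)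
noncomputable def s2011_2013 (i sh : Nat) : Nat := Bool.rec (Nat.shiftRight leaf2011 sh) (Nat.shiftRight leaf2012 sh) (Nat.ble 2012 i)
noncomputable def s2010_2013 (i sh : Nat) : Nat := Bool.rec (Nat.shiftRight leaf2010 sh) (s2011_2013 i sh) (Nat.ble 2011 i)
noncomputable def s2009_2013 (i sh : Nat) : Nat := Bool.rec (Nat.shiftRight leaf2009 sh) (s2010_2013 i sh) (Nat.ble 2010 i)
noncomputable def s2007_2013 (i sh : Nat) : Nat := Bool.rec (s2007_2009 i sh) (s2009_2013 i sh) (Nat.ble 2009 i)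
noncomputable def s2001_2013 (i sh : Nat) : Nat := Bool.rec (s2001_2007 i sh) (s2007_2013 i sh) (Nat.ble 2007 i)
noncomputable def s2013_2015 (i sh : Nat) : Nat := Bool.rec (Nat.shiftRight leaf2013 sh) (Nat.shiftRight leaf2014 sh) (Nat.ble 2014 i)
noncomputable def s2015_2017 (i sh : Nat) : Nat := Bool.rec (Nat.shiftRight leaf2015 sh) (Nat.shiftRight leaf2016 sh) (Nat.ble 2016 i)
noncomputable def s2017_2019 (i sh : Nat) : Nat := Bool.rec (Nat.shiftRight leaf2017 sh) (Nat.shiftRight leaf2018 sh) (Nat.ble 2018 i)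
noncomputable def s2015_2019 (i sh : Nat) : Nat := Bool.rec (s2015_2017 i sh) (s2017_2019 i sh) (Nat.ble 2017 i)
noncomputable def s2013_2019 (i sh : Nat) : Nat := Bool.rec (s2013_2015 i sh) (s2015_2019 i sh) (Nat.ble 2015 i)
noncomputable def s2019_2021 (i sh : Nat) : Nat := Bool.rec (Nat.shiftRight leaf2019 sh) (Nat.shiftRight leaf2020 sh) (Nat.ble 2020 i)
noncomputable def s2013_2021 (i sh : Nat) : Nat := Bool.rec (s2013_2019 i sh) (s2019_2021 i sh) (Nat.ble 2019 i)
noncomputable def s2001_2021 (i sh : Nat) : Nat := Bool.rec (s2001_2013 i sh) (s2013_2021 i sh) (Nat.ble 2013 i)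
noncomputable def s2021_2023 (i sh : Nat) : Nat := Bool.rec (Nat.shiftRight leaf2021 sh) (Nat.shiftRight leaf2022 sh) (Nat.ble 2022 i)
noncomputable def s2023_2025 (i sh : Nat) : Nat := Bool.rec (Nat.shiftRight leaf2023 sh) (Nat.shiftRight leaf2024 sh) (Nat.ble 2024 i)
noncomputable def s2025_2027 (i sh : Nat) : Nat := Bool.rec (Nat.shiftRight leaf2025 sh) (Nat.shiftRight leaf2026 sh) (Nat.ble 2026 i)
noncomputable def s2027_2029 (i sh : Nat) : Nat := Bool.rec (Nat.shiftRight leaf2027 sh) (Nat.shiftRight leaf2028 sh) (Nat.ble 2028 i)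
noncomputable def s2025_2029 (i sh : Nat) : Nat := Bool.rec (s2025_2027 i sh) (s2027_2029 i sh) (Nat.ble 2027 i)
noncomputable def s2023_2029 (i sh : Nat) : Nat := Bool.rec (s2023_2025 i sh) (s2025_2029 i sh) (Nat.ble 2025 i)
noncomputable def s2030_2032 (i sh : Nat) : Nat := Bool.rec (Nat.shiftRight leaf2030 sh) (Nat.shiftRight leaf2031 sh) (Nat.ble 2031 i)
noncomputable def s2029_2032 (i sh : Nat) : Nat := Bool.rec (Nat.shiftRight leaf2029 sh) (s2030_2032 i sh) (Nat.ble 2030 i)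
noncomputable def s2032_2034 (i sh : Nat) : Nat := Bool.rec (Nat.shiftRight leaf2032 sh) (Nat.shiftRight leaf2033 sh) (Nat.ble 2033 i)
noncomputable def s2034_2036 (i sh : Nat) : Nat := Bool.rec (Nat.shiftRight leaf2034 sh) (Nat.shiftRight leaf2035 sh) (Nat.ble 2035 i)
noncomputable def s2032_2036 (i sh : Nat) : Nat := Bool.rec (s2032_2034 i sh) (s2034_2036 i sh) (Nat.ble 2034 i)
noncomputable def s2029_2036 (i sh : Nat) : Nat := Bool.rec (s2029_2032 i sh) (s2032_2036 i sh) (Nat.ble 2032 i)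
noncomputable def s2023_2036 (i sh : Nat) : Nat := Bool.rec (s2023_2029 i sh) (s2029_2036 i sh) (Nat.ble 2029 i)
noncomputable def s2036_2038 (i sh : Nat) : Nat := Bool.rec (Nat.shiftRight leaf2036 sh) (Nat.shiftRight leaf2037 sh) (Nat.ble 2037 i)
noncomputable def s2036_2039 (i sh : Nat) : Nat := Bool.rec (s2036_2038 i sh) (Nat.shiftRight leaf2038 sh) (Nat.ble 2038 i)
noncomputable def s2039_2041 (i sh : Nat) : Nat := Bool.rec (Nat.shiftRight leaf2039 sh) (Nat.shiftRight leaf2040 sh) (Nat.ble 2040 i)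
noncomputable def s2041_2043 (i sh : Nat) : Nat := Bool.rec (Nat.shiftRight leaf2041 sh) (Nat.shiftRight leaf2042 sh) (Nat.ble 2042 i)
noncomputable def s2039_2043 (i sh : Nat) : Nat := Bool.rec (s2039_2041 i sh) (s2041_2043 i sh) (Nat.ble 2041 i)
noncomputable def s2036_2043 (i sh : Nat) : Nat := Bool.rec (s2036_2039 i sh) (s2039_2043 i sh) (Nat.ble 2039 i)
noncomputable def s2044_2046 (i sh : Nat) : Nat := Bool.rec (Nat.shiftRight leaf2044 sh) (Nat.shiftRight leaf2045 sh) (Nat.ble 2045 i)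
noncomputable def s2043_2046 (i sh : Nat) : Nat := Bool.rec (Nat.shiftRight leaf2043 sh) (s2044_2046 i sh) (Nat.ble 2044 i)
noncomputable def s2036_2046 (i sh : Nat) : Nat := Bool.rec (s2036_2043 i sh) (s2043_2046 i sh) (Nat.ble 2043 i)
noncomputable def s2023_2046 (i sh : Nat) : Nat := Bool.rec (s2023_2036 i sh) (s2036_2046 i sh) (Nat.ble 2036 i)
noncomputable def s2021_2046 (i sh : Nat) : Nat := Bool.rec (s2021_2023 i sh) (s2023_2046 i sh) (Nat.ble 2023 i)
noncomputable def s2001_2046 (i sh : Nat) : Nat := Bool.rec (s2001_2021 i sh) (s2021_2046 i sh) (Nat.ble 2021 i)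
noncomputable def s1972_2046 (i sh : Nat) : Nat := Bool.rec (s1972_2001 i sh) (s2001_2046 i sh) (Nat.ble 2001 i)
noncomputable def s2046_2048 (i sh : Nat) : Nat := Bool.rec (Nat.shiftRight leaf2046 sh) (Nat.shiftRight leaf2047 sh) (Nat.ble 2047 i)
noncomputable def s2048_2050 (i sh : Nat) : Nat := Bool.rec (Nat.shiftRight leaf2048 sh) (Nat.shiftRight leaf2049 sh) (Nat.ble 2049 i)
noncomputable def s2048_2051 (i sh : Nat) : Nat := Bool.rec (s2048_2050 i sh) (Nat.shiftRight leaf2050 sh) (Nat.ble 2050 i)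
noncomputable def s2051_2053 (i sh : Nat) : Nat := Bool.rec (Nat.shiftRight leaf2051 sh) (Nat.shiftRight leaf2052 sh) (Nat.ble 2052 i)
noncomputable def s2048_2053 (i sh : Nat) : Nat := Bool.rec (s2048_2051 i sh) (s2051_2053 i sh) (Nat.ble 2051 i)
noncomputable def s2046_2053 (i sh : Nat) : Nat := Bool.rec (s2046_2048 i sh) (s2048_2053 i sh) (Nat.ble 2048 i)
noncomputable def s2053_2055 (i sh : Nat) : Nat := Bool.rec (Nat.shiftRight leaf2053 sh) (Nat.shiftRight leaf2054 sh) (Nat.ble 2054 i)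
noncomputable def s2053_2056 (i sh : Nat) : Nat := Bool.rec (s2053_2055 i sh) (Nat.shiftRight leaf2055 sh) (Nat.ble 2055 i)
noncomputable def s2046_2056 (i sh : Nat) : Nat := Bool.rec (s2046_2053 i sh) (s2053_2056 i sh) (Nat.ble 2053 i)
noncomputable def s2056_2058 (i sh : Nat) : Nat := Bool.rec (Nat.shiftRight leaf2056 sh) (Nat.shiftRight leaf2057 sh) (Nat.ble 2057 i)
noncomputable def s2058_2060 (i sh : Nat) : Nat := Bool.rec (Nat.shiftRight leaf2058 sh) (Nat.shiftRight leaf2059 sh) (Nat.ble 2059 i)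
noncomputable def s2060_2062 (i sh : Nat) : Nat := Bool.rec (Nat.shiftRight leaf2060 sh) (Nat.shiftRight leaf2061 sh) (Nat.ble 2061 i)
noncomputable def s2058_2062 (i sh : Nat) : Nat := Bool.rec (s2058_2060 i sh) (s2060_2062 i sh) (Nat.ble 2060 i)
noncomputable def s2056_2062 (i sh : Nat) : Nat := Bool.rec (s2056_2058 i sh) (s2058_2062 i sh) (Nat.ble 2058 i)
noncomputable def s2062_2064 (i sh : Nat) : Nat := Bool.rec (Nat.shiftRight leaf2062 sh) (Nat.shiftRight leaf2063 sh) (Nat.ble 2063 i)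
noncomputable def s2065_2067 (i sh : Nat) : Nat := Bool.rec (Nat.shiftRight leaf2065 sh) (Nat.shiftRight leaf2066 sh) (Nat.ble 2066 i)
noncomputable def s2064_2067 (i sh : Nat) : Nat := Bool.rec (Nat.shiftRight leaf2064 sh) (s2065_2067 i sh) (Nat.ble 2065 i)
noncomputable def s2062_2067 (i sh : Nat) : Nat := Bool.rec (s2062_2064 i sh) (s2064_2067 i sh) (Nat.ble 2064 i)
noncomputable def s2056_2067 (i sh : Nat) : Nat := Bool.rec (s2056_2062 i sh) (s2062_2067 i sh) (Nat.ble 2062 i)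
noncomputable def s2067_2069 (i sh : Nat) : Nat := Bool.rec (Nat.shiftRight leaf2067 sh) (Nat.shiftRight leaf2068 sh) (Nat.ble 2068 i)
noncomputable def s2070_2072 (i sh : Nat) : Nat := Bool.rec (Nat.shiftRight leaf2070 sh) (Nat.shiftRight leaf2071 sh) (Nat.ble 2071 i)
noncomputable def s2069_2072 (i sh : Nat) : Nat := Bool.rec (Nat.shiftRight leaf2069 sh) (s2070_2072 i sh) (Nat.ble 2070 i)
noncomputable def s2067_2072 (i sh : Nat) : Nat := Bool.rec (s2067_2069 i sh) (s2069_2072 i sh) (Nat.ble 2069 i)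
noncomputable def s2073_2075 (i sh : Nat) : Nat := Bool.rec (Nat.shiftRight leaf2073 sh) (Nat.shiftRight leaf2074 sh) (Nat.ble 2074 i)
noncomputable def s2072_2075 (i sh : Nat) : Nat := Bool.rec (Nat.shiftRight leaf2072 sh) (s2073_2075 i sh) (Nat.ble 2073 i)
noncomputable def s2075_2077 (i sh : Nat) : Nat := Bool.rec (Nat.shiftRight leaf2075 sh) (Nat.shiftRight leaf2076 sh) (Nat.ble 2076 i)
noncomputable def s2077_2079 (i sh : Nat) : Nat := Bool.rec (Nat.shiftRight leaf2077 sh) (Nat.shiftRight leaf2078 sh) (Nat.ble 2078 i)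
noncomputable def s2075_2079 (i sh : Nat) : Nat := Bool.rec (s2075_2077 i sh) (s2077_2079 i sh) (Nat.ble 2077 i)
noncomputable def s2072_2079 (i sh : Nat) : Nat := Bool.rec (s2072_2075 i sh) (s2075_2079 i sh) (Nat.ble 2075 i)
noncomputable def s2067_2079 (i sh : Nat) : Nat := Bool.rec (s2067_2072 i sh) (s2072_2079 i sh) (Nat.ble 2072 i)
noncomputable def s2056_2079 (i sh : Nat) : Nat := Bool.rec (s2056_2067 i sh) (s2067_2079 i sh) (Nat.ble 2067 i)
noncomputable def s2046_2079 (i sh : Nat) : Nat := Bool.rec (s2046_2056 i sh) (s2056_2079 i sh) (Nat.ble 2056 i)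
noncomputable def s2079_2081 (i sh : Nat) : Nat := Bool.rec (Nat.shiftRight leaf2079 sh) (Nat.shiftRight leaf2080 sh) (Nat.ble 2080 i)
noncomputable def s2079_2082 (i sh : Nat) : Nat := Bool.rec (s2079_2081 i sh) (Nat.shiftRight leaf2081 sh) (Nat.ble 2081 i)
noncomputable def s2082_2084 (i sh : Nat) : Nat := Bool.rec (Nat.shiftRight leaf2082 sh) (Nat.shiftRight leaf2083 sh) (Nat.ble 2083 i)
noncomputable def s2079_2084 (i sh : Nat) : Nat := Bool.rec (s2079_2082 i sh) (s2082_2084 i sh) (Nat.ble 2082 i)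
noncomputable def s2084_2086 (i sh : Nat) : Nat := Bool.rec (Nat.shiftRight leaf2084 sh) (Nat.shiftRight leaf2085 sh) (Nat.ble 2085 i)
noncomputable def s2084_2087 (i sh : Nat) : Nat := Bool.rec (s2084_2086 i sh) (Nat.shiftRight leaf2086 sh) (Nat.ble 2086 i)
noncomputable def s2079_2087 (i sh : Nat) : Nat := Bool.rec (s2079_2084 i sh) (s2084_2087 i sh) (Nat.ble 2084 i)
noncomputable def s2087_2089 (i sh : Nat) : Nat := Bool.rec (Nat.shiftRight leaf2087 sh) (Nat.shiftRight leaf2088 sh) (Nat.ble 2088 i)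
noncomputable def s2087_2090 (i sh : Nat) : Nat := Bool.rec (s2087_2089 i sh) (Nat.shiftRight leaf2089 sh) (Nat.ble 2089 i)
noncomputable def s2090_2092 (i sh : Nat) : Nat := Bool.rec (Nat.shiftRight leaf2090 sh) (Nat.shiftRight leaf2091 sh) (Nat.ble 2091 i)
noncomputable def s2090_2093 (i sh : Nat) : Nat := Bool.rec (s2090_2092 i sh) (Nat.shiftRight leaf2092 sh) (Nat.ble 2092 i)
noncomputable def s2087_2093 (i sh : Nat) : Nat := Bool.rec (s2087_2090 i sh) (s2090_2093 i sh) (Nat.ble 2090 i)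
noncomputable def s2093_2095 (i sh : Nat) : Nat := Bool.rec (Nat.shiftRight leaf2093 sh) (Nat.shiftRight leaf2094 sh) (Nat.ble 2094 i)
noncomputable def s2095_2097 (i sh : Nat) : Nat := Bool.rec (Nat.shiftRight leaf2095 sh) (Nat.shiftRight leaf2096 sh) (Nat.ble 2096 i)
noncomputable def s2093_2097 (i sh : Nat) : Nat := Bool.rec (s2093_2095 i sh) (s2095_2097 i sh) (Nat.ble 2095 i)
noncomputable def s2087_2097 (i sh : Nat) : Nat := Bool.rec (s2087_2093 i sh) (s2093_2097 i sh) (Nat.ble 2093 i)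
noncomputable def s2079_2097 (i sh : Nat) : Nat := Bool.rec (s2079_2087 i sh) (s2087_2097 i sh) (Nat.ble 2087 i)
noncomputable def s2097_2099 (i sh : Nat) : Nat := Bool.rec (Nat.shiftRight leaf2097 sh) (Nat.shiftRight leaf2098 sh) (Nat.ble 2098 i)
noncomputable def s2099_2101 (i sh : Nat) : Nat := Bool.rec (Nat.shiftRight leaf2099 sh) (Nat.shiftRight leaf2100 sh) (Nat.ble 2100 i)
noncomputable def s2097_2101 (i sh : Nat) : Nat := Bool.rec (s2097_2099 i sh) (s2099_2101 i sh) (Nat.ble 2099 i)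
noncomputable def s2097_2102 (i sh : Nat) : Nat := Bool.rec (s2097_2101 i sh) (Nat.shiftRight leaf2101 sh) (Nat.ble 2101 i)
noncomputable def s2102_2104 (i sh : Nat) : Nat := Bool.rec (Nat.shiftRight leaf2102 sh) (Nat.shiftRight leaf2103 sh) (Nat.ble 2103 i)
noncomputable def s2102_2105 (i sh : Nat) : Nat := Bool.rec (s2102_2104 i sh) (Nat.shiftRight leaf2104 sh) (Nat.ble 2104 i)
noncomputable def s2105_2107 (i sh : Nat) : Nat := Bool.rec (Nat.shiftRight leaf2105 sh) (Nat.shiftRight leaf2106 sh) (Nat.ble 2106 i)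
noncomputable def s2102_2107 (i sh : Nat) : Nat := Bool.rec (s2102_2105 i sh) (s2105_2107 i sh) (Nat.ble 2105 i)
noncomputable def s2102_2108 (i sh : Nat) : Nat := Bool.rec (s2102_2107 i sh) (Nat.shiftRight leaf2107 sh) (Nat.ble 2107 i)
noncomputable def s2097_2108 (i sh : Nat) : Nat := Bool.rec (s2097_2102 i sh) (s2102_2108 i sh) (Nat.ble 2102 i)
noncomputable def s2079_2108 (i sh : Nat) : Nat := Bool.rec (s2079_2097 i sh) (s2097_2108 i sh) (Nat.ble 2097 i)
noncomputable def s2110_2112 (i sh : Nat) : Nat := Bool.rec (Nat.shiftRight leaf2110 sh) (Nat.shiftRight leaf2111 sh) (Nat.ble 2111 i)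
noncomputable def s2109_2112 (i sh : Nat) : Nat := Bool.rec (Nat.shiftRight leaf2109 sh) (s2110_2112 i sh) (Nat.ble 2110 i)
noncomputable def s2108_2112 (i sh : Nat) : Nat := Bool.rec (Nat.shiftRight leaf2108 sh) (s2109_2112 i sh) (Nat.ble 2109 i)
noncomputable def s2112_2114 (i sh : Nat) : Nat := Bool.rec (Nat.shiftRight leaf2112 sh) (Nat.shiftRight leaf2113 sh) (Nat.ble 2113 i)
noncomputable def s2112_2115 (i sh : Nat) : Nat := Bool.rec (s2112_2114 i sh) (Nat.shiftRight leaf2114 sh) (Nat.ble 2114 i)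
noncomputable def s2115_2117 (i sh : Nat) : Nat := Bool.rec (Nat.shiftRight leaf2115 sh) (Nat.shiftRight leaf2116 sh) (Nat.ble 2116 i)
noncomputable def s2112_2117 (i sh : Nat) : Nat := Bool.rec (s2112_2115 i sh) (s2115_2117 i sh) (Nat.ble 2115 i)
noncomputable def s2108_2117 (i sh : Nat) : Nat := Bool.rec (s2108_2112 i sh) (s2112_2117 i sh) (Nat.ble 2112 i)
noncomputable def s2117_2119 (i sh : Nat) : Nat := Bool.rec (Nat.shiftRight leaf2117 sh) (Nat.shiftRight leaf2118 sh) (Nat.ble 2118 i)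
noncomputable def s2117_2120 (i sh : Nat) : Nat := Bool.rec (s2117_2119 i sh) (Nat.shiftRight leaf2119 sh) (Nat.ble 2119 i)
noncomputable def s2120_2122 (i sh : Nat) : Nat := Bool.rec (Nat.shiftRight leaf2120 sh) (Nat.shiftRight leaf2121 sh) (Nat.ble 2121 i)
noncomputable def s2117_2122 (i sh : Nat) : Nat := Bool.rec (s2117_2120 i sh) (s2120_2122 i sh) (Nat.ble 2120 i)
noncomputable def s2123_2125 (i sh : Nat) : Nat := Bool.rec (Nat.shiftRight leaf2123 sh) (Nat.shiftRight leaf2124 sh) (Nat.ble 2124 i)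
noncomputable def s2122_2125 (i sh : Nat) : Nat := Bool.rec (Nat.shiftRight leaf2122 sh) (s2123_2125 i sh) (Nat.ble 2123 i)
noncomputable def s2125_2127 (i sh : Nat) : Nat := Bool.rec (Nat.shiftRight leaf2125 sh) (Nat.shiftRight leaf2126 sh) (Nat.ble 2126 i)
noncomputable def s2122_2127 (i sh : Nat) : Nat := Bool.rec (s2122_2125 i sh) (s2125_2127 i sh) (Nat.ble 2125 i)
noncomputable def s2117_2127 (i sh : Nat) : Nat := Bool.rec (s2117_2122 i sh) (s2122_2127 i sh) (Nat.ble 2122 i)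
noncomputable def s2108_2127 (i sh : Nat) : Nat := Bool.rec (s2108_2117 i sh) (s2117_2127 i sh) (Nat.ble 2117 i)
noncomputable def s2079_2127 (i sh : Nat) : Nat := Bool.rec (s2079_2108 i sh) (s2108_2127 i sh) (Nat.ble 2108 i)
noncomputable def s2046_2127 (i sh : Nat) : Nat := Bool.rec (s2046_2079 i sh) (s2079_2127 i sh) (Nat.ble 2079 i)
noncomputable def s1972_2127 (i sh : Nat) : Nat := Bool.rec (s1972_2046 i sh) (s2046_2127 i sh) (Nat.ble 2046 i)
noncomputable def s1881_2127 (i sh : Nat) : Nat := Bool.rec (s1881_1972 i sh) (s1972_2127 i sh) (Nat.ble 1972 i)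
noncomputable def s2127_2129 (i sh : Nat) : Nat := Bool.rec (Nat.shiftRight leaf2127 sh) (Nat.shiftRight leaf2128 sh) (Nat.ble 2128 i)
noncomputable def s2127_2130 (i sh : Nat) : Nat := Bool.rec (s2127_2129 i sh) (Nat.shiftRight leaf2129 sh) (Nat.ble 2129 i)
noncomputable def s2131_2133 (i sh : Nat) : Nat := Bool.rec (Nat.shiftRight leaf2131 sh) (Nat.shiftRight leaf2132 sh) (Nat.ble 2132 i)
noncomputable def s2130_2133 (i sh : Nat) : Nat := Bool.rec (Nat.shiftRight leaf2130 sh) (s2131_2133 i sh) (Nat.ble 2131 i)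
noncomputable def s2127_2133 (i sh : Nat) : Nat := Bool.rec (s2127_2130 i sh) (s2130_2133 i sh) (Nat.ble 2130 i)
noncomputable def s2133_2135 (i sh : Nat) : Nat := Bool.rec (Nat.shiftRight leaf2133 sh) (Nat.shiftRight leaf2134 sh) (Nat.ble 2134 i)
noncomputable def s2135_2137 (i sh : Nat) : Nat := Bool.rec (Nat.shiftRight leaf2135 sh) (Nat.shiftRight leaf2136 sh) (Nat.ble 2136 i)
noncomputable def s2137_2139 (i sh : Nat) : Nat := Bool.rec (Nat.shiftRight leaf2137 sh) (Nat.shiftRight leaf2138 sh) (Nat.ble 2138 i)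
noncomputable def s2139_2141 (i sh : Nat) : Nat := Bool.rec (Nat.shiftRight leaf2139 sh) (Nat.shiftRight leaf2140 sh) (Nat.ble 2140 i)
noncomputable def s2137_2141 (i sh : Nat) : Nat := Bool.rec (s2137_2139 i sh) (s2139_2141 i sh) (Nat.ble 2139 i)
noncomputable def s2135_2141 (i sh : Nat) : Nat := Bool.rec (s2135_2137 i sh) (s2137_2141 i sh) (Nat.ble 2137 i)
noncomputable def s2133_2141 (i sh : Nat) : Nat := Bool.rec (s2133_2135 i sh) (s2135_2141 i sh) (Nat.ble 2135 i)
noncomputable def s2127_2141 (i sh : Nat) : Nat := Bool.rec (s2127_2133 i sh) (s2133_2141 i sh) (Nat.ble 2133 i)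
noncomputable def s2142_2144 (i sh : Nat) : Nat := Bool.rec (Nat.shiftRight leaf2142 sh) (Nat.shiftRight leaf2143 sh) (Nat.ble 2143 i)
noncomputable def s2141_2144 (i sh : Nat) : Nat := Bool.rec (Nat.shiftRight leaf2141 sh) (s2142_2144 i sh) (Nat.ble 2142 i)
noncomputable def s2144_2146 (i sh : Nat) : Nat := Bool.rec (Nat.shiftRight leaf2144 sh) (Nat.shiftRight leaf2145 sh) (Nat.ble 2145 i)
noncomputable def s2144_2147 (i sh : Nat) : Nat := Bool.rec (s2144_2146 i sh) (Nat.shiftRight leaf2146 sh) (Nat.ble 2146 i)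
noncomputable def s2141_2147 (i sh : Nat) : Nat := Bool.rec (s2141_2144 i sh) (s2144_2147 i sh) (Nat.ble 2144 i)
noncomputable def s2141_2148 (i sh : Nat) : Nat := Bool.rec (s2141_2147 i sh) (Nat.shiftRight leaf2147 sh) (Nat.ble 2147 i)
noncomputable def s2148_2150 (i sh : Nat) : Nat := Bool.rec (Nat.shiftRight leaf2148 sh) (Nat.shiftRight leaf2149 sh) (Nat.ble 2149 i)
noncomputable def s2150_2152 (i sh : Nat) : Nat := Bool.rec (Nat.shiftRight leaf2150 sh) (Nat.shiftRight leaf2151 sh) (Nat.ble 2151 i)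
noncomputable def s2148_2152 (i sh : Nat) : Nat := Bool.rec (s2148_2150 i sh) (s2150_2152 i sh) (Nat.ble 2150 i)
noncomputable def s2152_2154 (i sh : Nat) : Nat := Bool.rec (Nat.shiftRight leaf2152 sh) (Nat.shiftRight leaf2153 sh) (Nat.ble 2153 i)
noncomputable def s2154_2156 (i sh : Nat) : Nat := Bool.rec (Nat.shiftRight leaf2154 sh) (Nat.shiftRight leaf2155 sh) (Nat.ble 2155 i)
noncomputable def s2152_2156 (i sh : Nat) : Nat := Bool.rec (s2152_2154 i sh) (s2154_2156 i sh) (Nat.ble 2154 i)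
noncomputable def s2148_2156 (i sh : Nat) : Nat := Bool.rec (s2148_2152 i sh) (s2152_2156 i sh) (Nat.ble 2152 i)
noncomputable def s2141_2156 (i sh : Nat) : Nat := Bool.rec (s2141_2148 i sh) (s2148_2156 i sh) (Nat.ble 2148 i)
noncomputable def s2127_2156 (i sh : Nat) : Nat := Bool.rec (s2127_2141 i sh) (s2141_2156 i sh) (Nat.ble 2141 i)
noncomputable def s2156_2158 (i sh : Nat) : Nat := Bool.rec (Nat.shiftRight leaf2156 sh) (Nat.shiftRight leaf2157 sh) (Nat.ble 2157 i)
noncomputable def s2158_2160 (i sh : Nat) : Nat := Bool.rec (Nat.shiftRight leaf2158 sh) (Nat.shiftRight leaf2159 sh) (Nat.ble 2159 i)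
noncomputable def s2160_2162 (i sh : Nat) : Nat := Bool.rec (Nat.shiftRight leaf2160 sh) (Nat.shiftRight leaf2161 sh) (Nat.ble 2161 i)
noncomputable def s2160_2163 (i sh : Nat) : Nat := Bool.rec (s2160_2162 i sh) (Nat.shiftRight leaf2162 sh) (Nat.ble 2162 i)
noncomputable def s2158_2163 (i sh : Nat) : Nat := Bool.rec (s2158_2160 i sh) (s2160_2163 i sh) (Nat.ble 2160 i)
noncomputable def s2156_2163 (i sh : Nat) : Nat := Bool.rec (s2156_2158 i sh) (s2158_2163 i sh) (Nat.ble 2158 i)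
noncomputable def s2164_2166 (i sh : Nat) : Nat := Bool.rec (Nat.shiftRight leaf2164 sh) (Nat.shiftRight leaf2165 sh) (Nat.ble 2165 i)
noncomputable def s2163_2166 (i sh : Nat) : Nat := Bool.rec (Nat.shiftRight leaf2163 sh) (s2164_2166 i sh) (Nat.ble 2164 i)
noncomputable def s2166_2168 (i sh : Nat) : Nat := Bool.rec (Nat.shiftRight leaf2166 sh) (Nat.shiftRight leaf2167 sh) (Nat.ble 2167 i)
noncomputable def s2166_2169 (i sh : Nat) : Nat := Bool.rec (s2166_2168 i sh) (Nat.shiftRight leaf2168 sh) (Nat.ble 2168 i)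
noncomputable def s2163_2169 (i sh : Nat) : Nat := Bool.rec (s2163_2166 i sh) (s2166_2169 i sh) (Nat.ble 2166 i)
noncomputable def s2156_2169 (i sh : Nat) : Nat := Bool.rec (s2156_2163 i sh) (s2163_2169 i sh) (Nat.ble 2163 i)
noncomputable def s2169_2171 (i sh : Nat) : Nat := Bool.rec (Nat.shiftRight leaf2169 sh) (Nat.shiftRight leaf2170 sh) (Nat.ble 2170 i)
noncomputable def s2169_2172 (i sh : Nat) : Nat := Bool.rec (s2169_2171 i sh) (Nat.shiftRight leaf2171 sh) (Nat.ble 2171 i)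
noncomputable def s2172_2174 (i sh : Nat) : Nat := Bool.rec (Nat.shiftRight leaf2172 sh) (Nat.shiftRight leaf2173 sh) (Nat.ble 2173 i)
noncomputable def s2169_2174 (i sh : Nat) : Nat := Bool.rec (s2169_2172 i sh) (s2172_2174 i sh) (Nat.ble 2172 i)
noncomputable def s2174_2176 (i sh : Nat) : Nat := Bool.rec (Nat.shiftRight leaf2174 sh) (Nat.shiftRight leaf2175 sh) (Nat.ble 2175 i)
noncomputable def s2177_2179 (i sh : Nat) : Nat := Bool.rec (Nat.shiftRight leaf2177 sh) (Nat.shiftRight leaf2178 sh) (Nat.ble 2178 i)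
noncomputable def s2176_2179 (i sh : Nat) : Nat := Bool.rec (Nat.shiftRight leaf2176 sh) (s2177_2179 i sh) (Nat.ble 2177 i)
noncomputable def s2174_2179 (i sh : Nat) : Nat := Bool.rec (s2174_2176 i sh) (s2176_2179 i sh) (Nat.ble 2176 i)
noncomputable def s2169_2179 (i sh : Nat) : Nat := Bool.rec (s2169_2174 i sh) (s2174_2179 i sh) (Nat.ble 2174 i)
noncomputable def s2179_2181 (i sh : Nat) : Nat := Bool.rec (Nat.shiftRight leaf2179 sh) (Nat.shiftRight leaf2180 sh) (Nat.ble 2180 i)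
noncomputable def s2179_2182 (i sh : Nat) : Nat := Bool.rec (s2179_2181 i sh) (Nat.shiftRight leaf2181 sh) (Nat.ble 2181 i)
noncomputable def s2183_2185 (i sh : Nat) : Nat := Bool.rec (Nat.shiftRight leaf2183 sh) (Nat.shiftRight leaf2184 sh) (Nat.ble 2184 i)
noncomputable def s2182_2185 (i sh : Nat) : Nat := Bool.rec (Nat.shiftRight leaf2182 sh) (s2183_2185 i sh) (Nat.ble 2183 i)
noncomputable def s2186_2188 (i sh : Nat) : Nat := Bool.rec (Nat.shiftRight leaf2186 sh) (Nat.shiftRight leaf2187 sh) (Nat.ble 2187 i)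
noncomputable def s2185_2188 (i sh : Nat) : Nat := Bool.rec (Nat.shiftRight leaf2185 sh) (s2186_2188 i sh) (Nat.ble 2186 i)
noncomputable def s2182_2188 (i sh : Nat) : Nat := Bool.rec (s2182_2185 i sh) (s2185_2188 i sh) (Nat.ble 2185 i)
noncomputable def s2179_2188 (i sh : Nat) : Nat := Bool.rec (s2179_2182 i sh) (s2182_2188 i sh) (Nat.ble 2182 i)
noncomputable def s2169_2188 (i sh : Nat) : Nat := Bool.rec (s2169_2179 i sh) (s2179_2188 i sh) (Nat.ble 2179 i)
noncomputable def s2156_2188 (i sh : Nat) : Nat := Bool.rec (s2156_2169 i sh) (s2169_2188 i sh) (Nat.ble 2169 i)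
noncomputable def s2127_2188 (i sh : Nat) : Nat := Bool.rec (s2127_2156 i sh) (s2156_2188 i sh) (Nat.ble 2156 i)
noncomputable def s2189_2191 (i sh : Nat) : Nat := Bool.rec (Nat.shiftRight leaf2189 sh) (Nat.shiftRight leaf2190 sh) (Nat.ble 2190 i)
noncomputable def s2188_2191 (i sh : Nat) : Nat := Bool.rec (Nat.shiftRight leaf2188 sh) (s2189_2191 i sh) (Nat.ble 2189 i)
noncomputable def s2191_2193 (i sh : Nat) : Nat := Bool.rec (Nat.shiftRight leaf2191 sh) (Nat.shiftRight leaf2192 sh) (Nat.ble 2192 i)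
noncomputable def s2191_2194 (i sh : Nat) : Nat := Bool.rec (s2191_2193 i sh) (Nat.shiftRight leaf2193 sh) (Nat.ble 2193 i)
noncomputable def s2194_2196 (i sh : Nat) : Nat := Bool.rec (Nat.shiftRight leaf2194 sh) (Nat.shiftRight leaf2195 sh) (Nat.ble 2195 i)
noncomputable def s2196_2198 (i sh : Nat) : Nat := Bool.rec (Nat.shiftRight leaf2196 sh) (Nat.shiftRight leaf2197 sh) (Nat.ble 2197 i)
noncomputable def s2194_2198 (i sh : Nat) : Nat := Bool.rec (s2194_2196 i sh) (s2196_2198 i sh) (Nat.ble 2196 i)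
noncomputable def s2191_2198 (i sh : Nat) : Nat := Bool.rec (s2191_2194 i sh) (s2194_2198 i sh) (Nat.ble 2194 i)
noncomputable def s2188_2198 (i sh : Nat) : Nat := Bool.rec (s2188_2191 i sh) (s2191_2198 i sh) (Nat.ble 2191 i)
noncomputable def s2188_2199 (i sh : Nat) : Nat := Bool.rec (s2188_2198 i sh) (Nat.shiftRight leaf2198 sh) (Nat.ble 2198 i)
noncomputable def s2199_2201 (i sh : Nat) : Nat := Bool.rec (Nat.shiftRight leaf2199 sh) (Nat.shiftRight leaf2200 sh) (Nat.ble 2200 i)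
noncomputable def s2202_2204 (i sh : Nat) : Nat := Bool.rec (Nat.shiftRight leaf2202 sh) (Nat.shiftRight leaf2203 sh) (Nat.ble 2203 i)
noncomputable def s2201_2204 (i sh : Nat) : Nat := Bool.rec (Nat.shiftRight leaf2201 sh) (s2202_2204 i sh) (Nat.ble 2202 i)
noncomputable def s2199_2204 (i sh : Nat) : Nat := Bool.rec (s2199_2201 i sh) (s2201_2204 i sh) (Nat.ble 2201 i)
noncomputable def s2188_2204 (i sh : Nat) : Nat := Bool.rec (s2188_2199 i sh) (s2199_2204 i sh) (Nat.ble 2199 i)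
noncomputable def s2204_2206 (i sh : Nat) : Nat := Bool.rec (Nat.shiftRight leaf2204 sh) (Nat.shiftRight leaf2205 sh) (Nat.ble 2205 i)
noncomputable def s2204_2207 (i sh : Nat) : Nat := Bool.rec (s2204_2206 i sh) (Nat.shiftRight leaf2206 sh) (Nat.ble 2206 i)
noncomputable def s2207_2209 (i sh : Nat) : Nat := Bool.rec (Nat.shiftRight leaf2207 sh) (Nat.shiftRight leaf2208 sh) (Nat.ble 2208 i)
noncomputable def s2207_2210 (i sh : Nat) : Nat := Bool.rec (s2207_2209 i sh) (Nat.shiftRight leaf2209 sh) (Nat.ble 2209 i)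
noncomputable def s2211_2213 (i sh : Nat) : Nat := Bool.rec (Nat.shiftRight leaf2211 sh) (Nat.shiftRight leaf2212 sh) (Nat.ble 2212 i)
noncomputable def s2210_2213 (i sh : Nat) : Nat := Bool.rec (Nat.shiftRight leaf2210 sh) (s2211_2213 i sh) (Nat.ble 2211 i)
noncomputable def s2207_2213 (i sh : Nat) : Nat := Bool.rec (s2207_2210 i sh) (s2210_2213 i sh) (Nat.ble 2210 i)
noncomputable def s2204_2213 (i sh : Nat) : Nat := Bool.rec (s2204_2207 i sh) (s2207_2213 i sh) (Nat.ble 2207 i)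
noncomputable def s2214_2216 (i sh : Nat) : Nat := Bool.rec (Nat.shiftRight leaf2214 sh) (Nat.shiftRight leaf2215 sh) (Nat.ble 2215 i)
noncomputable def s2216_2218 (i sh : Nat) : Nat := Bool.rec (Nat.shiftRight leaf2216 sh) (Nat.shiftRight leaf2217 sh) (Nat.ble 2217 i)
noncomputable def s2214_2218 (i sh : Nat) : Nat := Bool.rec (s2214_2216 i sh) (s2216_2218 i sh) (Nat.ble 2216 i)
noncomputable def s2214_2219 (i sh : Nat) : Nat := Bool.rec (s2214_2218 i sh) (Nat.shiftRight leaf2218 sh) (Nat.ble 2218 i)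
noncomputable def s2213_2219 (i sh : Nat) : Nat := Bool.rec (Nat.shiftRight leaf2213 sh) (s2214_2219 i sh) (Nat.ble 2214 i)
noncomputable def s2219_2221 (i sh : Nat) : Nat := Bool.rec (Nat.shiftRight leaf2219 sh) (Nat.shiftRight leaf2220 sh) (Nat.ble 2220 i)
noncomputable def s2221_2223 (i sh : Nat) : Nat := Bool.rec (Nat.shiftRight leaf2221 sh) (Nat.shiftRight leaf2222 sh) (Nat.ble 2222 i)
noncomputable def s2219_2223 (i sh : Nat) : Nat := Bool.rec (s2219_2221 i sh) (s2221_2223 i sh) (Nat.ble 2221 i)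
noncomputable def s2223_2225 (i sh : Nat) : Nat := Bool.rec (Nat.shiftRight leaf2223 sh) (Nat.shiftRight leaf2224 sh) (Nat.ble 2224 i)
noncomputable def s2226_2228 (i sh : Nat) : Nat := Bool.rec (Nat.shiftRight leaf2226 sh) (Nat.shiftRight leaf2227 sh) (Nat.ble 2227 i)
noncomputable def s2225_2228 (i sh : Nat) : Nat := Bool.rec (Nat.shiftRight leaf2225 sh) (s2226_2228 i sh) (Nat.ble 2226 i)
noncomputable def s2223_2228 (i sh : Nat) : Nat := Bool.rec (s2223_2225 i sh) (s2225_2228 i sh) (Nat.ble 2225 i)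
noncomputable def s2219_2228 (i sh : Nat) : Nat := Bool.rec (s2219_2223 i sh) (s2223_2228 i sh) (Nat.ble 2223 i)
noncomputable def s2213_2228 (i sh : Nat) : Nat := Bool.rec (s2213_2219 i sh) (s2219_2228 i sh) (Nat.ble 2219 i)
noncomputable def s2204_2228 (i sh : Nat) : Nat := Bool.rec (s2204_2213 i sh) (s2213_2228 i sh) (Nat.ble 2213 i)
noncomputable def s2188_2228 (i sh : Nat) : Nat := Bool.rec (s2188_2204 i sh) (s2204_2228 i sh) (Nat.ble 2204 i)
noncomputable def s2127_2228 (i sh : Nat) : Nat := Bool.rec (s2127_2188 i sh) (s2188_2228 i sh) (Nat.ble 2188 i)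
noncomputable def s2228_2230 (i sh : Nat) : Nat := Bool.rec (Nat.shiftRight leaf2228 sh) (Nat.shiftRight leaf2229 sh) (Nat.ble 2229 i)
noncomputable def s2228_2231 (i sh : Nat) : Nat := Bool.rec (s2228_2230 i sh) (Nat.shiftRight leaf2230 sh) (Nat.ble 2230 i)
noncomputable def s2231_2233 (i sh : Nat) : Nat := Bool.rec (Nat.shiftRight leaf2231 sh) (Nat.shiftRight leaf2232 sh) (Nat.ble 2232 i)
noncomputable def s2233_2235 (i sh : Nat) : Nat := Bool.rec (Nat.shiftRight leaf2233 sh) (Nat.shiftRight leaf2234 sh) (Nat.ble 2234 i)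
noncomputable def s2233_2236 (i sh : Nat) : Nat := Bool.rec (s2233_2235 i sh) (Nat.shiftRight leaf2235 sh) (Nat.ble 2235 i)
noncomputable def s2231_2236 (i sh : Nat) : Nat := Bool.rec (s2231_2233 i sh) (s2233_2236 i sh) (Nat.ble 2233 i)
noncomputable def s2228_2236 (i sh : Nat) : Nat := Bool.rec (s2228_2231 i sh) (s2231_2236 i sh) (Nat.ble 2231 i)
noncomputable def s2236_2238 (i sh : Nat) : Nat := Bool.rec (Nat.shiftRight leaf2236 sh) (Nat.shiftRight leaf2237 sh) (Nat.ble 2237 i)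
noncomputable def s2239_2241 (i sh : Nat) : Nat := Bool.rec (Nat.shiftRight leaf2239 sh) (Nat.shiftRight leaf2240 sh) (Nat.ble 2240 i)
noncomputable def s2238_2241 (i sh : Nat) : Nat := Bool.rec (Nat.shiftRight leaf2238 sh) (s2239_2241 i sh) (Nat.ble 2239 i)
noncomputable def s2236_2241 (i sh : Nat) : Nat := Bool.rec (s2236_2238 i sh) (s2238_2241 i sh) (Nat.ble 2238 i)
noncomputable def s2241_2243 (i sh : Nat) : Nat := Bool.rec (Nat.shiftRight leaf2241 sh) (Nat.shiftRight leaf2242 sh) (Nat.ble 2242 i)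
noncomputable def s2236_2243 (i sh : Nat) : Nat := Bool.rec (s2236_2241 i sh) (s2241_2243 i sh) (Nat.ble 2241 i)
noncomputable def s2228_2243 (i sh : Nat) : Nat := Bool.rec (s2228_2236 i sh) (s2236_2243 i sh) (Nat.ble 2236 i)
noncomputable def s2243_2245 (i sh : Nat) : Nat := Bool.rec (Nat.shiftRight leaf2243 sh) (Nat.shiftRight leaf2244 sh) (Nat.ble 2244 i)
noncomputable def s2246_2248 (i sh : Nat) : Nat := Bool.rec (Nat.shiftRight leaf2246 sh) (Nat.shiftRight leaf2247 sh) (Nat.ble 2247 i)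
noncomputable def s2245_2248 (i sh : Nat) : Nat := Bool.rec (Nat.shiftRight leaf2245 sh) (s2246_2248 i sh) (Nat.ble 2246 i)
noncomputable def s2245_2249 (i sh : Nat) : Nat := Bool.rec (s2245_2248 i sh) (Nat.shiftRight leaf2248 sh) (Nat.ble 2248 i)
noncomputable def s2249_2251 (i sh : Nat) : Nat := Bool.rec (Nat.shiftRight leaf2249 sh) (Nat.shiftRight leaf2250 sh) (Nat.ble 2250 i)
noncomputable def s2245_2251 (i sh : Nat) : Nat := Bool.rec (s2245_2249 i sh) (s2249_2251 i sh) (Nat.ble 2249 i)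
noncomputable def s2243_2251 (i sh : Nat) : Nat := Bool.rec (s2243_2245 i sh) (s2245_2251 i sh) (Nat.ble 2245 i)
noncomputable def s2228_2251 (i sh : Nat) : Nat := Bool.rec (s2228_2243 i sh) (s2243_2251 i sh) (Nat.ble 2243 i)
noncomputable def s2251_2253 (i sh : Nat) : Nat := Bool.rec (Nat.shiftRight leaf2251 sh) (Nat.shiftRight leaf2252 sh) (Nat.ble 2252 i)
noncomputable def s2251_2254 (i sh : Nat) : Nat := Bool.rec (s2251_2253 i sh) (Nat.shiftRight leaf2253 sh) (Nat.ble 2253 i)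
noncomputable def s2254_2256 (i sh : Nat) : Nat := Bool.rec (Nat.shiftRight leaf2254 sh) (Nat.shiftRight leaf2255 sh) (Nat.ble 2255 i)
noncomputable def s2251_2256 (i sh : Nat) : Nat := Bool.rec (s2251_2254 i sh) (s2254_2256 i sh) (Nat.ble 2254 i)
noncomputable def s2256_2258 (i sh : Nat) : Nat := Bool.rec (Nat.shiftRight leaf2256 sh) (Nat.shiftRight leaf2257 sh) (Nat.ble 2257 i)
noncomputable def s2256_2259 (i sh : Nat) : Nat := Bool.rec (s2256_2258 i sh) (Nat.shiftRight leaf2258 sh) (Nat.ble 2258 i)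
noncomputable def s2259_2261 (i sh : Nat) : Nat := Bool.rec (Nat.shiftRight leaf2259 sh) (Nat.shiftRight leaf2260 sh) (Nat.ble 2260 i)
noncomputable def s2256_2261 (i sh : Nat) : Nat := Bool.rec (s2256_2259 i sh) (s2259_2261 i sh) (Nat.ble 2259 i)
noncomputable def s2251_2261 (i sh : Nat) : Nat := Bool.rec (s2251_2256 i sh) (s2256_2261 i sh) (Nat.ble 2256 i)
noncomputable def s2261_2263 (i sh : Nat) : Nat := Bool.rec (Nat.shiftRight leaf2261 sh) (Nat.shiftRight leaf2262 sh) (Nat.ble 2262 i)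
noncomputable def s2263_2265 (i sh : Nat) : Nat := Bool.rec (Nat.shiftRight leaf2263 sh) (Nat.shiftRight leaf2264 sh) (Nat.ble 2264 i)
noncomputable def s2261_2265 (i sh : Nat) : Nat := Bool.rec (s2261_2263 i sh) (s2263_2265 i sh) (Nat.ble 2263 i)
noncomputable def s2266_2268 (i sh : Nat) : Nat := Bool.rec (Nat.shiftRight leaf2266 sh) (Nat.shiftRight leaf2267 sh) (Nat.ble 2267 i)
noncomputable def s2265_2268 (i sh : Nat) : Nat := Bool.rec (Nat.shiftRight leaf2265 sh) (s2266_2268 i sh) (Nat.ble 2266 i)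
noncomputable def s2261_2268 (i sh : Nat) : Nat := Bool.rec (s2261_2265 i sh) (s2265_2268 i sh) (Nat.ble 2265 i)
noncomputable def s2251_2268 (i sh : Nat) : Nat := Bool.rec (s2251_2261 i sh) (s2261_2268 i sh) (Nat.ble 2261 i)
noncomputable def s2268_2270 (i sh : Nat) : Nat := Bool.rec (Nat.shiftRight leaf2268 sh) (Nat.shiftRight leaf2269 sh) (Nat.ble 2269 i)
noncomputable def s2268_2271 (i sh : Nat) : Nat := Bool.rec (s2268_2270 i sh) (Nat.shiftRight leaf2270 sh) (Nat.ble 2270 i)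
noncomputable def s2271_2273 (i sh : Nat) : Nat := Bool.rec (Nat.shiftRight leaf2271 sh) (Nat.shiftRight leaf2272 sh) (Nat.ble 2272 i)
noncomputable def s2268_2273 (i sh : Nat) : Nat := Bool.rec (s2268_2271 i sh) (s2271_2273 i sh) (Nat.ble 2271 i)
noncomputable def s2268_2274 (i sh : Nat) : Nat := Bool.rec (s2268_2273 i sh) (Nat.shiftRight leaf2273 sh) (Nat.ble 2273 i)
noncomputable def s2275_2277 (i sh : Nat) : Nat := Bool.rec (Nat.shiftRight leaf2275 sh) (Nat.shiftRight leaf2276 sh) (Nat.ble 2276 i)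
noncomputable def s2274_2277 (i sh : Nat) : Nat := Bool.rec (Nat.shiftRight leaf2274 sh) (s2275_2277 i sh) (Nat.ble 2275 i)
noncomputable def s2274_2278 (i sh : Nat) : Nat := Bool.rec (s2274_2277 i sh) (Nat.shiftRight leaf2277 sh) (Nat.ble 2277 i)
noncomputable def s2268_2278 (i sh : Nat) : Nat := Bool.rec (s2268_2274 i sh) (s2274_2278 i sh) (Nat.ble 2274 i)
noncomputable def s2251_2278 (i sh : Nat) : Nat := Bool.rec (s2251_2268 i sh) (s2268_2278 i sh) (Nat.ble 2268 i)
noncomputable def s2228_2278 (i sh : Nat) : Nat := Bool.rec (s2228_2251 i sh) (s2251_2278 i sh) (Nat.ble 2251 i)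
noncomputable def s2280_2282 (i sh : Nat) : Nat := Bool.rec (Nat.shiftRight leaf2280 sh) (Nat.shiftRight leaf2281 sh) (Nat.ble 2281 i)
noncomputable def s2279_2282 (i sh : Nat) : Nat := Bool.rec (Nat.shiftRight leaf2279 sh) (s2280_2282 i sh) (Nat.ble 2280 i)
noncomputable def s2283_2285 (i sh : Nat) : Nat := Bool.rec (Nat.shiftRight leaf2283 sh) (Nat.shiftRight leaf2284 sh) (Nat.ble 2284 i)
noncomputable def s2282_2285 (i sh : Nat) : Nat := Bool.rec (Nat.shiftRight leaf2282 sh) (s2283_2285 i sh) (Nat.ble 2283 i)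
noncomputable def s2279_2285 (i sh : Nat) : Nat := Bool.rec (s2279_2282 i sh) (s2282_2285 i sh) (Nat.ble 2282 i)
noncomputable def s2285_2287 (i sh : Nat) : Nat := Bool.rec (Nat.shiftRight leaf2285 sh) (Nat.shiftRight leaf2286 sh) (Nat.ble 2286 i)
noncomputable def s2279_2287 (i sh : Nat) : Nat := Bool.rec (s2279_2285 i sh) (s2285_2287 i sh) (Nat.ble 2285 i)
noncomputable def s2287_2289 (i sh : Nat) : Nat := Bool.rec (Nat.shiftRight leaf2287 sh) (Nat.shiftRight leaf2288 sh) (Nat.ble 2288 i)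
noncomputable def s2287_2290 (i sh : Nat) : Nat := Bool.rec (s2287_2289 i sh) (Nat.shiftRight leaf2289 sh) (Nat.ble 2289 i)
noncomputable def s2287_2291 (i sh : Nat) : Nat := Bool.rec (s2287_2290 i sh) (Nat.shiftRight leaf2290 sh) (Nat.ble 2290 i)
noncomputable def s2293_2295 (i sh : Nat) : Nat := Bool.rec (Nat.shiftRight leaf2293 sh) (Nat.shiftRight leaf2294 sh) (Nat.ble 2294 i)
noncomputable def s2292_2295 (i sh : Nat) : Nat := Bool.rec (Nat.shiftRight leaf2292 sh) (s2293_2295 i sh) (Nat.ble 2293 i)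
noncomputable def s2291_2295 (i sh : Nat) : Nat := Bool.rec (Nat.shiftRight leaf2291 sh) (s2292_2295 i sh) (Nat.ble 2292 i)
noncomputable def s2287_2295 (i sh : Nat) : Nat := Bool.rec (s2287_2291 i sh) (s2291_2295 i sh) (Nat.ble 2291 i)
noncomputable def s2279_2295 (i sh : Nat) : Nat := Bool.rec (s2279_2287 i sh) (s2287_2295 i sh) (Nat.ble 2287 i)
noncomputable def s2278_2295 (i sh : Nat) : Nat := Bool.rec (Nat.shiftRight leaf2278 sh) (s2279_2295 i sh) (Nat.ble 2279 i)
noncomputable def s2295_2297 (i sh : Nat) : Nat := Bool.rec (Nat.shiftRight leaf2295 sh) (Nat.shiftRight leaf2296 sh) (Nat.ble 2296 i)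
noncomputable def s2297_2299 (i sh : Nat) : Nat := Bool.rec (Nat.shiftRight leaf2297 sh) (Nat.shiftRight leaf2298 sh) (Nat.ble 2298 i)
noncomputable def s2297_2300 (i sh : Nat) : Nat := Bool.rec (s2297_2299 i sh) (Nat.shiftRight leaf2299 sh) (Nat.ble 2299 i)
noncomputable def s2295_2300 (i sh : Nat) : Nat := Bool.rec (s2295_2297 i sh) (s2297_2300 i sh) (Nat.ble 2297 i)
noncomputable def s2300_2302 (i sh : Nat) : Nat := Bool.rec (Nat.shiftRight leaf2300 sh) (Nat.shiftRight leaf2301 sh) (Nat.ble 2301 i)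
noncomputable def s2295_2302 (i sh : Nat) : Nat := Bool.rec (s2295_2300 i sh) (s2300_2302 i sh) (Nat.ble 2300 i)
noncomputable def s2302_2304 (i sh : Nat) : Nat := Bool.rec (Nat.shiftRight leaf2302 sh) (Nat.shiftRight leaf2303 sh) (Nat.ble 2303 i)
noncomputable def s2304_2306 (i sh : Nat) : Nat := Bool.rec (Nat.shiftRight leaf2304 sh) (Nat.shiftRight leaf2305 sh) (Nat.ble 2305 i)
noncomputable def s2302_2306 (i sh : Nat) : Nat := Bool.rec (s2302_2304 i sh) (s2304_2306 i sh) (Nat.ble 2304 i)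
noncomputable def s2306_2308 (i sh : Nat) : Nat := Bool.rec (Nat.shiftRight leaf2306 sh) (Nat.shiftRight leaf2307 sh) (Nat.ble 2307 i)
noncomputable def s2302_2308 (i sh : Nat) : Nat := Bool.rec (s2302_2306 i sh) (s2306_2308 i sh) (Nat.ble 2306 i)
noncomputable def s2308_2310 (i sh : Nat) : Nat := Bool.rec (Nat.shiftRight leaf2308 sh) (Nat.shiftRight leaf2309 sh) (Nat.ble 2309 i)
noncomputable def s2308_2311 (i sh : Nat) : Nat := Bool.rec (s2308_2310 i sh) (Nat.shiftRight leaf2310 sh) (Nat.ble 2310 i)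
noncomputable def s2302_2311 (i sh : Nat) : Nat := Bool.rec (s2302_2308 i sh) (s2308_2311 i sh) (Nat.ble 2308 i)
noncomputable def s2295_2311 (i sh : Nat) : Nat := Bool.rec (s2295_2302 i sh) (s2302_2311 i sh) (Nat.ble 2302 i)
noncomputable def s2311_2313 (i sh : Nat) : Nat := Bool.rec (Nat.shiftRight leaf2311 sh) (Nat.shiftRight leaf2312 sh) (Nat.ble 2312 i)
noncomputable def s2313_2315 (i sh : Nat) : Nat := Bool.rec (Nat.shiftRight leaf2313 sh) (Nat.shiftRight leaf2314 sh) (Nat.ble 2314 i)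
noncomputable def s2311_2315 (i sh : Nat) : Nat := Bool.rec (s2311_2313 i sh) (s2313_2315 i sh) (Nat.ble 2313 i)
noncomputable def s2315_2317 (i sh : Nat) : Nat := Bool.rec (Nat.shiftRight leaf2315 sh) (Nat.shiftRight leaf2316 sh) (Nat.ble 2316 i)
noncomputable def s2311_2317 (i sh : Nat) : Nat := Bool.rec (s2311_2315 i sh) (s2315_2317 i sh) (Nat.ble 2315 i)
noncomputable def s2317_2319 (i sh : Nat) : Nat := Bool.rec (Nat.shiftRight leaf2317 sh) (Nat.shiftRight leaf2318 sh) (Nat.ble 2318 i)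
noncomputable def s2320_2322 (i sh : Nat) : Nat := Bool.rec (Nat.shiftRight leaf2320 sh) (Nat.shiftRight leaf2321 sh) (Nat.ble 2321 i)
noncomputable def s2319_2322 (i sh : Nat) : Nat := Bool.rec (Nat.shiftRight leaf2319 sh) (s2320_2322 i sh) (Nat.ble 2320 i)
noncomputable def s2317_2322 (i sh : Nat) : Nat := Bool.rec (s2317_2319 i sh) (s2319_2322 i sh) (Nat.ble 2319 i)
noncomputable def s2311_2322 (i sh : Nat) : Nat := Bool.rec (s2311_2317 i sh) (s2317_2322 i sh) (Nat.ble 2317 i)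
noncomputable def s2322_2324 (i sh : Nat) : Nat := Bool.rec (Nat.shiftRight leaf2322 sh) (Nat.shiftRight leaf2323 sh) (Nat.ble 2323 i)
noncomputable def s2325_2327 (i sh : Nat) : Nat := Bool.rec (Nat.shiftRight leaf2325 sh) (Nat.shiftRight leaf2326 sh) (Nat.ble 2326 i)
noncomputable def s2325_2328 (i sh : Nat) : Nat := Bool.rec (s2325_2327 i sh) (Nat.shiftRight leaf2327 sh) (Nat.ble 2327 i)
noncomputable def s2324_2328 (i sh : Nat) : Nat := Bool.rec (Nat.shiftRight leaf2324 sh) (s2325_2328 i sh) (Nat.ble 2325 i)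
noncomputable def s2322_2328 (i sh : Nat) : Nat := Bool.rec (s2322_2324 i sh) (s2324_2328 i sh) (Nat.ble 2324 i)
noncomputable def s2329_2331 (i sh : Nat) : Nat := Bool.rec (Nat.shiftRight leaf2329 sh) (Nat.shiftRight leaf2330 sh) (Nat.ble 2330 i)
noncomputable def s2328_2331 (i sh : Nat) : Nat := Bool.rec (Nat.shiftRight leaf2328 sh) (s2329_2331 i sh) (Nat.ble 2329 i)
noncomputable def s2333_2335 (i sh : Nat) : Nat := Bool.rec (Nat.shiftRight leaf2333 sh) (Nat.shiftRight leaf2334 sh) (Nat.ble 2334 i)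
noncomputable def s2332_2335 (i sh : Nat) : Nat := Bool.rec (Nat.shiftRight leaf2332 sh) (s2333_2335 i sh) (Nat.ble 2333 i)
noncomputable def s2331_2335 (i sh : Nat) : Nat := Bool.rec (Nat.shiftRight leaf2331 sh) (s2332_2335 i sh) (Nat.ble 2332 i)
noncomputable def s2328_2335 (i sh : Nat) : Nat := Bool.rec (s2328_2331 i sh) (s2331_2335 i sh) (Nat.ble 2331 i)
noncomputable def s2322_2335 (i sh : Nat) : Nat := Bool.rec (s2322_2328 i sh) (s2328_2335 i sh) (Nat.ble 2328 i)
noncomputable def s2311_2335 (i sh : Nat) : Nat := Bool.rec (s2311_2322 i sh) (s2322_2335 i sh) (Nat.ble 2322 i)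
noncomputable def s2295_2335 (i sh : Nat) : Nat := Bool.rec (s2295_2311 i sh) (s2311_2335 i sh) (Nat.ble 2311 i)
noncomputable def s2278_2335 (i sh : Nat) : Nat := Bool.rec (s2278_2295 i sh) (s2295_2335 i sh) (Nat.ble 2295 i)
noncomputable def s2228_2335 (i sh : Nat) : Nat := Bool.rec (s2228_2278 i sh) (s2278_2335 i sh) (Nat.ble 2278 i)
noncomputable def s2127_2335 (i sh : Nat) : Nat := Bool.rec (s2127_2228 i sh) (s2228_2335 i sh) (Nat.ble 2228 i)
noncomputable def s1881_2335 (i sh : Nat) : Nat := Bool.rec (s1881_2127 i sh) (s2127_2335 i sh) (Nat.ble 2127 i)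
noncomputable def s2336_2338 (i sh : Nat) : Nat := Bool.rec (Nat.shiftRight leaf2336 sh) (Nat.shiftRight leaf2337 sh) (Nat.ble 2337 i)
noncomputable def s2336_2339 (i sh : Nat) : Nat := Bool.rec (s2336_2338 i sh) (Nat.shiftRight leaf2338 sh) (Nat.ble 2338 i)
noncomputable def s2340_2342 (i sh : Nat) : Nat := Bool.rec (Nat.shiftRight leaf2340 sh) (Nat.shiftRight leaf2341 sh) (Nat.ble 2341 i)
noncomputable def s2339_2342 (i sh : Nat) : Nat := Bool.rec (Nat.shiftRight leaf2339 sh) (s2340_2342 i sh) (Nat.ble 2340 i)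
noncomputable def s2336_2342 (i sh : Nat) : Nat := Bool.rec (s2336_2339 i sh) (s2339_2342 i sh) (Nat.ble 2339 i)
noncomputable def s2342_2344 (i sh : Nat) : Nat := Bool.rec (Nat.shiftRight leaf2342 sh) (Nat.shiftRight leaf2343 sh) (Nat.ble 2343 i)
noncomputable def s2336_2344 (i sh : Nat) : Nat := Bool.rec (s2336_2342 i sh) (s2342_2344 i sh) (Nat.ble 2342 i)
noncomputable def s2335_2344 (i sh : Nat) : Nat := Bool.rec (Nat.shiftRight leaf2335 sh) (s2336_2344 i sh) (Nat.ble 2336 i)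
noncomputable def s2344_2346 (i sh : Nat) : Nat := Bool.rec (Nat.shiftRight leaf2344 sh) (Nat.shiftRight leaf2345 sh) (Nat.ble 2345 i)
noncomputable def s2344_2347 (i sh : Nat) : Nat := Bool.rec (s2344_2346 i sh) (Nat.shiftRight leaf2346 sh) (Nat.ble 2346 i)
noncomputable def s2347_2349 (i sh : Nat) : Nat := Bool.rec (Nat.shiftRight leaf2347 sh) (Nat.shiftRight leaf2348 sh) (Nat.ble 2348 i)
noncomputable def s2349_2351 (i sh : Nat) : Nat := Bool.rec (Nat.shiftRight leaf2349 sh) (Nat.shiftRight leaf2350 sh) (Nat.ble 2350 i)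
noncomputable def s2347_2351 (i sh : Nat) : Nat := Bool.rec (s2347_2349 i sh) (s2349_2351 i sh) (Nat.ble 2349 i)
noncomputable def s2344_2351 (i sh : Nat) : Nat := Bool.rec (s2344_2347 i sh) (s2347_2351 i sh) (Nat.ble 2347 i)
noncomputable def s2351_2353 (i sh : Nat) : Nat := Bool.rec (Nat.shiftRight leaf2351 sh) (Nat.shiftRight leaf2352 sh) (Nat.ble 2352 i)
noncomputable def s2351_2354 (i sh : Nat) : Nat := Bool.rec (s2351_2353 i sh) (Nat.shiftRight leaf2353 sh) (Nat.ble 2353 i)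
noncomputable def s2354_2356 (i sh : Nat) : Nat := Bool.rec (Nat.shiftRight leaf2354 sh) (Nat.shiftRight leaf2355 sh) (Nat.ble 2355 i)
noncomputable def s2356_2358 (i sh : Nat) : Nat := Bool.rec (Nat.shiftRight leaf2356 sh) (Nat.shiftRight leaf2357 sh) (Nat.ble 2357 i)
noncomputable def s2354_2358 (i sh : Nat) : Nat := Bool.rec (s2354_2356 i sh) (s2356_2358 i sh) (Nat.ble 2356 i)
noncomputable def s2351_2358 (i sh : Nat) : Nat := Bool.rec (s2351_2354 i sh) (s2354_2358 i sh) (Nat.ble 2354 i)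
noncomputable def s2344_2358 (i sh : Nat) : Nat := Bool.rec (s2344_2351 i sh) (s2351_2358 i sh) (Nat.ble 2351 i)
noncomputable def s2361_2363 (i sh : Nat) : Nat := Bool.rec (Nat.shiftRight leaf2361 sh) (Nat.shiftRight leaf2362 sh) (Nat.ble 2362 i)
noncomputable def s2360_2363 (i sh : Nat) : Nat := Bool.rec (Nat.shiftRight leaf2360 sh) (s2361_2363 i sh) (Nat.ble 2361 i)
noncomputable def s2359_2363 (i sh : Nat) : Nat := Bool.rec (Nat.shiftRight leaf2359 sh) (s2360_2363 i sh) (Nat.ble 2360 i)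
noncomputable def s2358_2363 (i sh : Nat) : Nat := Bool.rec (Nat.shiftRight leaf2358 sh) (s2359_2363 i sh) (Nat.ble 2359 i)
noncomputable def s2364_2366 (i sh : Nat) : Nat := Bool.rec (Nat.shiftRight leaf2364 sh) (Nat.shiftRight leaf2365 sh) (Nat.ble 2365 i)
noncomputable def s2366_2368 (i sh : Nat) : Nat := Bool.rec (Nat.shiftRight leaf2366 sh) (Nat.shiftRight leaf2367 sh) (Nat.ble 2367 i)
noncomputable def s2364_2368 (i sh : Nat) : Nat := Bool.rec (s2364_2366 i sh) (s2366_2368 i sh) (Nat.ble 2366 i)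
noncomputable def s2363_2368 (i sh : Nat) : Nat := Bool.rec (Nat.shiftRight leaf2363 sh) (s2364_2368 i sh) (Nat.ble 2364 i)
noncomputable def s2358_2368 (i sh : Nat) : Nat := Bool.rec (s2358_2363 i sh) (s2363_2368 i sh) (Nat.ble 2363 i)
noncomputable def s2344_2368 (i sh : Nat) : Nat := Bool.rec (s2344_2358 i sh) (s2358_2368 i sh) (Nat.ble 2358 i)
noncomputable def s2335_2368 (i sh : Nat) : Nat := Bool.rec (s2335_2344 i sh) (s2344_2368 i sh) (Nat.ble 2344 i)
noncomputable def s2369_2371 (i sh : Nat) : Nat := Bool.rec (Nat.shiftRight leaf2369 sh) (Nat.shiftRight leaf2370 sh) (Nat.ble 2370 i)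
noncomputable def s2368_2371 (i sh : Nat) : Nat := Bool.rec (Nat.shiftRight leaf2368 sh) (s2369_2371 i sh) (Nat.ble 2369 i)
noncomputable def s2372_2374 (i sh : Nat) : Nat := Bool.rec (Nat.shiftRight leaf2372 sh) (Nat.shiftRight leaf2373 sh) (Nat.ble 2373 i)
noncomputable def s2371_2374 (i sh : Nat) : Nat := Bool.rec (Nat.shiftRight leaf2371 sh) (s2372_2374 i sh) (Nat.ble 2372 i)
noncomputable def s2368_2374 (i sh : Nat) : Nat := Bool.rec (s2368_2371 i sh) (s2371_2374 i sh) (Nat.ble 2371 i)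
noncomputable def s2375_2377 (i sh : Nat) : Nat := Bool.rec (Nat.shiftRight leaf2375 sh) (Nat.shiftRight leaf2376 sh) (Nat.ble 2376 i)
noncomputable def s2374_2377 (i sh : Nat) : Nat := Bool.rec (Nat.shiftRight leaf2374 sh) (s2375_2377 i sh) (Nat.ble 2375 i)
noncomputable def s2377_2379 (i sh : Nat) : Nat := Bool.rec (Nat.shiftRight leaf2377 sh) (Nat.shiftRight leaf2378 sh) (Nat.ble 2378 i)
noncomputable def s2379_2381 (i sh : Nat) : Nat := Bool.rec (Nat.shiftRight leaf2379 sh) (Nat.shiftRight leaf2380 sh) (Nat.ble 2380 i)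
noncomputable def s2377_2381 (i sh : Nat) : Nat := Bool.rec (s2377_2379 i sh) (s2379_2381 i sh) (Nat.ble 2379 i)
noncomputable def s2374_2381 (i sh : Nat) : Nat := Bool.rec (s2374_2377 i sh) (s2377_2381 i sh) (Nat.ble 2377 i)
noncomputable def s2381_2383 (i sh : Nat) : Nat := Bool.rec (Nat.shiftRight leaf2381 sh) (Nat.shiftRight leaf2382 sh) (Nat.ble 2382 i)
noncomputable def s2381_2384 (i sh : Nat) : Nat := Bool.rec (s2381_2383 i sh) (Nat.shiftRight leaf2383 sh) (Nat.ble 2383 i)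
noncomputable def s2374_2384 (i sh : Nat) : Nat := Bool.rec (s2374_2381 i sh) (s2381_2384 i sh) (Nat.ble 2381 i)
noncomputable def s2368_2384 (i sh : Nat) : Nat := Bool.rec (s2368_2374 i sh) (s2374_2384 i sh) (Nat.ble 2374 i)
noncomputable def s2384_2386 (i sh : Nat) : Nat := Bool.rec (Nat.shiftRight leaf2384 sh) (Nat.shiftRight leaf2385 sh) (Nat.ble 2385 i)
noncomputable def s2384_2387 (i sh : Nat) : Nat := Bool.rec (s2384_2386 i sh) (Nat.shiftRight leaf2386 sh) (Nat.ble 2386 i)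
noncomputable def s2384_2388 (i sh : Nat) : Nat := Bool.rec (s2384_2387 i sh) (Nat.shiftRight leaf2387 sh) (Nat.ble 2387 i)
noncomputable def s2368_2388 (i sh : Nat) : Nat := Bool.rec (s2368_2384 i sh) (s2384_2388 i sh) (Nat.ble 2384 i)
noncomputable def s2389_2391 (i sh : Nat) : Nat := Bool.rec (Nat.shiftRight leaf2389 sh) (Nat.shiftRight leaf2390 sh) (Nat.ble 2390 i)
noncomputable def s2391_2393 (i sh : Nat) : Nat := Bool.rec (Nat.shiftRight leaf2391 sh) (Nat.shiftRight leaf2392 sh) (Nat.ble 2392 i)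
noncomputable def s2389_2393 (i sh : Nat) : Nat := Bool.rec (s2389_2391 i sh) (s2391_2393 i sh) (Nat.ble 2391 i)
noncomputable def s2388_2393 (i sh : Nat) : Nat := Bool.rec (Nat.shiftRight leaf2388 sh) (s2389_2393 i sh) (Nat.ble 2389 i)
noncomputable def s2368_2393 (i sh : Nat) : Nat := Bool.rec (s2368_2388 i sh) (s2388_2393 i sh) (Nat.ble 2388 i)
noncomputable def s2335_2393 (i sh : Nat) : Nat := Bool.rec (s2335_2368 i sh) (s2368_2393 i sh) (Nat.ble 2368 i)
noncomputable def s2393_2395 (i sh : Nat) : Nat := Bool.rec (Nat.shiftRight leaf2393 sh) (Nat.shiftRight leaf2394 sh) (Nat.ble 2394 i)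
noncomputable def s2395_2397 (i sh : Nat) : Nat := Bool.rec (Nat.shiftRight leaf2395 sh) (Nat.shiftRight leaf2396 sh) (Nat.ble 2396 i)
noncomputable def s2393_2397 (i sh : Nat) : Nat := Bool.rec (s2393_2395 i sh) (s2395_2397 i sh) (Nat.ble 2395 i)
noncomputable def s2398_2400 (i sh : Nat) : Nat := Bool.rec (Nat.shiftRight leaf2398 sh) (Nat.shiftRight leaf2399 sh) (Nat.ble 2399 i)
noncomputable def s2397_2400 (i sh : Nat) : Nat := Bool.rec (Nat.shiftRight leaf2397 sh) (s2398_2400 i sh) (Nat.ble 2398 i)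
noncomputable def s2393_2400 (i sh : Nat) : Nat := Bool.rec (s2393_2397 i sh) (s2397_2400 i sh) (Nat.ble 2397 i)
noncomputable def s2400_2402 (i sh : Nat) : Nat := Bool.rec (Nat.shiftRight leaf2400 sh) (Nat.shiftRight leaf2401 sh) (Nat.ble 2401 i)
noncomputable def s2402_2404 (i sh : Nat) : Nat := Bool.rec (Nat.shiftRight leaf2402 sh) (Nat.shiftRight leaf2403 sh) (Nat.ble 2403 i)
noncomputable def s2404_2406 (i sh : Nat) : Nat := Bool.rec (Nat.shiftRight leaf2404 sh) (Nat.shiftRight leaf2405 sh) (Nat.ble 2405 i)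
noncomputable def s2402_2406 (i sh : Nat) : Nat := Bool.rec (s2402_2404 i sh) (s2404_2406 i sh) (Nat.ble 2404 i)
noncomputable def s2400_2406 (i sh : Nat) : Nat := Bool.rec (s2400_2402 i sh) (s2402_2406 i sh) (Nat.ble 2402 i)
noncomputable def s2407_2409 (i sh : Nat) : Nat := Bool.rec (Nat.shiftRight leaf2407 sh) (Nat.shiftRight leaf2408 sh) (Nat.ble 2408 i)
noncomputable def s2406_2409 (i sh : Nat) : Nat := Bool.rec (Nat.shiftRight leaf2406 sh) (s2407_2409 i sh) (Nat.ble 2407 i)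
noncomputable def s2410_2412 (i sh : Nat) : Nat := Bool.rec (Nat.shiftRight leaf2410 sh) (Nat.shiftRight leaf2411 sh) (Nat.ble 2411 i)
noncomputable def s2409_2412 (i sh : Nat) : Nat := Bool.rec (Nat.shiftRight leaf2409 sh) (s2410_2412 i sh) (Nat.ble 2410 i)
noncomputable def s2406_2412 (i sh : Nat) : Nat := Bool.rec (s2406_2409 i sh) (s2409_2412 i sh) (Nat.ble 2409 i)
noncomputable def s2412_2414 (i sh : Nat) : Nat := Bool.rec (Nat.shiftRight leaf2412 sh) (Nat.shiftRight leaf2413 sh) (Nat.ble 2413 i)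
noncomputable def s2406_2414 (i sh : Nat) : Nat := Bool.rec (s2406_2412 i sh) (s2412_2414 i sh) (Nat.ble 2412 i)
noncomputable def s2400_2414 (i sh : Nat) : Nat := Bool.rec (s2400_2406 i sh) (s2406_2414 i sh) (Nat.ble 2406 i)
noncomputable def s2414_2416 (i sh : Nat) : Nat := Bool.rec (Nat.shiftRight leaf2414 sh) (Nat.shiftRight leaf2415 sh) (Nat.ble 2415 i)
noncomputable def s2416_2418 (i sh : Nat) : Nat := Bool.rec (Nat.shiftRight leaf2416 sh) (Nat.shiftRight leaf2417 sh) (Nat.ble 2417 i)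
noncomputable def s2414_2418 (i sh : Nat) : Nat := Bool.rec (s2414_2416 i sh) (s2416_2418 i sh) (Nat.ble 2416 i)
noncomputable def s2418_2420 (i sh : Nat) : Nat := Bool.rec (Nat.shiftRight leaf2418 sh) (Nat.shiftRight leaf2419 sh) (Nat.ble 2419 i)
noncomputable def s2414_2420 (i sh : Nat) : Nat := Bool.rec (s2414_2418 i sh) (s2418_2420 i sh) (Nat.ble 2418 i)
noncomputable def s2400_2420 (i sh : Nat) : Nat := Bool.rec (s2400_2414 i sh) (s2414_2420 i sh) (Nat.ble 2414 i)
noncomputable def s2393_2420 (i sh : Nat) : Nat := Bool.rec (s2393_2400 i sh) (s2400_2420 i sh) (Nat.ble 2400 i)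
noncomputable def s2420_2422 (i sh : Nat) : Nat := Bool.rec (Nat.shiftRight leaf2420 sh) (Nat.shiftRight leaf2421 sh) (Nat.ble 2421 i)
noncomputable def s2420_2423 (i sh : Nat) : Nat := Bool.rec (s2420_2422 i sh) (Nat.shiftRight leaf2422 sh) (Nat.ble 2422 i)
noncomputable def s2423_2425 (i sh : Nat) : Nat := Bool.rec (Nat.shiftRight leaf2423 sh) (Nat.shiftRight leaf2424 sh) (Nat.ble 2424 i)
noncomputable def s2420_2425 (i sh : Nat) : Nat := Bool.rec (s2420_2423 i sh) (s2423_2425 i sh) (Nat.ble 2423 i)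
noncomputable def s2427_2429 (i sh : Nat) : Nat := Bool.rec (Nat.shiftRight leaf2427 sh) (Nat.shiftRight leaf2428 sh) (Nat.ble 2428 i)
noncomputable def s2426_2429 (i sh : Nat) : Nat := Bool.rec (Nat.shiftRight leaf2426 sh) (s2427_2429 i sh) (Nat.ble 2427 i)
noncomputable def s2425_2429 (i sh : Nat) : Nat := Bool.rec (Nat.shiftRight leaf2425 sh) (s2426_2429 i sh) (Nat.ble 2426 i)
noncomputable def s2430_2432 (i sh : Nat) : Nat := Bool.rec (Nat.shiftRight leaf2430 sh) (Nat.shiftRight leaf2431 sh) (Nat.ble 2431 i)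
noncomputable def s2429_2432 (i sh : Nat) : Nat := Bool.rec (Nat.shiftRight leaf2429 sh) (s2430_2432 i sh) (Nat.ble 2430 i)
noncomputable def s2425_2432 (i sh : Nat) : Nat := Bool.rec (s2425_2429 i sh) (s2429_2432 i sh) (Nat.ble 2429 i)
noncomputable def s2420_2432 (i sh : Nat) : Nat := Bool.rec (s2420_2425 i sh) (s2425_2432 i sh) (Nat.ble 2425 i)
noncomputable def s2432_2434 (i sh : Nat) : Nat := Bool.rec (Nat.shiftRight leaf2432 sh) (Nat.shiftRight leaf2433 sh) (Nat.ble 2433 i)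
noncomputable def s2432_2435 (i sh : Nat) : Nat := Bool.rec (s2432_2434 i sh) (Nat.shiftRight leaf2434 sh) (Nat.ble 2434 i)
noncomputable def s2436_2438 (i sh : Nat) : Nat := Bool.rec (Nat.shiftRight leaf2436 sh) (Nat.shiftRight leaf2437 sh) (Nat.ble 2437 i)
noncomputable def s2435_2438 (i sh : Nat) : Nat := Bool.rec (Nat.shiftRight leaf2435 sh) (s2436_2438 i sh) (Nat.ble 2436 i)
noncomputable def s2435_2439 (i sh : Nat) : Nat := Bool.rec (s2435_2438 i sh) (Nat.shiftRight leaf2438 sh) (Nat.ble 2438 i)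
noncomputable def s2439_2441 (i sh : Nat) : Nat := Bool.rec (Nat.shiftRight leaf2439 sh) (Nat.shiftRight leaf2440 sh) (Nat.ble 2440 i)
noncomputable def s2439_2442 (i sh : Nat) : Nat := Bool.rec (s2439_2441 i sh) (Nat.shiftRight leaf2441 sh) (Nat.ble 2441 i)
noncomputable def s2435_2442 (i sh : Nat) : Nat := Bool.rec (s2435_2439 i sh) (s2439_2442 i sh) (Nat.ble 2439 i)
noncomputable def s2432_2442 (i sh : Nat) : Nat := Bool.rec (s2432_2435 i sh) (s2435_2442 i sh) (Nat.ble 2435 i)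
noncomputable def s2420_2442 (i sh : Nat) : Nat := Bool.rec (s2420_2432 i sh) (s2432_2442 i sh) (Nat.ble 2432 i)
noncomputable def s2393_2442 (i sh : Nat) : Nat := Bool.rec (s2393_2420 i sh) (s2420_2442 i sh) (Nat.ble 2420 i)
noncomputable def s2335_2442 (i sh : Nat) : Nat := Bool.rec (s2335_2393 i sh) (s2393_2442 i sh) (Nat.ble 2393 i)
noncomputable def s2442_2444 (i sh : Nat) : Nat := Bool.rec (Nat.shiftRight leaf2442 sh) (Nat.shiftRight leaf2443 sh) (Nat.ble 2443 i)
noncomputable def s2442_2445 (i sh : Nat) : Nat := Bool.rec (s2442_2444 i sh) (Nat.shiftRight leaf2444 sh) (Nat.ble 2444 i)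
noncomputable def s2445_2447 (i sh : Nat) : Nat := Bool.rec (Nat.shiftRight leaf2445 sh) (Nat.shiftRight leaf2446 sh) (Nat.ble 2446 i)
noncomputable def s2442_2447 (i sh : Nat) : Nat := Bool.rec (s2442_2445 i sh) (s2445_2447 i sh) (Nat.ble 2445 i)
noncomputable def s2447_2449 (i sh : Nat) : Nat := Bool.rec (Nat.shiftRight leaf2447 sh) (Nat.shiftRight leaf2448 sh) (Nat.ble 2448 i)
noncomputable def s2449_2451 (i sh : Nat) : Nat := Bool.rec (Nat.shiftRight leaf2449 sh) (Nat.shiftRight leaf2450 sh) (Nat.ble 2450 i)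
noncomputable def s2447_2451 (i sh : Nat) : Nat := Bool.rec (s2447_2449 i sh) (s2449_2451 i sh) (Nat.ble 2449 i)
noncomputable def s2451_2453 (i sh : Nat) : Nat := Bool.rec (Nat.shiftRight leaf2451 sh) (Nat.shiftRight leaf2452 sh) (Nat.ble 2452 i)
noncomputable def s2447_2453 (i sh : Nat) : Nat := Bool.rec (s2447_2451 i sh) (s2451_2453 i sh) (Nat.ble 2451 i)
noncomputable def s2442_2453 (i sh : Nat) : Nat := Bool.rec (s2442_2447 i sh) (s2447_2453 i sh) (Nat.ble 2447 i)
noncomputable def s2453_2455 (i sh : Nat) : Nat := Bool.rec (Nat.shiftRight leaf2453 sh) (Nat.shiftRight leaf2454 sh) (Nat.ble 2454 i)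
noncomputable def s2456_2458 (i sh : Nat) : Nat := Bool.rec (Nat.shiftRight leaf2456 sh) (Nat.shiftRight leaf2457 sh) (Nat.ble 2457 i)
noncomputable def s2455_2458 (i sh : Nat) : Nat := Bool.rec (Nat.shiftRight leaf2455 sh) (s2456_2458 i sh) (Nat.ble 2456 i)
noncomputable def s2458_2460 (i sh : Nat) : Nat := Bool.rec (Nat.shiftRight leaf2458 sh) (Nat.shiftRight leaf2459 sh) (Nat.ble 2459 i)
noncomputable def s2458_2461 (i sh : Nat) : Nat := Bool.rec (s2458_2460 i sh) (Nat.shiftRight leaf2460 sh) (Nat.ble 2460 i)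
noncomputable def s2455_2461 (i sh : Nat) : Nat := Bool.rec (s2455_2458 i sh) (s2458_2461 i sh) (Nat.ble 2458 i)
noncomputable def s2453_2461 (i sh : Nat) : Nat := Bool.rec (s2453_2455 i sh) (s2455_2461 i sh) (Nat.ble 2455 i)
noncomputable def s2461_2463 (i sh : Nat) : Nat := Bool.rec (Nat.shiftRight leaf2461 sh) (Nat.shiftRight leaf2462 sh) (Nat.ble 2462 i)
noncomputable def s2463_2465 (i sh : Nat) : Nat := Bool.rec (Nat.shiftRight leaf2463 sh) (Nat.shiftRight leaf2464 sh) (Nat.ble 2464 i)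
noncomputable def s2465_2467 (i sh : Nat) : Nat := Bool.rec (Nat.shiftRight leaf2465 sh) (Nat.shiftRight leaf2466 sh) (Nat.ble 2466 i)
noncomputable def s2463_2467 (i sh : Nat) : Nat := Bool.rec (s2463_2465 i sh) (s2465_2467 i sh) (Nat.ble 2465 i)
noncomputable def s2461_2467 (i sh : Nat) : Nat := Bool.rec (s2461_2463 i sh) (s2463_2467 i sh) (Nat.ble 2463 i)
noncomputable def s2467_2469 (i sh : Nat) : Nat := Bool.rec (Nat.shiftRight leaf2467 sh) (Nat.shiftRight leaf2468 sh) (Nat.ble 2468 i)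
noncomputable def s2469_2471 (i sh : Nat) : Nat := Bool.rec (Nat.shiftRight leaf2469 sh) (Nat.shiftRight leaf2470 sh) (Nat.ble 2470 i)
noncomputable def s2467_2471 (i sh : Nat) : Nat := Bool.rec (s2467_2469 i sh) (s2469_2471 i sh) (Nat.ble 2469 i)
noncomputable def s2472_2474 (i sh : Nat) : Nat := Bool.rec (Nat.shiftRight leaf2472 sh) (Nat.shiftRight leaf2473 sh) (Nat.ble 2473 i)
noncomputable def s2471_2474 (i sh : Nat) : Nat := Bool.rec (Nat.shiftRight leaf2471 sh) (s2472_2474 i sh) (Nat.ble 2472 i)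
noncomputable def s2467_2474 (i sh : Nat) : Nat := Bool.rec (s2467_2471 i sh) (s2471_2474 i sh) (Nat.ble 2471 i)
noncomputable def s2461_2474 (i sh : Nat) : Nat := Bool.rec (s2461_2467 i sh) (s2467_2474 i sh) (Nat.ble 2467 i)
noncomputable def s2453_2474 (i sh : Nat) : Nat := Bool.rec (s2453_2461 i sh) (s2461_2474 i sh) (Nat.ble 2461 i)
noncomputable def s2442_2474 (i sh : Nat) : Nat := Bool.rec (s2442_2453 i sh) (s2453_2474 i sh) (Nat.ble 2453 i)
noncomputable def s2475_2477 (i sh : Nat) : Nat := Bool.rec (Nat.shiftRight leaf2475 sh) (Nat.shiftRight leaf2476 sh) (Nat.ble 2476 i)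
noncomputable def s2475_2478 (i sh : Nat) : Nat := Bool.rec (s2475_2477 i sh) (Nat.shiftRight leaf2477 sh) (Nat.ble 2477 i)
noncomputable def s2474_2478 (i sh : Nat) : Nat := Bool.rec (Nat.shiftRight leaf2474 sh) (s2475_2478 i sh) (Nat.ble 2475 i)
noncomputable def s2478_2480 (i sh : Nat) : Nat := Bool.rec (Nat.shiftRight leaf2478 sh) (Nat.shiftRight leaf2479 sh) (Nat.ble 2479 i)
noncomputable def s2480_2482 (i sh : Nat) : Nat := Bool.rec (Nat.shiftRight leaf2480 sh) (Nat.shiftRight leaf2481 sh) (Nat.ble 2481 i)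
noncomputable def s2480_2483 (i sh : Nat) : Nat := Bool.rec (s2480_2482 i sh) (Nat.shiftRight leaf2482 sh) (Nat.ble 2482 i)
noncomputable def s2478_2483 (i sh : Nat) : Nat := Bool.rec (s2478_2480 i sh) (s2480_2483 i sh) (Nat.ble 2480 i)
noncomputable def s2474_2483 (i sh : Nat) : Nat := Bool.rec (s2474_2478 i sh) (s2478_2483 i sh) (Nat.ble 2478 i)
noncomputable def s2484_2486 (i sh : Nat) : Nat := Bool.rec (Nat.shiftRight leaf2484 sh) (Nat.shiftRight leaf2485 sh) (Nat.ble 2485 i)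
noncomputable def s2483_2486 (i sh : Nat) : Nat := Bool.rec (Nat.shiftRight leaf2483 sh) (s2484_2486 i sh) (Nat.ble 2484 i)
noncomputable def s2487_2489 (i sh : Nat) : Nat := Bool.rec (Nat.shiftRight leaf2487 sh) (Nat.shiftRight leaf2488 sh) (Nat.ble 2488 i)
noncomputable def s2486_2489 (i sh : Nat) : Nat := Bool.rec (Nat.shiftRight leaf2486 sh) (s2487_2489 i sh) (Nat.ble 2487 i)
noncomputable def s2483_2489 (i sh : Nat) : Nat := Bool.rec (s2483_2486 i sh) (s2486_2489 i sh) (Nat.ble 2486 i)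
noncomputable def s2489_2491 (i sh : Nat) : Nat := Bool.rec (Nat.shiftRight leaf2489 sh) (Nat.shiftRight leaf2490 sh) (Nat.ble 2490 i)
noncomputable def s2489_2492 (i sh : Nat) : Nat := Bool.rec (s2489_2491 i sh) (Nat.shiftRight leaf2491 sh) (Nat.ble 2491 i)
noncomputable def s2483_2492 (i sh : Nat) : Nat := Bool.rec (s2483_2489 i sh) (s2489_2492 i sh) (Nat.ble 2489 i)
noncomputable def s2474_2492 (i sh : Nat) : Nat := Bool.rec (s2474_2483 i sh) (s2483_2492 i sh) (Nat.ble 2483 i)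
noncomputable def s2492_2494 (i sh : Nat) : Nat := Bool.rec (Nat.shiftRight leaf2492 sh) (Nat.shiftRight leaf2493 sh) (Nat.ble 2493 i)
noncomputable def s2474_2494 (i sh : Nat) : Nat := Bool.rec (s2474_2492 i sh) (s2492_2494 i sh) (Nat.ble 2492 i)
noncomputable def s2442_2494 (i sh : Nat) : Nat := Bool.rec (s2442_2474 i sh) (s2474_2494 i sh) (Nat.ble 2474 i)
noncomputable def s2495_2497 (i sh : Nat) : Nat := Bool.rec (Nat.shiftRight leaf2495 sh) (Nat.shiftRight leaf2496 sh) (Nat.ble 2496 i)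
noncomputable def s2495_2498 (i sh : Nat) : Nat := Bool.rec (s2495_2497 i sh) (Nat.shiftRight leaf2497 sh) (Nat.ble 2497 i)
noncomputable def s2495_2499 (i sh : Nat) : Nat := Bool.rec (s2495_2498 i sh) (Nat.shiftRight leaf2498 sh) (Nat.ble 2498 i)
noncomputable def s2500_2502 (i sh : Nat) : Nat := Bool.rec (Nat.shiftRight leaf2500 sh) (Nat.shiftRight leaf2501 sh) (Nat.ble 2501 i)
noncomputable def s2499_2502 (i sh : Nat) : Nat := Bool.rec (Nat.shiftRight leaf2499 sh) (s2500_2502 i sh) (Nat.ble 2500 i)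
noncomputable def s2502_2504 (i sh : Nat) : Nat := Bool.rec (Nat.shiftRight leaf2502 sh) (Nat.shiftRight leaf2503 sh) (Nat.ble 2503 i)
noncomputable def s2502_2505 (i sh : Nat) : Nat := Bool.rec (s2502_2504 i sh) (Nat.shiftRight leaf2504 sh) (Nat.ble 2504 i)
noncomputable def s2499_2505 (i sh : Nat) : Nat := Bool.rec (s2499_2502 i sh) (s2502_2505 i sh) (Nat.ble 2502 i)
noncomputable def s2495_2505 (i sh : Nat) : Nat := Bool.rec (s2495_2499 i sh) (s2499_2505 i sh) (Nat.ble 2499 i)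
noncomputable def s2505_2507 (i sh : Nat) : Nat := Bool.rec (Nat.shiftRight leaf2505 sh) (Nat.shiftRight leaf2506 sh) (Nat.ble 2506 i)
noncomputable def s2495_2507 (i sh : Nat) : Nat := Bool.rec (s2495_2505 i sh) (s2505_2507 i sh) (Nat.ble 2505 i)
noncomputable def s2494_2507 (i sh : Nat) : Nat := Bool.rec (Nat.shiftRight leaf2494 sh) (s2495_2507 i sh) (Nat.ble 2495 i)
noncomputable def s2507_2509 (i sh : Nat) : Nat := Bool.rec (Nat.shiftRight leaf2507 sh) (Nat.shiftRight leaf2508 sh) (Nat.ble 2508 i)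
noncomputable def s2507_2510 (i sh : Nat) : Nat := Bool.rec (s2507_2509 i sh) (Nat.shiftRight leaf2509 sh) (Nat.ble 2509 i)
noncomputable def s2494_2510 (i sh : Nat) : Nat := Bool.rec (s2494_2507 i sh) (s2507_2510 i sh) (Nat.ble 2507 i)
noncomputable def s2510_2512 (i sh : Nat) : Nat := Bool.rec (Nat.shiftRight leaf2510 sh) (Nat.shiftRight leaf2511 sh) (Nat.ble 2511 i)
noncomputable def s2510_2513 (i sh : Nat) : Nat := Bool.rec (s2510_2512 i sh) (Nat.shiftRight leaf2512 sh) (Nat.ble 2512 i)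
noncomputable def s2515_2517 (i sh : Nat) : Nat := Bool.rec (Nat.shiftRight leaf2515 sh) (Nat.shiftRight leaf2516 sh) (Nat.ble 2516 i)
noncomputable def s2514_2517 (i sh : Nat) : Nat := Bool.rec (Nat.shiftRight leaf2514 sh) (s2515_2517 i sh) (Nat.ble 2515 i)
noncomputable def s2513_2517 (i sh : Nat) : Nat := Bool.rec (Nat.shiftRight leaf2513 sh) (s2514_2517 i sh) (Nat.ble 2514 i)
noncomputable def s2510_2517 (i sh : Nat) : Nat := Bool.rec (s2510_2513 i sh) (s2513_2517 i sh) (Nat.ble 2513 i)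
noncomputable def s2517_2519 (i sh : Nat) : Nat := Bool.rec (Nat.shiftRight leaf2517 sh) (Nat.shiftRight leaf2518 sh) (Nat.ble 2518 i)
noncomputable def s2519_2521 (i sh : Nat) : Nat := Bool.rec (Nat.shiftRight leaf2519 sh) (Nat.shiftRight leaf2520 sh) (Nat.ble 2520 i)
noncomputable def s2517_2521 (i sh : Nat) : Nat := Bool.rec (s2517_2519 i sh) (s2519_2521 i sh) (Nat.ble 2519 i)
noncomputable def s2517_2522 (i sh : Nat) : Nat := Bool.rec (s2517_2521 i sh) (Nat.shiftRight leaf2521 sh) (Nat.ble 2521 i)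
noncomputable def s2510_2522 (i sh : Nat) : Nat := Bool.rec (s2510_2517 i sh) (s2517_2522 i sh) (Nat.ble 2517 i)
noncomputable def s2523_2525 (i sh : Nat) : Nat := Bool.rec (Nat.shiftRight leaf2523 sh) (Nat.shiftRight leaf2524 sh) (Nat.ble 2524 i)
noncomputable def s2522_2525 (i sh : Nat) : Nat := Bool.rec (Nat.shiftRight leaf2522 sh) (s2523_2525 i sh) (Nat.ble 2523 i)
noncomputable def s2527_2529 (i sh : Nat) : Nat := Bool.rec (Nat.shiftRight leaf2527 sh) (Nat.shiftRight leaf2528 sh) (Nat.ble 2528 i)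
noncomputable def s2526_2529 (i sh : Nat) : Nat := Bool.rec (Nat.shiftRight leaf2526 sh) (s2527_2529 i sh) (Nat.ble 2527 i)
noncomputable def s2525_2529 (i sh : Nat) : Nat := Bool.rec (Nat.shiftRight leaf2525 sh) (s2526_2529 i sh) (Nat.ble 2526 i)
noncomputable def s2529_2531 (i sh : Nat) : Nat := Bool.rec (Nat.shiftRight leaf2529 sh) (Nat.shiftRight leaf2530 sh) (Nat.ble 2530 i)
noncomputable def s2531_2533 (i sh : Nat) : Nat := Bool.rec (Nat.shiftRight leaf2531 sh) (Nat.shiftRight leaf2532 sh) (Nat.ble 2532 i)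
noncomputable def s2529_2533 (i sh : Nat) : Nat := Bool.rec (s2529_2531 i sh) (s2531_2533 i sh) (Nat.ble 2531 i)
noncomputable def s2525_2533 (i sh : Nat) : Nat := Bool.rec (s2525_2529 i sh) (s2529_2533 i sh) (Nat.ble 2529 i)
noncomputable def s2522_2533 (i sh : Nat) : Nat := Bool.rec (s2522_2525 i sh) (s2525_2533 i sh) (Nat.ble 2525 i)
noncomputable def s2510_2533 (i sh : Nat) : Nat := Bool.rec (s2510_2522 i sh) (s2522_2533 i sh) (Nat.ble 2522 i)
noncomputable def s2533_2535 (i sh : Nat) : Nat := Bool.rec (Nat.shiftRight leaf2533 sh) (Nat.shiftRight leaf2534 sh) (Nat.ble 2534 i)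
noncomputable def s2533_2536 (i sh : Nat) : Nat := Bool.rec (s2533_2535 i sh) (Nat.shiftRight leaf2535 sh) (Nat.ble 2535 i)
noncomputable def s2537_2539 (i sh : Nat) : Nat := Bool.rec (Nat.shiftRight leaf2537 sh) (Nat.shiftRight leaf2538 sh) (Nat.ble 2538 i)
noncomputable def s2536_2539 (i sh : Nat) : Nat := Bool.rec (Nat.shiftRight leaf2536 sh) (s2537_2539 i sh) (Nat.ble 2537 i)
noncomputable def s2539_2541 (i sh : Nat) : Nat := Bool.rec (Nat.shiftRight leaf2539 sh) (Nat.shiftRight leaf2540 sh) (Nat.ble 2540 i)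
noncomputable def s2539_2542 (i sh : Nat) : Nat := Bool.rec (s2539_2541 i sh) (Nat.shiftRight leaf2541 sh) (Nat.ble 2541 i)
noncomputable def s2536_2542 (i sh : Nat) : Nat := Bool.rec (s2536_2539 i sh) (s2539_2542 i sh) (Nat.ble 2539 i)
noncomputable def s2542_2544 (i sh : Nat) : Nat := Bool.rec (Nat.shiftRight leaf2542 sh) (Nat.shiftRight leaf2543 sh) (Nat.ble 2543 i)
noncomputable def s2544_2546 (i sh : Nat) : Nat := Bool.rec (Nat.shiftRight leaf2544 sh) (Nat.shiftRight leaf2545 sh) (Nat.ble 2545 i)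
noncomputable def s2542_2546 (i sh : Nat) : Nat := Bool.rec (s2542_2544 i sh) (s2544_2546 i sh) (Nat.ble 2544 i)
noncomputable def s2536_2546 (i sh : Nat) : Nat := Bool.rec (s2536_2542 i sh) (s2542_2546 i sh) (Nat.ble 2542 i)
noncomputable def s2533_2546 (i sh : Nat) : Nat := Bool.rec (s2533_2536 i sh) (s2536_2546 i sh) (Nat.ble 2536 i)
noncomputable def s2510_2546 (i sh : Nat) : Nat := Bool.rec (s2510_2533 i sh) (s2533_2546 i sh) (Nat.ble 2533 i)
noncomputable def s2494_2546 (i sh : Nat) : Nat := Bool.rec (s2494_2510 i sh) (s2510_2546 i sh) (Nat.ble 2510 i)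
noncomputable def s2442_2546 (i sh : Nat) : Nat := Bool.rec (s2442_2494 i sh) (s2494_2546 i sh) (Nat.ble 2494 i)
noncomputable def s2335_2546 (i sh : Nat) : Nat := Bool.rec (s2335_2442 i sh) (s2442_2546 i sh) (Nat.ble 2442 i)
noncomputable def s1881_2546 (i sh : Nat) : Nat := Bool.rec (s1881_2335 i sh) (s2335_2546 i sh) (Nat.ble 2335 i)
noncomputable def s2547_2549 (i sh : Nat) : Nat := Bool.rec (Nat.shiftRight leaf2547 sh) (Nat.shiftRight leaf2548 sh) (Nat.ble 2548 i)
noncomputable def s2546_2549 (i sh : Nat) : Nat := Bool.rec (Nat.shiftRight leaf2546 sh) (s2547_2549 i sh) (Nat.ble 2547 i)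
noncomputable def s2549_2551 (i sh : Nat) : Nat := Bool.rec (Nat.shiftRight leaf2549 sh) (Nat.shiftRight leaf2550 sh) (Nat.ble 2550 i)
noncomputable def s2549_2552 (i sh : Nat) : Nat := Bool.rec (s2549_2551 i sh) (Nat.shiftRight leaf2551 sh) (Nat.ble 2551 i)
noncomputable def s2546_2552 (i sh : Nat) : Nat := Bool.rec (s2546_2549 i sh) (s2549_2552 i sh) (Nat.ble 2549 i)
noncomputable def s2552_2554 (i sh : Nat) : Nat := Bool.rec (Nat.shiftRight leaf2552 sh) (Nat.shiftRight leaf2553 sh) (Nat.ble 2553 i)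
noncomputable def s2554_2556 (i sh : Nat) : Nat := Bool.rec (Nat.shiftRight leaf2554 sh) (Nat.shiftRight leaf2555 sh) (Nat.ble 2555 i)
noncomputable def s2552_2556 (i sh : Nat) : Nat := Bool.rec (s2552_2554 i sh) (s2554_2556 i sh) (Nat.ble 2554 i)
noncomputable def s2556_2558 (i sh : Nat) : Nat := Bool.rec (Nat.shiftRight leaf2556 sh) (Nat.shiftRight leaf2557 sh) (Nat.ble 2557 i)
noncomputable def s2556_2559 (i sh : Nat) : Nat := Bool.rec (s2556_2558 i sh) (Nat.shiftRight leaf2558 sh) (Nat.ble 2558 i)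
noncomputable def s2552_2559 (i sh : Nat) : Nat := Bool.rec (s2552_2556 i sh) (s2556_2559 i sh) (Nat.ble 2556 i)
noncomputable def s2559_2561 (i sh : Nat) : Nat := Bool.rec (Nat.shiftRight leaf2559 sh) (Nat.shiftRight leaf2560 sh) (Nat.ble 2560 i)
noncomputable def s2561_2563 (i sh : Nat) : Nat := Bool.rec (Nat.shiftRight leaf2561 sh) (Nat.shiftRight leaf2562 sh) (Nat.ble 2562 i)
noncomputable def s2559_2563 (i sh : Nat) : Nat := Bool.rec (s2559_2561 i sh) (s2561_2563 i sh) (Nat.ble 2561 i)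
noncomputable def s2563_2565 (i sh : Nat) : Nat := Bool.rec (Nat.shiftRight leaf2563 sh) (Nat.shiftRight leaf2564 sh) (Nat.ble 2564 i)
noncomputable def s2565_2567 (i sh : Nat) : Nat := Bool.rec (Nat.shiftRight leaf2565 sh) (Nat.shiftRight leaf2566 sh) (Nat.ble 2566 i)
noncomputable def s2563_2567 (i sh : Nat) : Nat := Bool.rec (s2563_2565 i sh) (s2565_2567 i sh) (Nat.ble 2565 i)
noncomputable def s2559_2567 (i sh : Nat) : Nat := Bool.rec (s2559_2563 i sh) (s2563_2567 i sh) (Nat.ble 2563 i)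
noncomputable def s2552_2567 (i sh : Nat) : Nat := Bool.rec (s2552_2559 i sh) (s2559_2567 i sh) (Nat.ble 2559 i)
noncomputable def s2546_2567 (i sh : Nat) : Nat := Bool.rec (s2546_2552 i sh) (s2552_2567 i sh) (Nat.ble 2552 i)
noncomputable def s2568_2570 (i sh : Nat) : Nat := Bool.rec (Nat.shiftRight leaf2568 sh) (Nat.shiftRight leaf2569 sh) (Nat.ble 2569 i)
noncomputable def s2567_2570 (i sh : Nat) : Nat := Bool.rec (Nat.shiftRight leaf2567 sh) (s2568_2570 i sh) (Nat.ble 2568 i)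
noncomputable def s2567_2571 (i sh : Nat) : Nat := Bool.rec (s2567_2570 i sh) (Nat.shiftRight leaf2570 sh) (Nat.ble 2570 i)
noncomputable def s2571_2573 (i sh : Nat) : Nat := Bool.rec (Nat.shiftRight leaf2571 sh) (Nat.shiftRight leaf2572 sh) (Nat.ble 2572 i)
noncomputable def s2573_2575 (i sh : Nat) : Nat := Bool.rec (Nat.shiftRight leaf2573 sh) (Nat.shiftRight leaf2574 sh) (Nat.ble 2574 i)
noncomputable def s2571_2575 (i sh : Nat) : Nat := Bool.rec (s2571_2573 i sh) (s2573_2575 i sh) (Nat.ble 2573 i)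
noncomputable def s2575_2577 (i sh : Nat) : Nat := Bool.rec (Nat.shiftRight leaf2575 sh) (Nat.shiftRight leaf2576 sh) (Nat.ble 2576 i)
noncomputable def s2575_2578 (i sh : Nat) : Nat := Bool.rec (s2575_2577 i sh) (Nat.shiftRight leaf2577 sh) (Nat.ble 2577 i)
noncomputable def s2571_2578 (i sh : Nat) : Nat := Bool.rec (s2571_2575 i sh) (s2575_2578 i sh) (Nat.ble 2575 i)
noncomputable def s2567_2578 (i sh : Nat) : Nat := Bool.rec (s2567_2571 i sh) (s2571_2578 i sh) (Nat.ble 2571 i)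
noncomputable def s2578_2580 (i sh : Nat) : Nat := Bool.rec (Nat.shiftRight leaf2578 sh) (Nat.shiftRight leaf2579 sh) (Nat.ble 2579 i)
noncomputable def s2580_2582 (i sh : Nat) : Nat := Bool.rec (Nat.shiftRight leaf2580 sh) (Nat.shiftRight leaf2581 sh) (Nat.ble 2581 i)
noncomputable def s2578_2582 (i sh : Nat) : Nat := Bool.rec (s2578_2580 i sh) (s2580_2582 i sh) (Nat.ble 2580 i)
noncomputable def s2582_2584 (i sh : Nat) : Nat := Bool.rec (Nat.shiftRight leaf2582 sh) (Nat.shiftRight leaf2583 sh) (Nat.ble 2583 i)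
noncomputable def s2578_2584 (i sh : Nat) : Nat := Bool.rec (s2578_2582 i sh) (s2582_2584 i sh) (Nat.ble 2582 i)
noncomputable def s2584_2586 (i sh : Nat) : Nat := Bool.rec (Nat.shiftRight leaf2584 sh) (Nat.shiftRight leaf2585 sh) (Nat.ble 2585 i)
noncomputable def s2584_2587 (i sh : Nat) : Nat := Bool.rec (s2584_2586 i sh) (Nat.shiftRight leaf2586 sh) (Nat.ble 2586 i)
noncomputable def s2578_2587 (i sh : Nat) : Nat := Bool.rec (s2578_2584 i sh) (s2584_2587 i sh) (Nat.ble 2584 i)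
noncomputable def s2589_2591 (i sh : Nat) : Nat := Bool.rec (Nat.shiftRight leaf2589 sh) (Nat.shiftRight leaf2590 sh) (Nat.ble 2590 i)
noncomputable def s2588_2591 (i sh : Nat) : Nat := Bool.rec (Nat.shiftRight leaf2588 sh) (s2589_2591 i sh) (Nat.ble 2589 i)
noncomputable def s2587_2591 (i sh : Nat) : Nat := Bool.rec (Nat.shiftRight leaf2587 sh) (s2588_2591 i sh) (Nat.ble 2588 i)
noncomputable def s2593_2595 (i sh : Nat) : Nat := Bool.rec (Nat.shiftRight leaf2593 sh) (Nat.shiftRight leaf2594 sh) (Nat.ble 2594 i)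
noncomputable def s2592_2595 (i sh : Nat) : Nat := Bool.rec (Nat.shiftRight leaf2592 sh) (s2593_2595 i sh) (Nat.ble 2593 i)
noncomputable def s2591_2595 (i sh : Nat) : Nat := Bool.rec (Nat.shiftRight leaf2591 sh) (s2592_2595 i sh) (Nat.ble 2592 i)
noncomputable def s2587_2595 (i sh : Nat) : Nat := Bool.rec (s2587_2591 i sh) (s2591_2595 i sh) (Nat.ble 2591 i)
noncomputable def s2578_2595 (i sh : Nat) : Nat := Bool.rec (s2578_2587 i sh) (s2587_2595 i sh) (Nat.ble 2587 i)
noncomputable def s2567_2595 (i sh : Nat) : Nat := Bool.rec (s2567_2578 i sh) (s2578_2595 i sh) (Nat.ble 2578 i)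
noncomputable def s2546_2595 (i sh : Nat) : Nat := Bool.rec (s2546_2567 i sh) (s2567_2595 i sh) (Nat.ble 2567 i)
noncomputable def s2596_2598 (i sh : Nat) : Nat := Bool.rec (Nat.shiftRight leaf2596 sh) (Nat.shiftRight leaf2597 sh) (Nat.ble 2597 i)
noncomputable def s2595_2598 (i sh : Nat) : Nat := Bool.rec (Nat.shiftRight leaf2595 sh) (s2596_2598 i sh) (Nat.ble 2596 i)
noncomputable def s2595_2599 (i sh : Nat) : Nat := Bool.rec (s2595_2598 i sh) (Nat.shiftRight leaf2598 sh) (Nat.ble 2598 i)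
noncomputable def s2599_2601 (i sh : Nat) : Nat := Bool.rec (Nat.shiftRight leaf2599 sh) (Nat.shiftRight leaf2600 sh) (Nat.ble 2600 i)
noncomputable def s2595_2601 (i sh : Nat) : Nat := Bool.rec (s2595_2599 i sh) (s2599_2601 i sh) (Nat.ble 2599 i)
noncomputable def s2601_2603 (i sh : Nat) : Nat := Bool.rec (Nat.shiftRight leaf2601 sh) (Nat.shiftRight leaf2602 sh) (Nat.ble 2602 i)
noncomputable def s2603_2605 (i sh : Nat) : Nat := Bool.rec (Nat.shiftRight leaf2603 sh) (Nat.shiftRight leaf2604 sh) (Nat.ble 2604 i)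
noncomputable def s2601_2605 (i sh : Nat) : Nat := Bool.rec (s2601_2603 i sh) (s2603_2605 i sh) (Nat.ble 2603 i)
noncomputable def s2595_2605 (i sh : Nat) : Nat := Bool.rec (s2595_2601 i sh) (s2601_2605 i sh) (Nat.ble 2601 i)
noncomputable def s2605_2607 (i sh : Nat) : Nat := Bool.rec (Nat.shiftRight leaf2605 sh) (Nat.shiftRight leaf2606 sh) (Nat.ble 2606 i)
noncomputable def s2605_2608 (i sh : Nat) : Nat := Bool.rec (s2605_2607 i sh) (Nat.shiftRight leaf2607 sh) (Nat.ble 2607 i)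
noncomputable def s2608_2610 (i sh : Nat) : Nat := Bool.rec (Nat.shiftRight leaf2608 sh) (Nat.shiftRight leaf2609 sh) (Nat.ble 2609 i)
noncomputable def s2611_2613 (i sh : Nat) : Nat := Bool.rec (Nat.shiftRight leaf2611 sh) (Nat.shiftRight leaf2612 sh) (Nat.ble 2612 i)
noncomputable def s2610_2613 (i sh : Nat) : Nat := Bool.rec (Nat.shiftRight leaf2610 sh) (s2611_2613 i sh) (Nat.ble 2611 i)
noncomputable def s2608_2613 (i sh : Nat) : Nat := Bool.rec (s2608_2610 i sh) (s2610_2613 i sh) (Nat.ble 2610 i)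
noncomputable def s2605_2613 (i sh : Nat) : Nat := Bool.rec (s2605_2608 i sh) (s2608_2613 i sh) (Nat.ble 2608 i)
noncomputable def s2613_2615 (i sh : Nat) : Nat := Bool.rec (Nat.shiftRight leaf2613 sh) (Nat.shiftRight leaf2614 sh) (Nat.ble 2614 i)
noncomputable def s2615_2617 (i sh : Nat) : Nat := Bool.rec (Nat.shiftRight leaf2615 sh) (Nat.shiftRight leaf2616 sh) (Nat.ble 2616 i)
noncomputable def s2615_2618 (i sh : Nat) : Nat := Bool.rec (s2615_2617 i sh) (Nat.shiftRight leaf2617 sh) (Nat.ble 2617 i)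
noncomputable def s2613_2618 (i sh : Nat) : Nat := Bool.rec (s2613_2615 i sh) (s2615_2618 i sh) (Nat.ble 2615 i)
noncomputable def s2618_2620 (i sh : Nat) : Nat := Bool.rec (Nat.shiftRight leaf2618 sh) (Nat.shiftRight leaf2619 sh) (Nat.ble 2619 i)
noncomputable def s2618_2621 (i sh : Nat) : Nat := Bool.rec (s2618_2620 i sh) (Nat.shiftRight leaf2620 sh) (Nat.ble 2620 i)
noncomputable def s2618_2622 (i sh : Nat) : Nat := Bool.rec (s2618_2621 i sh) (Nat.shiftRight leaf2621 sh) (Nat.ble 2621 i)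
noncomputable def s2622_2624 (i sh : Nat) : Nat := Bool.rec (Nat.shiftRight leaf2622 sh) (Nat.shiftRight leaf2623 sh) (Nat.ble 2623 i)
noncomputable def s2624_2626 (i sh : Nat) : Nat := Bool.rec (Nat.shiftRight leaf2624 sh) (Nat.shiftRight leaf2625 sh) (Nat.ble 2625 i)
noncomputable def s2622_2626 (i sh : Nat) : Nat := Bool.rec (s2622_2624 i sh) (s2624_2626 i sh) (Nat.ble 2624 i)
noncomputable def s2618_2626 (i sh : Nat) : Nat := Bool.rec (s2618_2622 i sh) (s2622_2626 i sh) (Nat.ble 2622 i)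
noncomputable def s2613_2626 (i sh : Nat) : Nat := Bool.rec (s2613_2618 i sh) (s2618_2626 i sh) (Nat.ble 2618 i)
noncomputable def s2605_2626 (i sh : Nat) : Nat := Bool.rec (s2605_2613 i sh) (s2613_2626 i sh) (Nat.ble 2613 i)
noncomputable def s2595_2626 (i sh : Nat) : Nat := Bool.rec (s2595_2605 i sh) (s2605_2626 i sh) (Nat.ble 2605 i)
noncomputable def s2546_2626 (i sh : Nat) : Nat := Bool.rec (s2546_2595 i sh) (s2595_2626 i sh) (Nat.ble 2595 i)
noncomputable def s2626_2628 (i sh : Nat) : Nat := Bool.rec (Nat.shiftRight leaf2626 sh) (Nat.shiftRight leaf2627 sh) (Nat.ble 2627 i)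
noncomputable def s2629_2631 (i sh : Nat) : Nat := Bool.rec (Nat.shiftRight leaf2629 sh) (Nat.shiftRight leaf2630 sh) (Nat.ble 2630 i)
noncomputable def s2628_2631 (i sh : Nat) : Nat := Bool.rec (Nat.shiftRight leaf2628 sh) (s2629_2631 i sh) (Nat.ble 2629 i)
noncomputable def s2631_2633 (i sh : Nat) : Nat := Bool.rec (Nat.shiftRight leaf2631 sh) (Nat.shiftRight leaf2632 sh) (Nat.ble 2632 i)
noncomputable def s2628_2633 (i sh : Nat) : Nat := Bool.rec (s2628_2631 i sh) (s2631_2633 i sh) (Nat.ble 2631 i)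
noncomputable def s2633_2635 (i sh : Nat) : Nat := Bool.rec (Nat.shiftRight leaf2633 sh) (Nat.shiftRight leaf2634 sh) (Nat.ble 2634 i)
noncomputable def s2636_2638 (i sh : Nat) : Nat := Bool.rec (Nat.shiftRight leaf2636 sh) (Nat.shiftRight leaf2637 sh) (Nat.ble 2637 i)
noncomputable def s2635_2638 (i sh : Nat) : Nat := Bool.rec (Nat.shiftRight leaf2635 sh) (s2636_2638 i sh) (Nat.ble 2636 i)
noncomputable def s2633_2638 (i sh : Nat) : Nat := Bool.rec (s2633_2635 i sh) (s2635_2638 i sh) (Nat.ble 2635 i)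
noncomputable def s2638_2640 (i sh : Nat) : Nat := Bool.rec (Nat.shiftRight leaf2638 sh) (Nat.shiftRight leaf2639 sh) (Nat.ble 2639 i)
noncomputable def s2638_2641 (i sh : Nat) : Nat := Bool.rec (s2638_2640 i sh) (Nat.shiftRight leaf2640 sh) (Nat.ble 2640 i)
noncomputable def s2633_2641 (i sh : Nat) : Nat := Bool.rec (s2633_2638 i sh) (s2638_2641 i sh) (Nat.ble 2638 i)
noncomputable def s2628_2641 (i sh : Nat) : Nat := Bool.rec (s2628_2633 i sh) (s2633_2641 i sh) (Nat.ble 2633 i)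
noncomputable def s2641_2643 (i sh : Nat) : Nat := Bool.rec (Nat.shiftRight leaf2641 sh) (Nat.shiftRight leaf2642 sh) (Nat.ble 2642 i)
noncomputable def s2643_2645 (i sh : Nat) : Nat := Bool.rec (Nat.shiftRight leaf2643 sh) (Nat.shiftRight leaf2644 sh) (Nat.ble 2644 i)
noncomputable def s2641_2645 (i sh : Nat) : Nat := Bool.rec (s2641_2643 i sh) (s2643_2645 i sh) (Nat.ble 2643 i)
noncomputable def s2646_2648 (i sh : Nat) : Nat := Bool.rec (Nat.shiftRight leaf2646 sh) (Nat.shiftRight leaf2647 sh) (Nat.ble 2647 i)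
noncomputable def s2645_2648 (i sh : Nat) : Nat := Bool.rec (Nat.shiftRight leaf2645 sh) (s2646_2648 i sh) (Nat.ble 2646 i)
noncomputable def s2648_2650 (i sh : Nat) : Nat := Bool.rec (Nat.shiftRight leaf2648 sh) (Nat.shiftRight leaf2649 sh) (Nat.ble 2649 i)
noncomputable def s2645_2650 (i sh : Nat) : Nat := Bool.rec (s2645_2648 i sh) (s2648_2650 i sh) (Nat.ble 2648 i)
noncomputable def s2641_2650 (i sh : Nat) : Nat := Bool.rec (s2641_2645 i sh) (s2645_2650 i sh) (Nat.ble 2645 i)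
noncomputable def s2650_2652 (i sh : Nat) : Nat := Bool.rec (Nat.shiftRight leaf2650 sh) (Nat.shiftRight leaf2651 sh) (Nat.ble 2651 i)
noncomputable def s2652_2654 (i sh : Nat) : Nat := Bool.rec (Nat.shiftRight leaf2652 sh) (Nat.shiftRight leaf2653 sh) (Nat.ble 2653 i)
noncomputable def s2650_2654 (i sh : Nat) : Nat := Bool.rec (s2650_2652 i sh) (s2652_2654 i sh) (Nat.ble 2652 i)
noncomputable def s2650_2655 (i sh : Nat) : Nat := Bool.rec (s2650_2654 i sh) (Nat.shiftRight leaf2654 sh) (Nat.ble 2654 i)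
noncomputable def s2641_2655 (i sh : Nat) : Nat := Bool.rec (s2641_2650 i sh) (s2650_2655 i sh) (Nat.ble 2650 i)
noncomputable def s2628_2655 (i sh : Nat) : Nat := Bool.rec (s2628_2641 i sh) (s2641_2655 i sh) (Nat.ble 2641 i)
noncomputable def s2626_2655 (i sh : Nat) : Nat := Bool.rec (s2626_2628 i sh) (s2628_2655 i sh) (Nat.ble 2628 i)
noncomputable def s2655_2657 (i sh : Nat) : Nat := Bool.rec (Nat.shiftRight leaf2655 sh) (Nat.shiftRight leaf2656 sh) (Nat.ble 2656 i)
noncomputable def s2657_2659 (i sh : Nat) : Nat := Bool.rec (Nat.shiftRight leaf2657 sh) (Nat.shiftRight leaf2658 sh) (Nat.ble 2658 i)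
noncomputable def s2655_2659 (i sh : Nat) : Nat := Bool.rec (s2655_2657 i sh) (s2657_2659 i sh) (Nat.ble 2657 i)
noncomputable def s2660_2662 (i sh : Nat) : Nat := Bool.rec (Nat.shiftRight leaf2660 sh) (Nat.shiftRight leaf2661 sh) (Nat.ble 2661 i)
noncomputable def s2659_2662 (i sh : Nat) : Nat := Bool.rec (Nat.shiftRight leaf2659 sh) (s2660_2662 i sh) (Nat.ble 2660 i)
noncomputable def s2655_2662 (i sh : Nat) : Nat := Bool.rec (s2655_2659 i sh) (s2659_2662 i sh) (Nat.ble 2659 i)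
noncomputable def s2655_2663 (i sh : Nat) : Nat := Bool.rec (s2655_2662 i sh) (Nat.shiftRight leaf2662 sh) (Nat.ble 2662 i)
noncomputable def s2663_2665 (i sh : Nat) : Nat := Bool.rec (Nat.shiftRight leaf2663 sh) (Nat.shiftRight leaf2664 sh) (Nat.ble 2664 i)
noncomputable def s2665_2667 (i sh : Nat) : Nat := Bool.rec (Nat.shiftRight leaf2665 sh) (Nat.shiftRight leaf2666 sh) (Nat.ble 2666 i)
noncomputable def s2665_2668 (i sh : Nat) : Nat := Bool.rec (s2665_2667 i sh) (Nat.shiftRight leaf2667 sh) (Nat.ble 2667 i)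
noncomputable def s2663_2668 (i sh : Nat) : Nat := Bool.rec (s2663_2665 i sh) (s2665_2668 i sh) (Nat.ble 2665 i)
noncomputable def s2668_2670 (i sh : Nat) : Nat := Bool.rec (Nat.shiftRight leaf2668 sh) (Nat.shiftRight leaf2669 sh) (Nat.ble 2669 i)
noncomputable def s2670_2672 (i sh : Nat) : Nat := Bool.rec (Nat.shiftRight leaf2670 sh) (Nat.shiftRight leaf2671 sh) (Nat.ble 2671 i)
noncomputable def s2668_2672 (i sh : Nat) : Nat := Bool.rec (s2668_2670 i sh) (s2670_2672 i sh) (Nat.ble 2670 i)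
noncomputable def s2672_2674 (i sh : Nat) : Nat := Bool.rec (Nat.shiftRight leaf2672 sh) (Nat.shiftRight leaf2673 sh) (Nat.ble 2673 i)
noncomputable def s2668_2674 (i sh : Nat) : Nat := Bool.rec (s2668_2672 i sh) (s2672_2674 i sh) (Nat.ble 2672 i)
noncomputable def s2663_2674 (i sh : Nat) : Nat := Bool.rec (s2663_2668 i sh) (s2668_2674 i sh) (Nat.ble 2668 i)
noncomputable def s2655_2674 (i sh : Nat) : Nat := Bool.rec (s2655_2663 i sh) (s2663_2674 i sh) (Nat.ble 2663 i)
noncomputable def s2675_2677 (i sh : Nat) : Nat := Bool.rec (Nat.shiftRight leaf2675 sh) (Nat.shiftRight leaf2676 sh) (Nat.ble 2676 i)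
noncomputable def s2674_2677 (i sh : Nat) : Nat := Bool.rec (Nat.shiftRight leaf2674 sh) (s2675_2677 i sh) (Nat.ble 2675 i)
noncomputable def s2677_2679 (i sh : Nat) : Nat := Bool.rec (Nat.shiftRight leaf2677 sh) (Nat.shiftRight leaf2678 sh) (Nat.ble 2678 i)
noncomputable def s2679_2681 (i sh : Nat) : Nat := Bool.rec (Nat.shiftRight leaf2679 sh) (Nat.shiftRight leaf2680 sh) (Nat.ble 2680 i)
noncomputable def s2677_2681 (i sh : Nat) : Nat := Bool.rec (s2677_2679 i sh) (s2679_2681 i sh) (Nat.ble 2679 i)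
noncomputable def s2674_2681 (i sh : Nat) : Nat := Bool.rec (s2674_2677 i sh) (s2677_2681 i sh) (Nat.ble 2677 i)
noncomputable def s2681_2683 (i sh : Nat) : Nat := Bool.rec (Nat.shiftRight leaf2681 sh) (Nat.shiftRight leaf2682 sh) (Nat.ble 2682 i)
noncomputable def s2683_2685 (i sh : Nat) : Nat := Bool.rec (Nat.shiftRight leaf2683 sh) (Nat.shiftRight leaf2684 sh) (Nat.ble 2684 i)
noncomputable def s2681_2685 (i sh : Nat) : Nat := Bool.rec (s2681_2683 i sh) (s2683_2685 i sh) (Nat.ble 2683 i)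
noncomputable def s2674_2685 (i sh : Nat) : Nat := Bool.rec (s2674_2681 i sh) (s2681_2685 i sh) (Nat.ble 2681 i)
noncomputable def s2685_2687 (i sh : Nat) : Nat := Bool.rec (Nat.shiftRight leaf2685 sh) (Nat.shiftRight leaf2686 sh) (Nat.ble 2686 i)
noncomputable def s2685_2688 (i sh : Nat) : Nat := Bool.rec (s2685_2687 i sh) (Nat.shiftRight leaf2687 sh) (Nat.ble 2687 i)
noncomputable def s2689_2691 (i sh : Nat) : Nat := Bool.rec (Nat.shiftRight leaf2689 sh) (Nat.shiftRight leaf2690 sh) (Nat.ble 2690 i)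
noncomputable def s2688_2691 (i sh : Nat) : Nat := Bool.rec (Nat.shiftRight leaf2688 sh) (s2689_2691 i sh) (Nat.ble 2689 i)
noncomputable def s2691_2693 (i sh : Nat) : Nat := Bool.rec (Nat.shiftRight leaf2691 sh) (Nat.shiftRight leaf2692 sh) (Nat.ble 2692 i)
noncomputable def s2688_2693 (i sh : Nat) : Nat := Bool.rec (s2688_2691 i sh) (s2691_2693 i sh) (Nat.ble 2691 i)
noncomputable def s2685_2693 (i sh : Nat) : Nat := Bool.rec (s2685_2688 i sh) (s2688_2693 i sh) (Nat.ble 2688 i)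
noncomputable def s2674_2693 (i sh : Nat) : Nat := Bool.rec (s2674_2685 i sh) (s2685_2693 i sh) (Nat.ble 2685 i)
noncomputable def s2655_2693 (i sh : Nat) : Nat := Bool.rec (s2655_2674 i sh) (s2674_2693 i sh) (Nat.ble 2674 i)
noncomputable def s2694_2696 (i sh : Nat) : Nat := Bool.rec (Nat.shiftRight leaf2694 sh) (Nat.shiftRight leaf2695 sh) (Nat.ble 2695 i)
noncomputable def s2693_2696 (i sh : Nat) : Nat := Bool.rec (Nat.shiftRight leaf2693 sh) (s2694_2696 i sh) (Nat.ble 2694 i)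
noncomputable def s2697_2699 (i sh : Nat) : Nat := Bool.rec (Nat.shiftRight leaf2697 sh) (Nat.shiftRight leaf2698 sh) (Nat.ble 2698 i)
noncomputable def s2696_2699 (i sh : Nat) : Nat := Bool.rec (Nat.shiftRight leaf2696 sh) (s2697_2699 i sh) (Nat.ble 2697 i)
noncomputable def s2693_2699 (i sh : Nat) : Nat := Bool.rec (s2693_2696 i sh) (s2696_2699 i sh) (Nat.ble 2696 i)
noncomputable def s2693_2700 (i sh : Nat) : Nat := Bool.rec (s2693_2699 i sh) (Nat.shiftRight leaf2699 sh) (Nat.ble 2699 i)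
noncomputable def s2700_2702 (i sh : Nat) : Nat := Bool.rec (Nat.shiftRight leaf2700 sh) (Nat.shiftRight leaf2701 sh) (Nat.ble 2701 i)
noncomputable def s2703_2705 (i sh : Nat) : Nat := Bool.rec (Nat.shiftRight leaf2703 sh) (Nat.shiftRight leaf2704 sh) (Nat.ble 2704 i)
noncomputable def s2702_2705 (i sh : Nat) : Nat := Bool.rec (Nat.shiftRight leaf2702 sh) (s2703_2705 i sh) (Nat.ble 2703 i)
noncomputable def s2700_2705 (i sh : Nat) : Nat := Bool.rec (s2700_2702 i sh) (s2702_2705 i sh) (Nat.ble 2702 i)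
noncomputable def s2705_2707 (i sh : Nat) : Nat := Bool.rec (Nat.shiftRight leaf2705 sh) (Nat.shiftRight leaf2706 sh) (Nat.ble 2706 i)
noncomputable def s2705_2708 (i sh : Nat) : Nat := Bool.rec (s2705_2707 i sh) (Nat.shiftRight leaf2707 sh) (Nat.ble 2707 i)
noncomputable def s2709_2711 (i sh : Nat) : Nat := Bool.rec (Nat.shiftRight leaf2709 sh) (Nat.shiftRight leaf2710 sh) (Nat.ble 2710 i)
noncomputable def s2708_2711 (i sh : Nat) : Nat := Bool.rec (Nat.shiftRight leaf2708 sh) (s2709_2711 i sh) (Nat.ble 2709 i)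
noncomputable def s2705_2711 (i sh : Nat) : Nat := Bool.rec (s2705_2708 i sh) (s2708_2711 i sh) (Nat.ble 2708 i)
noncomputable def s2700_2711 (i sh : Nat) : Nat := Bool.rec (s2700_2705 i sh) (s2705_2711 i sh) (Nat.ble 2705 i)
noncomputable def s2693_2711 (i sh : Nat) : Nat := Bool.rec (s2693_2700 i sh) (s2700_2711 i sh) (Nat.ble 2700 i)
noncomputable def s2711_2713 (i sh : Nat) : Nat := Bool.rec (Nat.shiftRight leaf2711 sh) (Nat.shiftRight leaf2712 sh) (Nat.ble 2712 i)
noncomputable def s2713_2715 (i sh : Nat) : Nat := Bool.rec (Nat.shiftRight leaf2713 sh) (Nat.shiftRight leaf2714 sh) (Nat.ble 2714 i)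
noncomputable def s2711_2715 (i sh : Nat) : Nat := Bool.rec (s2711_2713 i sh) (s2713_2715 i sh) (Nat.ble 2713 i)
noncomputable def s2711_2716 (i sh : Nat) : Nat := Bool.rec (s2711_2715 i sh) (Nat.shiftRight leaf2715 sh) (Nat.ble 2715 i)
noncomputable def s2716_2718 (i sh : Nat) : Nat := Bool.rec (Nat.shiftRight leaf2716 sh) (Nat.shiftRight leaf2717 sh) (Nat.ble 2717 i)
noncomputable def s2716_2719 (i sh : Nat) : Nat := Bool.rec (s2716_2718 i sh) (Nat.shiftRight leaf2718 sh) (Nat.ble 2718 i)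
noncomputable def s2716_2720 (i sh : Nat) : Nat := Bool.rec (s2716_2719 i sh) (Nat.shiftRight leaf2719 sh) (Nat.ble 2719 i)
noncomputable def s2711_2720 (i sh : Nat) : Nat := Bool.rec (s2711_2716 i sh) (s2716_2720 i sh) (Nat.ble 2716 i)
noncomputable def s2721_2723 (i sh : Nat) : Nat := Bool.rec (Nat.shiftRight leaf2721 sh) (Nat.shiftRight leaf2722 sh) (Nat.ble 2722 i)
noncomputable def s2720_2723 (i sh : Nat) : Nat := Bool.rec (Nat.shiftRight leaf2720 sh) (s2721_2723 i sh) (Nat.ble 2721 i)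
noncomputable def s2720_2724 (i sh : Nat) : Nat := Bool.rec (s2720_2723 i sh) (Nat.shiftRight leaf2723 sh) (Nat.ble 2723 i)
noncomputable def s2711_2724 (i sh : Nat) : Nat := Bool.rec (s2711_2720 i sh) (s2720_2724 i sh) (Nat.ble 2720 i)
noncomputable def s2693_2724 (i sh : Nat) : Nat := Bool.rec (s2693_2711 i sh) (s2711_2724 i sh) (Nat.ble 2711 i)
noncomputable def s2655_2724 (i sh : Nat) : Nat := Bool.rec (s2655_2693 i sh) (s2693_2724 i sh) (Nat.ble 2693 i)
noncomputable def s2626_2724 (i sh : Nat) : Nat := Bool.rec (s2626_2655 i sh) (s2655_2724 i sh) (Nat.ble 2655 i)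
noncomputable def s2546_2724 (i sh : Nat) : Nat := Bool.rec (s2546_2626 i sh) (s2626_2724 i sh) (Nat.ble 2626 i)
noncomputable def s2725_2727 (i sh : Nat) : Nat := Bool.rec (Nat.shiftRight leaf2725 sh) (Nat.shiftRight leaf2726 sh) (Nat.ble 2726 i)
noncomputable def s2724_2727 (i sh : Nat) : Nat := Bool.rec (Nat.shiftRight leaf2724 sh) (s2725_2727 i sh) (Nat.ble 2725 i)
noncomputable def s2727_2729 (i sh : Nat) : Nat := Bool.rec (Nat.shiftRight leaf2727 sh) (Nat.shiftRight leaf2728 sh) (Nat.ble 2728 i)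
noncomputable def s2724_2729 (i sh : Nat) : Nat := Bool.rec (s2724_2727 i sh) (s2727_2729 i sh) (Nat.ble 2727 i)
noncomputable def s2729_2731 (i sh : Nat) : Nat := Bool.rec (Nat.shiftRight leaf2729 sh) (Nat.shiftRight leaf2730 sh) (Nat.ble 2730 i)
noncomputable def s2731_2733 (i sh : Nat) : Nat := Bool.rec (Nat.shiftRight leaf2731 sh) (Nat.shiftRight leaf2732 sh) (Nat.ble 2732 i)
noncomputable def s2729_2733 (i sh : Nat) : Nat := Bool.rec (s2729_2731 i sh) (s2731_2733 i sh) (Nat.ble 2731 i)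
noncomputable def s2729_2734 (i sh : Nat) : Nat := Bool.rec (s2729_2733 i sh) (Nat.shiftRight leaf2733 sh) (Nat.ble 2733 i)
noncomputable def s2724_2734 (i sh : Nat) : Nat := Bool.rec (s2724_2729 i sh) (s2729_2734 i sh) (Nat.ble 2729 i)
noncomputable def s2734_2736 (i sh : Nat) : Nat := Bool.rec (Nat.shiftRight leaf2734 sh) (Nat.shiftRight leaf2735 sh) (Nat.ble 2735 i)
noncomputable def s2738_2740 (i sh : Nat) : Nat := Bool.rec (Nat.shiftRight leaf2738 sh) (Nat.shiftRight leaf2739 sh) (Nat.ble 2739 i)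
noncomputable def s2737_2740 (i sh : Nat) : Nat := Bool.rec (Nat.shiftRight leaf2737 sh) (s2738_2740 i sh) (Nat.ble 2738 i)
noncomputable def s2736_2740 (i sh : Nat) : Nat := Bool.rec (Nat.shiftRight leaf2736 sh) (s2737_2740 i sh) (Nat.ble 2737 i)
noncomputable def s2734_2740 (i sh : Nat) : Nat := Bool.rec (s2734_2736 i sh) (s2736_2740 i sh) (Nat.ble 2736 i)
noncomputable def s2724_2740 (i sh : Nat) : Nat := Bool.rec (s2724_2734 i sh) (s2734_2740 i sh) (Nat.ble 2734 i)
noncomputable def s2740_2742 (i sh : Nat) : Nat := Bool.rec (Nat.shiftRight leaf2740 sh) (Nat.shiftRight leaf2741 sh) (Nat.ble 2741 i)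
noncomputable def s2742_2744 (i sh : Nat) : Nat := Bool.rec (Nat.shiftRight leaf2742 sh) (Nat.shiftRight leaf2743 sh) (Nat.ble 2743 i)
noncomputable def s2740_2744 (i sh : Nat) : Nat := Bool.rec (s2740_2742 i sh) (s2742_2744 i sh) (Nat.ble 2742 i)
noncomputable def s2740_2745 (i sh : Nat) : Nat := Bool.rec (s2740_2744 i sh) (Nat.shiftRight leaf2744 sh) (Nat.ble 2744 i)
noncomputable def s2745_2747 (i sh : Nat) : Nat := Bool.rec (Nat.shiftRight leaf2745 sh) (Nat.shiftRight leaf2746 sh) (Nat.ble 2746 i)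
noncomputable def s2747_2749 (i sh : Nat) : Nat := Bool.rec (Nat.shiftRight leaf2747 sh) (Nat.shiftRight leaf2748 sh) (Nat.ble 2748 i)
noncomputable def s2745_2749 (i sh : Nat) : Nat := Bool.rec (s2745_2747 i sh) (s2747_2749 i sh) (Nat.ble 2747 i)
noncomputable def s2740_2749 (i sh : Nat) : Nat := Bool.rec (s2740_2745 i sh) (s2745_2749 i sh) (Nat.ble 2745 i)
noncomputable def s2749_2751 (i sh : Nat) : Nat := Bool.rec (Nat.shiftRight leaf2749 sh) (Nat.shiftRight leaf2750 sh) (Nat.ble 2750 i)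
noncomputable def s2751_2753 (i sh : Nat) : Nat := Bool.rec (Nat.shiftRight leaf2751 sh) (Nat.shiftRight leaf2752 sh) (Nat.ble 2752 i)
noncomputable def s2751_2754 (i sh : Nat) : Nat := Bool.rec (s2751_2753 i sh) (Nat.shiftRight leaf2753 sh) (Nat.ble 2753 i)
noncomputable def s2749_2754 (i sh : Nat) : Nat := Bool.rec (s2749_2751 i sh) (s2751_2754 i sh) (Nat.ble 2751 i)
noncomputable def s2754_2756 (i sh : Nat) : Nat := Bool.rec (Nat.shiftRight leaf2754 sh) (Nat.shiftRight leaf2755 sh) (Nat.ble 2755 i)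
noncomputable def s2757_2759 (i sh : Nat) : Nat := Bool.rec (Nat.shiftRight leaf2757 sh) (Nat.shiftRight leaf2758 sh) (Nat.ble 2758 i)
noncomputable def s2756_2759 (i sh : Nat) : Nat := Bool.rec (Nat.shiftRight leaf2756 sh) (s2757_2759 i sh) (Nat.ble 2757 i)
noncomputable def s2754_2759 (i sh : Nat) : Nat := Bool.rec (s2754_2756 i sh) (s2756_2759 i sh) (Nat.ble 2756 i)
noncomputable def s2749_2759 (i sh : Nat) : Nat := Bool.rec (s2749_2754 i sh) (s2754_2759 i sh) (Nat.ble 2754 i)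
noncomputable def s2749_2760 (i sh : Nat) : Nat := Bool.rec (s2749_2759 i sh) (Nat.shiftRight leaf2759 sh) (Nat.ble 2759 i)
noncomputable def s2740_2760 (i sh : Nat) : Nat := Bool.rec (s2740_2749 i sh) (s2749_2760 i sh) (Nat.ble 2749 i)
noncomputable def s2724_2760 (i sh : Nat) : Nat := Bool.rec (s2724_2740 i sh) (s2740_2760 i sh) (Nat.ble 2740 i)
noncomputable def s2761_2763 (i sh : Nat) : Nat := Bool.rec (Nat.shiftRight leaf2761 sh) (Nat.shiftRight leaf2762 sh) (Nat.ble 2762 i)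
noncomputable def s2760_2763 (i sh : Nat) : Nat := Bool.rec (Nat.shiftRight leaf2760 sh) (s2761_2763 i sh) (Nat.ble 2761 i)
noncomputable def s2760_2764 (i sh : Nat) : Nat := Bool.rec (s2760_2763 i sh) (Nat.shiftRight leaf2763 sh) (Nat.ble 2763 i)
noncomputable def s2764_2766 (i sh : Nat) : Nat := Bool.rec (Nat.shiftRight leaf2764 sh) (Nat.shiftRight leaf2765 sh) (Nat.ble 2765 i)
noncomputable def s2766_2768 (i sh : Nat) : Nat := Bool.rec (Nat.shiftRight leaf2766 sh) (Nat.shiftRight leaf2767 sh) (Nat.ble 2767 i)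
noncomputable def s2764_2768 (i sh : Nat) : Nat := Bool.rec (s2764_2766 i sh) (s2766_2768 i sh) (Nat.ble 2766 i)
noncomputable def s2760_2768 (i sh : Nat) : Nat := Bool.rec (s2760_2764 i sh) (s2764_2768 i sh) (Nat.ble 2764 i)
noncomputable def s2768_2770 (i sh : Nat) : Nat := Bool.rec (Nat.shiftRight leaf2768 sh) (Nat.shiftRight leaf2769 sh) (Nat.ble 2769 i)
noncomputable def s2770_2772 (i sh : Nat) : Nat := Bool.rec (Nat.shiftRight leaf2770 sh) (Nat.shiftRight leaf2771 sh) (Nat.ble 2771 i)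
noncomputable def s2770_2773 (i sh : Nat) : Nat := Bool.rec (s2770_2772 i sh) (Nat.shiftRight leaf2772 sh) (Nat.ble 2772 i)
noncomputable def s2768_2773 (i sh : Nat) : Nat := Bool.rec (s2768_2770 i sh) (s2770_2773 i sh) (Nat.ble 2770 i)
noncomputable def s2774_2776 (i sh : Nat) : Nat := Bool.rec (Nat.shiftRight leaf2774 sh) (Nat.shiftRight leaf2775 sh) (Nat.ble 2775 i)
noncomputable def s2773_2776 (i sh : Nat) : Nat := Bool.rec (Nat.shiftRight leaf2773 sh) (s2774_2776 i sh) (Nat.ble 2774 i)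
noncomputable def s2776_2778 (i sh : Nat) : Nat := Bool.rec (Nat.shiftRight leaf2776 sh) (Nat.shiftRight leaf2777 sh) (Nat.ble 2777 i)
noncomputable def s2776_2779 (i sh : Nat) : Nat := Bool.rec (s2776_2778 i sh) (Nat.shiftRight leaf2778 sh) (Nat.ble 2778 i)
noncomputable def s2773_2779 (i sh : Nat) : Nat := Bool.rec (s2773_2776 i sh) (s2776_2779 i sh) (Nat.ble 2776 i)
noncomputable def s2768_2779 (i sh : Nat) : Nat := Bool.rec (s2768_2773 i sh) (s2773_2779 i sh) (Nat.ble 2773 i)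
noncomputable def s2760_2779 (i sh : Nat) : Nat := Bool.rec (s2760_2768 i sh) (s2768_2779 i sh) (Nat.ble 2768 i)
noncomputable def s2779_2781 (i sh : Nat) : Nat := Bool.rec (Nat.shiftRight leaf2779 sh) (Nat.shiftRight leaf2780 sh) (Nat.ble 2780 i)
noncomputable def s2781_2783 (i sh : Nat) : Nat := Bool.rec (Nat.shiftRight leaf2781 sh) (Nat.shiftRight leaf2782 sh) (Nat.ble 2782 i)
noncomputable def s2781_2784 (i sh : Nat) : Nat := Bool.rec (s2781_2783 i sh) (Nat.shiftRight leaf2783 sh) (Nat.ble 2783 i)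
noncomputable def s2779_2784 (i sh : Nat) : Nat := Bool.rec (s2779_2781 i sh) (s2781_2784 i sh) (Nat.ble 2781 i)
noncomputable def s2784_2786 (i sh : Nat) : Nat := Bool.rec (Nat.shiftRight leaf2784 sh) (Nat.shiftRight leaf2785 sh) (Nat.ble 2785 i)
noncomputable def s2786_2788 (i sh : Nat) : Nat := Bool.rec (Nat.shiftRight leaf2786 sh) (Nat.shiftRight leaf2787 sh) (Nat.ble 2787 i)
noncomputable def s2784_2788 (i sh : Nat) : Nat := Bool.rec (s2784_2786 i sh) (s2786_2788 i sh) (Nat.ble 2786 i)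
noncomputable def s2779_2788 (i sh : Nat) : Nat := Bool.rec (s2779_2784 i sh) (s2784_2788 i sh) (Nat.ble 2784 i)
noncomputable def s2788_2790 (i sh : Nat) : Nat := Bool.rec (Nat.shiftRight leaf2788 sh) (Nat.shiftRight leaf2789 sh) (Nat.ble 2789 i)
noncomputable def s2788_2791 (i sh : Nat) : Nat := Bool.rec (s2788_2790 i sh) (Nat.shiftRight leaf2790 sh) (Nat.ble 2790 i)
noncomputable def s2788_2792 (i sh : Nat) : Nat := Bool.rec (s2788_2791 i sh) (Nat.shiftRight leaf2791 sh) (Nat.ble 2791 i)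
noncomputable def s2779_2792 (i sh : Nat) : Nat := Bool.rec (s2779_2788 i sh) (s2788_2792 i sh) (Nat.ble 2788 i)
noncomputable def s2760_2792 (i sh : Nat) : Nat := Bool.rec (s2760_2779 i sh) (s2779_2792 i sh) (Nat.ble 2779 i)
noncomputable def s2792_2794 (i sh : Nat) : Nat := Bool.rec (Nat.shiftRight leaf2792 sh) (Nat.shiftRight leaf2793 sh) (Nat.ble 2793 i)
noncomputable def s2792_2795 (i sh : Nat) : Nat := Bool.rec (s2792_2794 i sh) (Nat.shiftRight leaf2794 sh) (Nat.ble 2794 i)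
noncomputable def s2795_2797 (i sh : Nat) : Nat := Bool.rec (Nat.shiftRight leaf2795 sh) (Nat.shiftRight leaf2796 sh) (Nat.ble 2796 i)
noncomputable def s2795_2798 (i sh : Nat) : Nat := Bool.rec (s2795_2797 i sh) (Nat.shiftRight leaf2797 sh) (Nat.ble 2797 i)
noncomputable def s2792_2798 (i sh : Nat) : Nat := Bool.rec (s2792_2795 i sh) (s2795_2798 i sh) (Nat.ble 2795 i)
noncomputable def s2799_2801 (i sh : Nat) : Nat := Bool.rec (Nat.shiftRight leaf2799 sh) (Nat.shiftRight leaf2800 sh) (Nat.ble 2800 i)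
noncomputable def s2799_2802 (i sh : Nat) : Nat := Bool.rec (s2799_2801 i sh) (Nat.shiftRight leaf2801 sh) (Nat.ble 2801 i)
noncomputable def s2798_2802 (i sh : Nat) : Nat := Bool.rec (Nat.shiftRight leaf2798 sh) (s2799_2802 i sh) (Nat.ble 2799 i)
noncomputable def s2802_2804 (i sh : Nat) : Nat := Bool.rec (Nat.shiftRight leaf2802 sh) (Nat.shiftRight leaf2803 sh) (Nat.ble 2803 i)
noncomputable def s2804_2806 (i sh : Nat) : Nat := Bool.rec (Nat.shiftRight leaf2804 sh) (Nat.shiftRight leaf2805 sh) (Nat.ble 2805 i)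
noncomputable def s2804_2807 (i sh : Nat) : Nat := Bool.rec (s2804_2806 i sh) (Nat.shiftRight leaf2806 sh) (Nat.ble 2806 i)
noncomputable def s2802_2807 (i sh : Nat) : Nat := Bool.rec (s2802_2804 i sh) (s2804_2807 i sh) (Nat.ble 2804 i)
noncomputable def s2798_2807 (i sh : Nat) : Nat := Bool.rec (s2798_2802 i sh) (s2802_2807 i sh) (Nat.ble 2802 i)
noncomputable def s2792_2807 (i sh : Nat) : Nat := Bool.rec (s2792_2798 i sh) (s2798_2807 i sh) (Nat.ble 2798 i)
noncomputable def s2807_2809 (i sh : Nat) : Nat := Bool.rec (Nat.shiftRight leaf2807 sh) (Nat.shiftRight leaf2808 sh) (Nat.ble 2808 i)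
noncomputable def s2809_2811 (i sh : Nat) : Nat := Bool.rec (Nat.shiftRight leaf2809 sh) (Nat.shiftRight leaf2810 sh) (Nat.ble 2810 i)
noncomputable def s2809_2812 (i sh : Nat) : Nat := Bool.rec (s2809_2811 i sh) (Nat.shiftRight leaf2811 sh) (Nat.ble 2811 i)
noncomputable def s2812_2814 (i sh : Nat) : Nat := Bool.rec (Nat.shiftRight leaf2812 sh) (Nat.shiftRight leaf2813 sh) (Nat.ble 2813 i)
noncomputable def s2809_2814 (i sh : Nat) : Nat := Bool.rec (s2809_2812 i sh) (s2812_2814 i sh) (Nat.ble 2812 i)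
noncomputable def s2809_2815 (i sh : Nat) : Nat := Bool.rec (s2809_2814 i sh) (Nat.shiftRight leaf2814 sh) (Nat.ble 2814 i)
noncomputable def s2807_2815 (i sh : Nat) : Nat := Bool.rec (s2807_2809 i sh) (s2809_2815 i sh) (Nat.ble 2809 i)
noncomputable def s2792_2815 (i sh : Nat) : Nat := Bool.rec (s2792_2807 i sh) (s2807_2815 i sh) (Nat.ble 2807 i)
noncomputable def s2760_2815 (i sh : Nat) : Nat := Bool.rec (s2760_2792 i sh) (s2792_2815 i sh) (Nat.ble 2792 i)
noncomputable def s2724_2815 (i sh : Nat) : Nat := Bool.rec (s2724_2760 i sh) (s2760_2815 i sh) (Nat.ble 2760 i)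
noncomputable def s2817_2819 (i sh : Nat) : Nat := Bool.rec (Nat.shiftRight leaf2817 sh) (Nat.shiftRight leaf2818 sh) (Nat.ble 2818 i)
noncomputable def s2816_2819 (i sh : Nat) : Nat := Bool.rec (Nat.shiftRight leaf2816 sh) (s2817_2819 i sh) (Nat.ble 2817 i)
noncomputable def s2815_2819 (i sh : Nat) : Nat := Bool.rec (Nat.shiftRight leaf2815 sh) (s2816_2819 i sh) (Nat.ble 2816 i)
noncomputable def s2819_2821 (i sh : Nat) : Nat := Bool.rec (Nat.shiftRight leaf2819 sh) (Nat.shiftRight leaf2820 sh) (Nat.ble 2820 i)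
noncomputable def s2819_2822 (i sh : Nat) : Nat := Bool.rec (s2819_2821 i sh) (Nat.shiftRight leaf2821 sh) (Nat.ble 2821 i)
noncomputable def s2822_2824 (i sh : Nat) : Nat := Bool.rec (Nat.shiftRight leaf2822 sh) (Nat.shiftRight leaf2823 sh) (Nat.ble 2823 i)
noncomputable def s2819_2824 (i sh : Nat) : Nat := Bool.rec (s2819_2822 i sh) (s2822_2824 i sh) (Nat.ble 2822 i)
noncomputable def s2825_2827 (i sh : Nat) : Nat := Bool.rec (Nat.shiftRight leaf2825 sh) (Nat.shiftRight leaf2826 sh) (Nat.ble 2826 i)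
noncomputable def s2824_2827 (i sh : Nat) : Nat := Bool.rec (Nat.shiftRight leaf2824 sh) (s2825_2827 i sh) (Nat.ble 2825 i)
noncomputable def s2819_2827 (i sh : Nat) : Nat := Bool.rec (s2819_2824 i sh) (s2824_2827 i sh) (Nat.ble 2824 i)
noncomputable def s2815_2827 (i sh : Nat) : Nat := Bool.rec (s2815_2819 i sh) (s2819_2827 i sh) (Nat.ble 2819 i)
noncomputable def s2828_2830 (i sh : Nat) : Nat := Bool.rec (Nat.shiftRight leaf2828 sh) (Nat.shiftRight leaf2829 sh) (Nat.ble 2829 i)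
noncomputable def s2827_2830 (i sh : Nat) : Nat := Bool.rec (Nat.shiftRight leaf2827 sh) (s2828_2830 i sh) (Nat.ble 2828 i)
noncomputable def s2830_2832 (i sh : Nat) : Nat := Bool.rec (Nat.shiftRight leaf2830 sh) (Nat.shiftRight leaf2831 sh) (Nat.ble 2831 i)
noncomputable def s2832_2834 (i sh : Nat) : Nat := Bool.rec (Nat.shiftRight leaf2832 sh) (Nat.shiftRight leaf2833 sh) (Nat.ble 2833 i)
noncomputable def s2830_2834 (i sh : Nat) : Nat := Bool.rec (s2830_2832 i sh) (s2832_2834 i sh) (Nat.ble 2832 i)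
noncomputable def s2835_2837 (i sh : Nat) : Nat := Bool.rec (Nat.shiftRight leaf2835 sh) (Nat.shiftRight leaf2836 sh) (Nat.ble 2836 i)
noncomputable def s2834_2837 (i sh : Nat) : Nat := Bool.rec (Nat.shiftRight leaf2834 sh) (s2835_2837 i sh) (Nat.ble 2835 i)
noncomputable def s2830_2837 (i sh : Nat) : Nat := Bool.rec (s2830_2834 i sh) (s2834_2837 i sh) (Nat.ble 2834 i)
noncomputable def s2838_2840 (i sh : Nat) : Nat := Bool.rec (Nat.shiftRight leaf2838 sh) (Nat.shiftRight leaf2839 sh) (Nat.ble 2839 i)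
noncomputable def s2837_2840 (i sh : Nat) : Nat := Bool.rec (Nat.shiftRight leaf2837 sh) (s2838_2840 i sh) (Nat.ble 2838 i)
noncomputable def s2830_2840 (i sh : Nat) : Nat := Bool.rec (s2830_2837 i sh) (s2837_2840 i sh) (Nat.ble 2837 i)
noncomputable def s2827_2840 (i sh : Nat) : Nat := Bool.rec (s2827_2830 i sh) (s2830_2840 i sh) (Nat.ble 2830 i)
noncomputable def s2815_2840 (i sh : Nat) : Nat := Bool.rec (s2815_2827 i sh) (s2827_2840 i sh) (Nat.ble 2827 i)
noncomputable def s2841_2843 (i sh : Nat) : Nat := Bool.rec (Nat.shiftRight leaf2841 sh) (Nat.shiftRight leaf2842 sh) (Nat.ble 2842 i)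
noncomputable def s2840_2843 (i sh : Nat) : Nat := Bool.rec (Nat.shiftRight leaf2840 sh) (s2841_2843 i sh) (Nat.ble 2841 i)
noncomputable def s2845_2847 (i sh : Nat) : Nat := Bool.rec (Nat.shiftRight leaf2845 sh) (Nat.shiftRight leaf2846 sh) (Nat.ble 2846 i)
noncomputable def s2844_2847 (i sh : Nat) : Nat := Bool.rec (Nat.shiftRight leaf2844 sh) (s2845_2847 i sh) (Nat.ble 2845 i)
noncomputable def s2843_2847 (i sh : Nat) : Nat := Bool.rec (Nat.shiftRight leaf2843 sh) (s2844_2847 i sh) (Nat.ble 2844 i)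
noncomputable def s2840_2847 (i sh : Nat) : Nat := Bool.rec (s2840_2843 i sh) (s2843_2847 i sh) (Nat.ble 2843 i)
noncomputable def s2847_2849 (i sh : Nat) : Nat := Bool.rec (Nat.shiftRight leaf2847 sh) (Nat.shiftRight leaf2848 sh) (Nat.ble 2848 i)
noncomputable def s2850_2852 (i sh : Nat) : Nat := Bool.rec (Nat.shiftRight leaf2850 sh) (Nat.shiftRight leaf2851 sh) (Nat.ble 2851 i)
noncomputable def s2849_2852 (i sh : Nat) : Nat := Bool.rec (Nat.shiftRight leaf2849 sh) (s2850_2852 i sh) (Nat.ble 2850 i)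
noncomputable def s2852_2854 (i sh : Nat) : Nat := Bool.rec (Nat.shiftRight leaf2852 sh) (Nat.shiftRight leaf2853 sh) (Nat.ble 2853 i)
noncomputable def s2852_2855 (i sh : Nat) : Nat := Bool.rec (s2852_2854 i sh) (Nat.shiftRight leaf2854 sh) (Nat.ble 2854 i)
noncomputable def s2849_2855 (i sh : Nat) : Nat := Bool.rec (s2849_2852 i sh) (s2852_2855 i sh) (Nat.ble 2852 i)
noncomputable def s2847_2855 (i sh : Nat) : Nat := Bool.rec (s2847_2849 i sh) (s2849_2855 i sh) (Nat.ble 2849 i)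
noncomputable def s2840_2855 (i sh : Nat) : Nat := Bool.rec (s2840_2847 i sh) (s2847_2855 i sh) (Nat.ble 2847 i)
noncomputable def s2856_2858 (i sh : Nat) : Nat := Bool.rec (Nat.shiftRight leaf2856 sh) (Nat.shiftRight leaf2857 sh) (Nat.ble 2857 i)
noncomputable def s2855_2858 (i sh : Nat) : Nat := Bool.rec (Nat.shiftRight leaf2855 sh) (s2856_2858 i sh) (Nat.ble 2856 i)
noncomputable def s2840_2858 (i sh : Nat) : Nat := Bool.rec (s2840_2855 i sh) (s2855_2858 i sh) (Nat.ble 2855 i)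
noncomputable def s2815_2858 (i sh : Nat) : Nat := Bool.rec (s2815_2840 i sh) (s2840_2858 i sh) (Nat.ble 2840 i)
noncomputable def s2858_2860 (i sh : Nat) : Nat := Bool.rec (Nat.shiftRight leaf2858 sh) (Nat.shiftRight leaf2859 sh) (Nat.ble 2859 i)
noncomputable def s2861_2863 (i sh : Nat) : Nat := Bool.rec (Nat.shiftRight leaf2861 sh) (Nat.shiftRight leaf2862 sh) (Nat.ble 2862 i)
noncomputable def s2861_2864 (i sh : Nat) : Nat := Bool.rec (s2861_2863 i sh) (Nat.shiftRight leaf2863 sh) (Nat.ble 2863 i)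
noncomputable def s2860_2864 (i sh : Nat) : Nat := Bool.rec (Nat.shiftRight leaf2860 sh) (s2861_2864 i sh) (Nat.ble 2861 i)
noncomputable def s2865_2867 (i sh : Nat) : Nat := Bool.rec (Nat.shiftRight leaf2865 sh) (Nat.shiftRight leaf2866 sh) (Nat.ble 2866 i)
noncomputable def s2864_2867 (i sh : Nat) : Nat := Bool.rec (Nat.shiftRight leaf2864 sh) (s2865_2867 i sh) (Nat.ble 2865 i)
noncomputable def s2870_2872 (i sh : Nat) : Nat := Bool.rec (Nat.shiftRight leaf2870 sh) (Nat.shiftRight leaf2871 sh) (Nat.ble 2871 i)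
noncomputable def s2869_2872 (i sh : Nat) : Nat := Bool.rec (Nat.shiftRight leaf2869 sh) (s2870_2872 i sh) (Nat.ble 2870 i)
noncomputable def s2868_2872 (i sh : Nat) : Nat := Bool.rec (Nat.shiftRight leaf2868 sh) (s2869_2872 i sh) (Nat.ble 2869 i)
noncomputable def s2867_2872 (i sh : Nat) : Nat := Bool.rec (Nat.shiftRight leaf2867 sh) (s2868_2872 i sh) (Nat.ble 2868 i)
noncomputable def s2864_2872 (i sh : Nat) : Nat := Bool.rec (s2864_2867 i sh) (s2867_2872 i sh) (Nat.ble 2867 i)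
noncomputable def s2860_2872 (i sh : Nat) : Nat := Bool.rec (s2860_2864 i sh) (s2864_2872 i sh) (Nat.ble 2864 i)
noncomputable def s2858_2872 (i sh : Nat) : Nat := Bool.rec (s2858_2860 i sh) (s2860_2872 i sh) (Nat.ble 2860 i)
noncomputable def s2815_2872 (i sh : Nat) : Nat := Bool.rec (s2815_2858 i sh) (s2858_2872 i sh) (Nat.ble 2858 i)
noncomputable def s2724_2872 (i sh : Nat) : Nat := Bool.rec (s2724_2815 i sh) (s2815_2872 i sh) (Nat.ble 2815 i)
noncomputable def s2546_2872 (i sh : Nat) : Nat := Bool.rec (s2546_2724 i sh) (s2724_2872 i sh) (Nat.ble 2724 i)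
noncomputable def s2872_2874 (i sh : Nat) : Nat := Bool.rec (Nat.shiftRight leaf2872 sh) (Nat.shiftRight leaf2873 sh) (Nat.ble 2873 i)
noncomputable def s2872_2875 (i sh : Nat) : Nat := Bool.rec (s2872_2874 i sh) (Nat.shiftRight leaf2874 sh) (Nat.ble 2874 i)
noncomputable def s2876_2878 (i sh : Nat) : Nat := Bool.rec (Nat.shiftRight leaf2876 sh) (Nat.shiftRight leaf2877 sh) (Nat.ble 2877 i)
noncomputable def s2875_2878 (i sh : Nat) : Nat := Bool.rec (Nat.shiftRight leaf2875 sh) (s2876_2878 i sh) (Nat.ble 2876 i)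
noncomputable def s2872_2878 (i sh : Nat) : Nat := Bool.rec (s2872_2875 i sh) (s2875_2878 i sh) (Nat.ble 2875 i)
noncomputable def s2878_2880 (i sh : Nat) : Nat := Bool.rec (Nat.shiftRight leaf2878 sh) (Nat.shiftRight leaf2879 sh) (Nat.ble 2879 i)
noncomputable def s2880_2882 (i sh : Nat) : Nat := Bool.rec (Nat.shiftRight leaf2880 sh) (Nat.shiftRight leaf2881 sh) (Nat.ble 2881 i)
noncomputable def s2878_2882 (i sh : Nat) : Nat := Bool.rec (s2878_2880 i sh) (s2880_2882 i sh) (Nat.ble 2880 i)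
noncomputable def s2884_2886 (i sh : Nat) : Nat := Bool.rec (Nat.shiftRight leaf2884 sh) (Nat.shiftRight leaf2885 sh) (Nat.ble 2885 i)
noncomputable def s2883_2886 (i sh : Nat) : Nat := Bool.rec (Nat.shiftRight leaf2883 sh) (s2884_2886 i sh) (Nat.ble 2884 i)
noncomputable def s2882_2886 (i sh : Nat) : Nat := Bool.rec (Nat.shiftRight leaf2882 sh) (s2883_2886 i sh) (Nat.ble 2883 i)
noncomputable def s2878_2886 (i sh : Nat) : Nat := Bool.rec (s2878_2882 i sh) (s2882_2886 i sh) (Nat.ble 2882 i)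
noncomputable def s2872_2886 (i sh : Nat) : Nat := Bool.rec (s2872_2878 i sh) (s2878_2886 i sh) (Nat.ble 2878 i)
noncomputable def s2886_2888 (i sh : Nat) : Nat := Bool.rec (Nat.shiftRight leaf2886 sh) (Nat.shiftRight leaf2887 sh) (Nat.ble 2887 i)
noncomputable def s2886_2889 (i sh : Nat) : Nat := Bool.rec (s2886_2888 i sh) (Nat.shiftRight leaf2888 sh) (Nat.ble 2888 i)
noncomputable def s2889_2891 (i sh : Nat) : Nat := Bool.rec (Nat.shiftRight leaf2889 sh) (Nat.shiftRight leaf2890 sh) (Nat.ble 2890 i)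
noncomputable def s2891_2893 (i sh : Nat) : Nat := Bool.rec (Nat.shiftRight leaf2891 sh) (Nat.shiftRight leaf2892 sh) (Nat.ble 2892 i)
noncomputable def s2889_2893 (i sh : Nat) : Nat := Bool.rec (s2889_2891 i sh) (s2891_2893 i sh) (Nat.ble 2891 i)
noncomputable def s2893_2895 (i sh : Nat) : Nat := Bool.rec (Nat.shiftRight leaf2893 sh) (Nat.shiftRight leaf2894 sh) (Nat.ble 2894 i)
noncomputable def s2895_2897 (i sh : Nat) : Nat := Bool.rec (Nat.shiftRight leaf2895 sh) (Nat.shiftRight leaf2896 sh) (Nat.ble 2896 i)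
noncomputable def s2893_2897 (i sh : Nat) : Nat := Bool.rec (s2893_2895 i sh) (s2895_2897 i sh) (Nat.ble 2895 i)
noncomputable def s2889_2897 (i sh : Nat) : Nat := Bool.rec (s2889_2893 i sh) (s2893_2897 i sh) (Nat.ble 2893 i)
noncomputable def s2886_2897 (i sh : Nat) : Nat := Bool.rec (s2886_2889 i sh) (s2889_2897 i sh) (Nat.ble 2889 i)
noncomputable def s2897_2899 (i sh : Nat) : Nat := Bool.rec (Nat.shiftRight leaf2897 sh) (Nat.shiftRight leaf2898 sh) (Nat.ble 2898 i)
noncomputable def s2899_2901 (i sh : Nat) : Nat := Bool.rec (Nat.shiftRight leaf2899 sh) (Nat.shiftRight leaf2900 sh) (Nat.ble 2900 i)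
noncomputable def s2897_2901 (i sh : Nat) : Nat := Bool.rec (s2897_2899 i sh) (s2899_2901 i sh) (Nat.ble 2899 i)
noncomputable def s2901_2903 (i sh : Nat) : Nat := Bool.rec (Nat.shiftRight leaf2901 sh) (Nat.shiftRight leaf2902 sh) (Nat.ble 2902 i)
noncomputable def s2901_2904 (i sh : Nat) : Nat := Bool.rec (s2901_2903 i sh) (Nat.shiftRight leaf2903 sh) (Nat.ble 2903 i)
noncomputable def s2904_2906 (i sh : Nat) : Nat := Bool.rec (Nat.shiftRight leaf2904 sh) (Nat.shiftRight leaf2905 sh) (Nat.ble 2905 i)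
noncomputable def s2901_2906 (i sh : Nat) : Nat := Bool.rec (s2901_2904 i sh) (s2904_2906 i sh) (Nat.ble 2904 i)
noncomputable def s2897_2906 (i sh : Nat) : Nat := Bool.rec (s2897_2901 i sh) (s2901_2906 i sh) (Nat.ble 2901 i)
noncomputable def s2906_2908 (i sh : Nat) : Nat := Bool.rec (Nat.shiftRight leaf2906 sh) (Nat.shiftRight leaf2907 sh) (Nat.ble 2907 i)
noncomputable def s2906_2909 (i sh : Nat) : Nat := Bool.rec (s2906_2908 i sh) (Nat.shiftRight leaf2908 sh) (Nat.ble 2908 i)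
noncomputable def s2897_2909 (i sh : Nat) : Nat := Bool.rec (s2897_2906 i sh) (s2906_2909 i sh) (Nat.ble 2906 i)
noncomputable def s2886_2909 (i sh : Nat) : Nat := Bool.rec (s2886_2897 i sh) (s2897_2909 i sh) (Nat.ble 2897 i)
noncomputable def s2872_2909 (i sh : Nat) : Nat := Bool.rec (s2872_2886 i sh) (s2886_2909 i sh) (Nat.ble 2886 i)
noncomputable def s2909_2911 (i sh : Nat) : Nat := Bool.rec (Nat.shiftRight leaf2909 sh) (Nat.shiftRight leaf2910 sh) (Nat.ble 2910 i)
noncomputable def s2911_2913 (i sh : Nat) : Nat := Bool.rec (Nat.shiftRight leaf2911 sh) (Nat.shiftRight leaf2912 sh) (Nat.ble 2912 i)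
noncomputable def s2914_2916 (i sh : Nat) : Nat := Bool.rec (Nat.shiftRight leaf2914 sh) (Nat.shiftRight leaf2915 sh) (Nat.ble 2915 i)
noncomputable def s2916_2918 (i sh : Nat) : Nat := Bool.rec (Nat.shiftRight leaf2916 sh) (Nat.shiftRight leaf2917 sh) (Nat.ble 2917 i)
noncomputable def s2916_2919 (i sh : Nat) : Nat := Bool.rec (s2916_2918 i sh) (Nat.shiftRight leaf2918 sh) (Nat.ble 2918 i)
noncomputable def s2914_2919 (i sh : Nat) : Nat := Bool.rec (s2914_2916 i sh) (s2916_2919 i sh) (Nat.ble 2916 i)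
noncomputable def s2913_2919 (i sh : Nat) : Nat := Bool.rec (Nat.shiftRight leaf2913 sh) (s2914_2919 i sh) (Nat.ble 2914 i)
noncomputable def s2919_2921 (i sh : Nat) : Nat := Bool.rec (Nat.shiftRight leaf2919 sh) (Nat.shiftRight leaf2920 sh) (Nat.ble 2920 i)
noncomputable def s2921_2923 (i sh : Nat) : Nat := Bool.rec (Nat.shiftRight leaf2921 sh) (Nat.shiftRight leaf2922 sh) (Nat.ble 2922 i)
noncomputable def s2923_2925 (i sh : Nat) : Nat := Bool.rec (Nat.shiftRight leaf2923 sh) (Nat.shiftRight leaf2924 sh) (Nat.ble 2924 i)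
noncomputable def s2921_2925 (i sh : Nat) : Nat := Bool.rec (s2921_2923 i sh) (s2923_2925 i sh) (Nat.ble 2923 i)
noncomputable def s2919_2925 (i sh : Nat) : Nat := Bool.rec (s2919_2921 i sh) (s2921_2925 i sh) (Nat.ble 2921 i)
noncomputable def s2925_2927 (i sh : Nat) : Nat := Bool.rec (Nat.shiftRight leaf2925 sh) (Nat.shiftRight leaf2926 sh) (Nat.ble 2926 i)
noncomputable def s2928_2930 (i sh : Nat) : Nat := Bool.rec (Nat.shiftRight leaf2928 sh) (Nat.shiftRight leaf2929 sh) (Nat.ble 2929 i)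
noncomputable def s2927_2930 (i sh : Nat) : Nat := Bool.rec (Nat.shiftRight leaf2927 sh) (s2928_2930 i sh) (Nat.ble 2928 i)
noncomputable def s2925_2930 (i sh : Nat) : Nat := Bool.rec (s2925_2927 i sh) (s2927_2930 i sh) (Nat.ble 2927 i)
noncomputable def s2919_2930 (i sh : Nat) : Nat := Bool.rec (s2919_2925 i sh) (s2925_2930 i sh) (Nat.ble 2925 i)
noncomputable def s2913_2930 (i sh : Nat) : Nat := Bool.rec (s2913_2919 i sh) (s2919_2930 i sh) (Nat.ble 2919 i)
noncomputable def s2911_2930 (i sh : Nat) : Nat := Bool.rec (s2911_2913 i sh) (s2913_2930 i sh) (Nat.ble 2913 i)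
noncomputable def s2909_2930 (i sh : Nat) : Nat := Bool.rec (s2909_2911 i sh) (s2911_2930 i sh) (Nat.ble 2911 i)
noncomputable def s2872_2930 (i sh : Nat) : Nat := Bool.rec (s2872_2909 i sh) (s2909_2930 i sh) (Nat.ble 2909 i)
noncomputable def s2930_2932 (i sh : Nat) : Nat := Bool.rec (Nat.shiftRight leaf2930 sh) (Nat.shiftRight leaf2931 sh) (Nat.ble 2931 i)
noncomputable def s2932_2934 (i sh : Nat) : Nat := Bool.rec (Nat.shiftRight leaf2932 sh) (Nat.shiftRight leaf2933 sh) (Nat.ble 2933 i)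
noncomputable def s2932_2935 (i sh : Nat) : Nat := Bool.rec (s2932_2934 i sh) (Nat.shiftRight leaf2934 sh) (Nat.ble 2934 i)
noncomputable def s2936_2938 (i sh : Nat) : Nat := Bool.rec (Nat.shiftRight leaf2936 sh) (Nat.shiftRight leaf2937 sh) (Nat.ble 2937 i)
noncomputable def s2935_2938 (i sh : Nat) : Nat := Bool.rec (Nat.shiftRight leaf2935 sh) (s2936_2938 i sh) (Nat.ble 2936 i)
noncomputable def s2932_2938 (i sh : Nat) : Nat := Bool.rec (s2932_2935 i sh) (s2935_2938 i sh) (Nat.ble 2935 i)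
noncomputable def s2930_2938 (i sh : Nat) : Nat := Bool.rec (s2930_2932 i sh) (s2932_2938 i sh) (Nat.ble 2932 i)
noncomputable def s2938_2940 (i sh : Nat) : Nat := Bool.rec (Nat.shiftRight leaf2938 sh) (Nat.shiftRight leaf2939 sh) (Nat.ble 2939 i)
noncomputable def s2940_2942 (i sh : Nat) : Nat := Bool.rec (Nat.shiftRight leaf2940 sh) (Nat.shiftRight leaf2941 sh) (Nat.ble 2941 i)
noncomputable def s2940_2943 (i sh : Nat) : Nat := Bool.rec (s2940_2942 i sh) (Nat.shiftRight leaf2942 sh) (Nat.ble 2942 i)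
noncomputable def s2940_2944 (i sh : Nat) : Nat := Bool.rec (s2940_2943 i sh) (Nat.shiftRight leaf2943 sh) (Nat.ble 2943 i)
noncomputable def s2938_2944 (i sh : Nat) : Nat := Bool.rec (s2938_2940 i sh) (s2940_2944 i sh) (Nat.ble 2940 i)
noncomputable def s2930_2944 (i sh : Nat) : Nat := Bool.rec (s2930_2938 i sh) (s2938_2944 i sh) (Nat.ble 2938 i)
noncomputable def s2944_2946 (i sh : Nat) : Nat := Bool.rec (Nat.shiftRight leaf2944 sh) (Nat.shiftRight leaf2945 sh) (Nat.ble 2945 i)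
noncomputable def s2946_2948 (i sh : Nat) : Nat := Bool.rec (Nat.shiftRight leaf2946 sh) (Nat.shiftRight leaf2947 sh) (Nat.ble 2947 i)
noncomputable def s2946_2949 (i sh : Nat) : Nat := Bool.rec (s2946_2948 i sh) (Nat.shiftRight leaf2948 sh) (Nat.ble 2948 i)
noncomputable def s2944_2949 (i sh : Nat) : Nat := Bool.rec (s2944_2946 i sh) (s2946_2949 i sh) (Nat.ble 2946 i)
noncomputable def s2949_2951 (i sh : Nat) : Nat := Bool.rec (Nat.shiftRight leaf2949 sh) (Nat.shiftRight leaf2950 sh) (Nat.ble 2950 i)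
noncomputable def s2951_2953 (i sh : Nat) : Nat := Bool.rec (Nat.shiftRight leaf2951 sh) (Nat.shiftRight leaf2952 sh) (Nat.ble 2952 i)
noncomputable def s2949_2953 (i sh : Nat) : Nat := Bool.rec (s2949_2951 i sh) (s2951_2953 i sh) (Nat.ble 2951 i)
noncomputable def s2944_2953 (i sh : Nat) : Nat := Bool.rec (s2944_2949 i sh) (s2949_2953 i sh) (Nat.ble 2949 i)
noncomputable def s2953_2955 (i sh : Nat) : Nat := Bool.rec (Nat.shiftRight leaf2953 sh) (Nat.shiftRight leaf2954 sh) (Nat.ble 2954 i)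
noncomputable def s2953_2956 (i sh : Nat) : Nat := Bool.rec (s2953_2955 i sh) (Nat.shiftRight leaf2955 sh) (Nat.ble 2955 i)
noncomputable def s2956_2958 (i sh : Nat) : Nat := Bool.rec (Nat.shiftRight leaf2956 sh) (Nat.shiftRight leaf2957 sh) (Nat.ble 2957 i)
noncomputable def s2953_2958 (i sh : Nat) : Nat := Bool.rec (s2953_2956 i sh) (s2956_2958 i sh) (Nat.ble 2956 i)
noncomputable def s2959_2961 (i sh : Nat) : Nat := Bool.rec (Nat.shiftRight leaf2959 sh) (Nat.shiftRight leaf2960 sh) (Nat.ble 2960 i)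
noncomputable def s2961_2963 (i sh : Nat) : Nat := Bool.rec (Nat.shiftRight leaf2961 sh) (Nat.shiftRight leaf2962 sh) (Nat.ble 2962 i)
noncomputable def s2959_2963 (i sh : Nat) : Nat := Bool.rec (s2959_2961 i sh) (s2961_2963 i sh) (Nat.ble 2961 i)
noncomputable def s2958_2963 (i sh : Nat) : Nat := Bool.rec (Nat.shiftRight leaf2958 sh) (s2959_2963 i sh) (Nat.ble 2959 i)
noncomputable def s2953_2963 (i sh : Nat) : Nat := Bool.rec (s2953_2958 i sh) (s2958_2963 i sh) (Nat.ble 2958 i)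
noncomputable def s2944_2963 (i sh : Nat) : Nat := Bool.rec (s2944_2953 i sh) (s2953_2963 i sh) (Nat.ble 2953 i)
noncomputable def s2930_2963 (i sh : Nat) : Nat := Bool.rec (s2930_2944 i sh) (s2944_2963 i sh) (Nat.ble 2944 i)
noncomputable def s2964_2966 (i sh : Nat) : Nat := Bool.rec (Nat.shiftRight leaf2964 sh) (Nat.shiftRight leaf2965 sh) (Nat.ble 2965 i)
noncomputable def s2963_2966 (i sh : Nat) : Nat := Bool.rec (Nat.shiftRight leaf2963 sh) (s2964_2966 i sh) (Nat.ble 2964 i)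
noncomputable def s2966_2968 (i sh : Nat) : Nat := Bool.rec (Nat.shiftRight leaf2966 sh) (Nat.shiftRight leaf2967 sh) (Nat.ble 2967 i)
noncomputable def s2968_2970 (i sh : Nat) : Nat := Bool.rec (Nat.shiftRight leaf2968 sh) (Nat.shiftRight leaf2969 sh) (Nat.ble 2969 i)
noncomputable def s2968_2971 (i sh : Nat) : Nat := Bool.rec (s2968_2970 i sh) (Nat.shiftRight leaf2970 sh) (Nat.ble 2970 i)
noncomputable def s2966_2971 (i sh : Nat) : Nat := Bool.rec (s2966_2968 i sh) (s2968_2971 i sh) (Nat.ble 2968 i)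
noncomputable def s2963_2971 (i sh : Nat) : Nat := Bool.rec (s2963_2966 i sh) (s2966_2971 i sh) (Nat.ble 2966 i)
noncomputable def s2972_2974 (i sh : Nat) : Nat := Bool.rec (Nat.shiftRight leaf2972 sh) (Nat.shiftRight leaf2973 sh) (Nat.ble 2973 i)
noncomputable def s2974_2976 (i sh : Nat) : Nat := Bool.rec (Nat.shiftRight leaf2974 sh) (Nat.shiftRight leaf2975 sh) (Nat.ble 2975 i)
noncomputable def s2972_2976 (i sh : Nat) : Nat := Bool.rec (s2972_2974 i sh) (s2974_2976 i sh) (Nat.ble 2974 i)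
noncomputable def s2971_2976 (i sh : Nat) : Nat := Bool.rec (Nat.shiftRight leaf2971 sh) (s2972_2976 i sh) (Nat.ble 2972 i)
noncomputable def s2977_2979 (i sh : Nat) : Nat := Bool.rec (Nat.shiftRight leaf2977 sh) (Nat.shiftRight leaf2978 sh) (Nat.ble 2978 i)
noncomputable def s2979_2981 (i sh : Nat) : Nat := Bool.rec (Nat.shiftRight leaf2979 sh) (Nat.shiftRight leaf2980 sh) (Nat.ble 2980 i)
noncomputable def s2977_2981 (i sh : Nat) : Nat := Bool.rec (s2977_2979 i sh) (s2979_2981 i sh) (Nat.ble 2979 i)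
noncomputable def s2976_2981 (i sh : Nat) : Nat := Bool.rec (Nat.shiftRight leaf2976 sh) (s2977_2981 i sh) (Nat.ble 2977 i)
noncomputable def s2982_2984 (i sh : Nat) : Nat := Bool.rec (Nat.shiftRight leaf2982 sh) (Nat.shiftRight leaf2983 sh) (Nat.ble 2983 i)
noncomputable def s2981_2984 (i sh : Nat) : Nat := Bool.rec (Nat.shiftRight leaf2981 sh) (s2982_2984 i sh) (Nat.ble 2982 i)
noncomputable def s2976_2984 (i sh : Nat) : Nat := Bool.rec (s2976_2981 i sh) (s2981_2984 i sh) (Nat.ble 2981 i)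
noncomputable def s2971_2984 (i sh : Nat) : Nat := Bool.rec (s2971_2976 i sh) (s2976_2984 i sh) (Nat.ble 2976 i)
noncomputable def s2963_2984 (i sh : Nat) : Nat := Bool.rec (s2963_2971 i sh) (s2971_2984 i sh) (Nat.ble 2971 i)
noncomputable def s2930_2984 (i sh : Nat) : Nat := Bool.rec (s2930_2963 i sh) (s2963_2984 i sh) (Nat.ble 2963 i)
noncomputable def s2985_2987 (i sh : Nat) : Nat := Bool.rec (Nat.shiftRight leaf2985 sh) (Nat.shiftRight leaf2986 sh) (Nat.ble 2986 i)
noncomputable def s2984_2987 (i sh : Nat) : Nat := Bool.rec (Nat.shiftRight leaf2984 sh) (s2985_2987 i sh) (Nat.ble 2985 i)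
noncomputable def s2988_2990 (i sh : Nat) : Nat := Bool.rec (Nat.shiftRight leaf2988 sh) (Nat.shiftRight leaf2989 sh) (Nat.ble 2989 i)
noncomputable def s2987_2990 (i sh : Nat) : Nat := Bool.rec (Nat.shiftRight leaf2987 sh) (s2988_2990 i sh) (Nat.ble 2988 i)
noncomputable def s2984_2990 (i sh : Nat) : Nat := Bool.rec (s2984_2987 i sh) (s2987_2990 i sh) (Nat.ble 2987 i)
noncomputable def s2991_2993 (i sh : Nat) : Nat := Bool.rec (Nat.shiftRight leaf2991 sh) (Nat.shiftRight leaf2992 sh) (Nat.ble 2992 i)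
noncomputable def s2990_2993 (i sh : Nat) : Nat := Bool.rec (Nat.shiftRight leaf2990 sh) (s2991_2993 i sh) (Nat.ble 2991 i)
noncomputable def s2994_2996 (i sh : Nat) : Nat := Bool.rec (Nat.shiftRight leaf2994 sh) (Nat.shiftRight leaf2995 sh) (Nat.ble 2995 i)
noncomputable def s2993_2996 (i sh : Nat) : Nat := Bool.rec (Nat.shiftRight leaf2993 sh) (s2994_2996 i sh) (Nat.ble 2994 i)
noncomputable def s2990_2996 (i sh : Nat) : Nat := Bool.rec (s2990_2993 i sh) (s2993_2996 i sh) (Nat.ble 2993 i)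
noncomputable def s2984_2996 (i sh : Nat) : Nat := Bool.rec (s2984_2990 i sh) (s2990_2996 i sh) (Nat.ble 2990 i)
noncomputable def s2996_2998 (i sh : Nat) : Nat := Bool.rec (Nat.shiftRight leaf2996 sh) (Nat.shiftRight leaf2997 sh) (Nat.ble 2997 i)
noncomputable def s2996_2999 (i sh : Nat) : Nat := Bool.rec (s2996_2998 i sh) (Nat.shiftRight leaf2998 sh) (Nat.ble 2998 i)
noncomputable def s2996_3000 (i sh : Nat) : Nat := Bool.rec (s2996_2999 i sh) (Nat.shiftRight leaf2999 sh) (Nat.ble 2999 i)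
noncomputable def s2984_3000 (i sh : Nat) : Nat := Bool.rec (s2984_2996 i sh) (s2996_3000 i sh) (Nat.ble 2996 i)
noncomputable def s3000_3002 (i sh : Nat) : Nat := Bool.rec (Nat.shiftRight leaf3000 sh) (Nat.shiftRight leaf3001 sh) (Nat.ble 3001 i)
noncomputable def s3000_3003 (i sh : Nat) : Nat := Bool.rec (s3000_3002 i sh) (Nat.shiftRight leaf3002 sh) (Nat.ble 3002 i)
noncomputable def s3004_3006 (i sh : Nat) : Nat := Bool.rec (Nat.shiftRight leaf3004 sh) (Nat.shiftRight leaf3005 sh) (Nat.ble 3005 i)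
noncomputable def s3003_3006 (i sh : Nat) : Nat := Bool.rec (Nat.shiftRight leaf3003 sh) (s3004_3006 i sh) (Nat.ble 3004 i)
noncomputable def s3000_3006 (i sh : Nat) : Nat := Bool.rec (s3000_3003 i sh) (s3003_3006 i sh) (Nat.ble 3003 i)
noncomputable def s3007_3009 (i sh : Nat) : Nat := Bool.rec (Nat.shiftRight leaf3007 sh) (Nat.shiftRight leaf3008 sh) (Nat.ble 3008 i)
noncomputable def s3006_3009 (i sh : Nat) : Nat := Bool.rec (Nat.shiftRight leaf3006 sh) (s3007_3009 i sh) (Nat.ble 3007 i)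
noncomputable def s3009_3011 (i sh : Nat) : Nat := Bool.rec (Nat.shiftRight leaf3009 sh) (Nat.shiftRight leaf3010 sh) (Nat.ble 3010 i)
noncomputable def s3011_3013 (i sh : Nat) : Nat := Bool.rec (Nat.shiftRight leaf3011 sh) (Nat.shiftRight leaf3012 sh) (Nat.ble 3012 i)
noncomputable def s3009_3013 (i sh : Nat) : Nat := Bool.rec (s3009_3011 i sh) (s3011_3013 i sh) (Nat.ble 3011 i)
noncomputable def s3006_3013 (i sh : Nat) : Nat := Bool.rec (s3006_3009 i sh) (s3009_3013 i sh) (Nat.ble 3009 i)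
noncomputable def s3000_3013 (i sh : Nat) : Nat := Bool.rec (s3000_3006 i sh) (s3006_3013 i sh) (Nat.ble 3006 i)
noncomputable def s2984_3013 (i sh : Nat) : Nat := Bool.rec (s2984_3000 i sh) (s3000_3013 i sh) (Nat.ble 3000 i)
noncomputable def s3013_3015 (i sh : Nat) : Nat := Bool.rec (Nat.shiftRight leaf3013 sh) (Nat.shiftRight leaf3014 sh) (Nat.ble 3014 i)
noncomputable def s3016_3018 (i sh : Nat) : Nat := Bool.rec (Nat.shiftRight leaf3016 sh) (Nat.shiftRight leaf3017 sh) (Nat.ble 3017 i)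
noncomputable def s3015_3018 (i sh : Nat) : Nat := Bool.rec (Nat.shiftRight leaf3015 sh) (s3016_3018 i sh) (Nat.ble 3016 i)
noncomputable def s3013_3018 (i sh : Nat) : Nat := Bool.rec (s3013_3015 i sh) (s3015_3018 i sh) (Nat.ble 3015 i)
noncomputable def s3018_3020 (i sh : Nat) : Nat := Bool.rec (Nat.shiftRight leaf3018 sh) (Nat.shiftRight leaf3019 sh) (Nat.ble 3019 i)
noncomputable def s3020_3022 (i sh : Nat) : Nat := Bool.rec (Nat.shiftRight leaf3020 sh) (Nat.shiftRight leaf3021 sh) (Nat.ble 3021 i)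
noncomputable def s3018_3022 (i sh : Nat) : Nat := Bool.rec (s3018_3020 i sh) (s3020_3022 i sh) (Nat.ble 3020 i)
noncomputable def s3022_3024 (i sh : Nat) : Nat := Bool.rec (Nat.shiftRight leaf3022 sh) (Nat.shiftRight leaf3023 sh) (Nat.ble 3023 i)
noncomputable def s3022_3025 (i sh : Nat) : Nat := Bool.rec (s3022_3024 i sh) (Nat.shiftRight leaf3024 sh) (Nat.ble 3024 i)
noncomputable def s3018_3025 (i sh : Nat) : Nat := Bool.rec (s3018_3022 i sh) (s3022_3025 i sh) (Nat.ble 3022 i)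
noncomputable def s3013_3025 (i sh : Nat) : Nat := Bool.rec (s3013_3018 i sh) (s3018_3025 i sh) (Nat.ble 3018 i)
noncomputable def s3025_3027 (i sh : Nat) : Nat := Bool.rec (Nat.shiftRight leaf3025 sh) (Nat.shiftRight leaf3026 sh) (Nat.ble 3026 i)
noncomputable def s3025_3028 (i sh : Nat) : Nat := Bool.rec (s3025_3027 i sh) (Nat.shiftRight leaf3027 sh) (Nat.ble 3027 i)
noncomputable def s3025_3029 (i sh : Nat) : Nat := Bool.rec (s3025_3028 i sh) (Nat.shiftRight leaf3028 sh) (Nat.ble 3028 i)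
noncomputable def s3029_3031 (i sh : Nat) : Nat := Bool.rec (Nat.shiftRight leaf3029 sh) (Nat.shiftRight leaf3030 sh) (Nat.ble 3030 i)
noncomputable def s3029_3032 (i sh : Nat) : Nat := Bool.rec (s3029_3031 i sh) (Nat.shiftRight leaf3031 sh) (Nat.ble 3031 i)
noncomputable def s3025_3032 (i sh : Nat) : Nat := Bool.rec (s3025_3029 i sh) (s3029_3032 i sh) (Nat.ble 3029 i)
noncomputable def s3013_3032 (i sh : Nat) : Nat := Bool.rec (s3013_3025 i sh) (s3025_3032 i sh) (Nat.ble 3025 i)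
noncomputable def s3033_3035 (i sh : Nat) : Nat := Bool.rec (Nat.shiftRight leaf3033 sh) (Nat.shiftRight leaf3034 sh) (Nat.ble 3034 i)
noncomputable def s3032_3035 (i sh : Nat) : Nat := Bool.rec (Nat.shiftRight leaf3032 sh) (s3033_3035 i sh) (Nat.ble 3033 i)
noncomputable def s3036_3038 (i sh : Nat) : Nat := Bool.rec (Nat.shiftRight leaf3036 sh) (Nat.shiftRight leaf3037 sh) (Nat.ble 3037 i)
noncomputable def s3035_3038 (i sh : Nat) : Nat := Bool.rec (Nat.shiftRight leaf3035 sh) (s3036_3038 i sh) (Nat.ble 3036 i)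
noncomputable def s3032_3038 (i sh : Nat) : Nat := Bool.rec (s3032_3035 i sh) (s3035_3038 i sh) (Nat.ble 3035 i)
noncomputable def s3039_3041 (i sh : Nat) : Nat := Bool.rec (Nat.shiftRight leaf3039 sh) (Nat.shiftRight leaf3040 sh) (Nat.ble 3040 i)
noncomputable def s3038_3041 (i sh : Nat) : Nat := Bool.rec (Nat.shiftRight leaf3038 sh) (s3039_3041 i sh) (Nat.ble 3039 i)
noncomputable def s3041_3043 (i sh : Nat) : Nat := Bool.rec (Nat.shiftRight leaf3041 sh) (Nat.shiftRight leaf3042 sh) (Nat.ble 3042 i)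
noncomputable def s3038_3043 (i sh : Nat) : Nat := Bool.rec (s3038_3041 i sh) (s3041_3043 i sh) (Nat.ble 3041 i)
noncomputable def s3032_3043 (i sh : Nat) : Nat := Bool.rec (s3032_3038 i sh) (s3038_3043 i sh) (Nat.ble 3038 i)
noncomputable def s3045_3047 (i sh : Nat) : Nat := Bool.rec (Nat.shiftRight leaf3045 sh) (Nat.shiftRight leaf3046 sh) (Nat.ble 3046 i)
noncomputable def s3044_3047 (i sh : Nat) : Nat := Bool.rec (Nat.shiftRight leaf3044 sh) (s3045_3047 i sh) (Nat.ble 3045 i)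
noncomputable def s3043_3047 (i sh : Nat) : Nat := Bool.rec (Nat.shiftRight leaf3043 sh) (s3044_3047 i sh) (Nat.ble 3044 i)
noncomputable def s3043_3048 (i sh : Nat) : Nat := Bool.rec (s3043_3047 i sh) (Nat.shiftRight leaf3047 sh) (Nat.ble 3047 i)
noncomputable def s3032_3048 (i sh : Nat) : Nat := Bool.rec (s3032_3043 i sh) (s3043_3048 i sh) (Nat.ble 3043 i)
noncomputable def s3013_3048 (i sh : Nat) : Nat := Bool.rec (s3013_3032 i sh) (s3032_3048 i sh) (Nat.ble 3032 i)
noncomputable def s2984_3048 (i sh : Nat) : Nat := Bool.rec (s2984_3013 i sh) (s3013_3048 i sh) (Nat.ble 3013 i)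
noncomputable def s2930_3048 (i sh : Nat) : Nat := Bool.rec (s2930_2984 i sh) (s2984_3048 i sh) (Nat.ble 2984 i)
noncomputable def s2872_3048 (i sh : Nat) : Nat := Bool.rec (s2872_2930 i sh) (s2930_3048 i sh) (Nat.ble 2930 i)
noncomputable def s3048_3050 (i sh : Nat) : Nat := Bool.rec (Nat.shiftRight leaf3048 sh) (Nat.shiftRight leaf3049 sh) (Nat.ble 3049 i)
noncomputable def s3050_3052 (i sh : Nat) : Nat := Bool.rec (Nat.shiftRight leaf3050 sh) (Nat.shiftRight leaf3051 sh) (Nat.ble 3051 i)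
noncomputable def s3050_3053 (i sh : Nat) : Nat := Bool.rec (s3050_3052 i sh) (Nat.shiftRight leaf3052 sh) (Nat.ble 3052 i)
noncomputable def s3048_3053 (i sh : Nat) : Nat := Bool.rec (s3048_3050 i sh) (s3050_3053 i sh) (Nat.ble 3050 i)
noncomputable def s3054_3056 (i sh : Nat) : Nat := Bool.rec (Nat.shiftRight leaf3054 sh) (Nat.shiftRight leaf3055 sh) (Nat.ble 3055 i)
noncomputable def s3053_3056 (i sh : Nat) : Nat := Bool.rec (Nat.shiftRight leaf3053 sh) (s3054_3056 i sh) (Nat.ble 3054 i)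
noncomputable def s3057_3059 (i sh : Nat) : Nat := Bool.rec (Nat.shiftRight leaf3057 sh) (Nat.shiftRight leaf3058 sh) (Nat.ble 3058 i)
noncomputable def s3056_3059 (i sh : Nat) : Nat := Bool.rec (Nat.shiftRight leaf3056 sh) (s3057_3059 i sh) (Nat.ble 3057 i)
noncomputable def s3059_3061 (i sh : Nat) : Nat := Bool.rec (Nat.shiftRight leaf3059 sh) (Nat.shiftRight leaf3060 sh) (Nat.ble 3060 i)
noncomputable def s3056_3061 (i sh : Nat) : Nat := Bool.rec (s3056_3059 i sh) (s3059_3061 i sh) (Nat.ble 3059 i)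
noncomputable def s3053_3061 (i sh : Nat) : Nat := Bool.rec (s3053_3056 i sh) (s3056_3061 i sh) (Nat.ble 3056 i)
noncomputable def s3062_3064 (i sh : Nat) : Nat := Bool.rec (Nat.shiftRight leaf3062 sh) (Nat.shiftRight leaf3063 sh) (Nat.ble 3063 i)
noncomputable def s3062_3065 (i sh : Nat) : Nat := Bool.rec (s3062_3064 i sh) (Nat.shiftRight leaf3064 sh) (Nat.ble 3064 i)
noncomputable def s3061_3065 (i sh : Nat) : Nat := Bool.rec (Nat.shiftRight leaf3061 sh) (s3062_3065 i sh) (Nat.ble 3062 i)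
noncomputable def s3065_3067 (i sh : Nat) : Nat := Bool.rec (Nat.shiftRight leaf3065 sh) (Nat.shiftRight leaf3066 sh) (Nat.ble 3066 i)
noncomputable def s3065_3068 (i sh : Nat) : Nat := Bool.rec (s3065_3067 i sh) (Nat.shiftRight leaf3067 sh) (Nat.ble 3067 i)
noncomputable def s3068_3070 (i sh : Nat) : Nat := Bool.rec (Nat.shiftRight leaf3068 sh) (Nat.shiftRight leaf3069 sh) (Nat.ble 3069 i)
noncomputable def s3068_3071 (i sh : Nat) : Nat := Bool.rec (s3068_3070 i sh) (Nat.shiftRight leaf3070 sh) (Nat.ble 3070 i)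
noncomputable def s3065_3071 (i sh : Nat) : Nat := Bool.rec (s3065_3068 i sh) (s3068_3071 i sh) (Nat.ble 3068 i)
noncomputable def s3061_3071 (i sh : Nat) : Nat := Bool.rec (s3061_3065 i sh) (s3065_3071 i sh) (Nat.ble 3065 i)
noncomputable def s3053_3071 (i sh : Nat) : Nat := Bool.rec (s3053_3061 i sh) (s3061_3071 i sh) (Nat.ble 3061 i)
noncomputable def s3048_3071 (i sh : Nat) : Nat := Bool.rec (s3048_3053 i sh) (s3053_3071 i sh) (Nat.ble 3053 i)
noncomputable def s3071_3073 (i sh : Nat) : Nat := Bool.rec (Nat.shiftRight leaf3071 sh) (Nat.shiftRight leaf3072 sh) (Nat.ble 3072 i)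
noncomputable def s3073_3075 (i sh : Nat) : Nat := Bool.rec (Nat.shiftRight leaf3073 sh) (Nat.shiftRight leaf3074 sh) (Nat.ble 3074 i)
noncomputable def s3071_3075 (i sh : Nat) : Nat := Bool.rec (s3071_3073 i sh) (s3073_3075 i sh) (Nat.ble 3073 i)
noncomputable def s3071_3076 (i sh : Nat) : Nat := Bool.rec (s3071_3075 i sh) (Nat.shiftRight leaf3075 sh) (Nat.ble 3075 i)
noncomputable def s3077_3079 (i sh : Nat) : Nat := Bool.rec (Nat.shiftRight leaf3077 sh) (Nat.shiftRight leaf3078 sh) (Nat.ble 3078 i)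
noncomputable def s3076_3079 (i sh : Nat) : Nat := Bool.rec (Nat.shiftRight leaf3076 sh) (s3077_3079 i sh) (Nat.ble 3077 i)
noncomputable def s3071_3079 (i sh : Nat) : Nat := Bool.rec (s3071_3076 i sh) (s3076_3079 i sh) (Nat.ble 3076 i)
noncomputable def s3080_3082 (i sh : Nat) : Nat := Bool.rec (Nat.shiftRight leaf3080 sh) (Nat.shiftRight leaf3081 sh) (Nat.ble 3081 i)
noncomputable def s3079_3082 (i sh : Nat) : Nat := Bool.rec (Nat.shiftRight leaf3079 sh) (s3080_3082 i sh) (Nat.ble 3080 i)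
noncomputable def s3082_3084 (i sh : Nat) : Nat := Bool.rec (Nat.shiftRight leaf3082 sh) (Nat.shiftRight leaf3083 sh) (Nat.ble 3083 i)
noncomputable def s3082_3085 (i sh : Nat) : Nat := Bool.rec (s3082_3084 i sh) (Nat.shiftRight leaf3084 sh) (Nat.ble 3084 i)
noncomputable def s3079_3085 (i sh : Nat) : Nat := Bool.rec (s3079_3082 i sh) (s3082_3085 i sh) (Nat.ble 3082 i)
noncomputable def s3086_3088 (i sh : Nat) : Nat := Bool.rec (Nat.shiftRight leaf3086 sh) (Nat.shiftRight leaf3087 sh) (Nat.ble 3087 i)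
noncomputable def s3085_3088 (i sh : Nat) : Nat := Bool.rec (Nat.shiftRight leaf3085 sh) (s3086_3088 i sh) (Nat.ble 3086 i)
noncomputable def s3079_3088 (i sh : Nat) : Nat := Bool.rec (s3079_3085 i sh) (s3085_3088 i sh) (Nat.ble 3085 i)
noncomputable def s3088_3090 (i sh : Nat) : Nat := Bool.rec (Nat.shiftRight leaf3088 sh) (Nat.shiftRight leaf3089 sh) (Nat.ble 3089 i)
noncomputable def s3090_3092 (i sh : Nat) : Nat := Bool.rec (Nat.shiftRight leaf3090 sh) (Nat.shiftRight leaf3091 sh) (Nat.ble 3091 i)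
noncomputable def s3088_3092 (i sh : Nat) : Nat := Bool.rec (s3088_3090 i sh) (s3090_3092 i sh) (Nat.ble 3090 i)
noncomputable def s3092_3094 (i sh : Nat) : Nat := Bool.rec (Nat.shiftRight leaf3092 sh) (Nat.shiftRight leaf3093 sh) (Nat.ble 3093 i)
noncomputable def s3095_3097 (i sh : Nat) : Nat := Bool.rec (Nat.shiftRight leaf3095 sh) (Nat.shiftRight leaf3096 sh) (Nat.ble 3096 i)
noncomputable def s3094_3097 (i sh : Nat) : Nat := Bool.rec (Nat.shiftRight leaf3094 sh) (s3095_3097 i sh) (Nat.ble 3095 i)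
noncomputable def s3092_3097 (i sh : Nat) : Nat := Bool.rec (s3092_3094 i sh) (s3094_3097 i sh) (Nat.ble 3094 i)
noncomputable def s3088_3097 (i sh : Nat) : Nat := Bool.rec (s3088_3092 i sh) (s3092_3097 i sh) (Nat.ble 3092 i)
noncomputable def s3079_3097 (i sh : Nat) : Nat := Bool.rec (s3079_3088 i sh) (s3088_3097 i sh) (Nat.ble 3088 i)
noncomputable def s3071_3097 (i sh : Nat) : Nat := Bool.rec (s3071_3079 i sh) (s3079_3097 i sh) (Nat.ble 3079 i)
noncomputable def s3048_3097 (i sh : Nat) : Nat := Bool.rec (s3048_3071 i sh) (s3071_3097 i sh) (Nat.ble 3071 i)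
noncomputable def s3097_3099 (i sh : Nat) : Nat := Bool.rec (Nat.shiftRight leaf3097 sh) (Nat.shiftRight leaf3098 sh) (Nat.ble 3098 i)
noncomputable def s3099_3101 (i sh : Nat) : Nat := Bool.rec (Nat.shiftRight leaf3099 sh) (Nat.shiftRight leaf3100 sh) (Nat.ble 3100 i)
noncomputable def s3101_3103 (i sh : Nat) : Nat := Bool.rec (Nat.shiftRight leaf3101 sh) (Nat.shiftRight leaf3102 sh) (Nat.ble 3102 i)
noncomputable def s3101_3104 (i sh : Nat) : Nat := Bool.rec (s3101_3103 i sh) (Nat.shiftRight leaf3103 sh) (Nat.ble 3103 i)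
noncomputable def s3099_3104 (i sh : Nat) : Nat := Bool.rec (s3099_3101 i sh) (s3101_3104 i sh) (Nat.ble 3101 i)
noncomputable def s3097_3104 (i sh : Nat) : Nat := Bool.rec (s3097_3099 i sh) (s3099_3104 i sh) (Nat.ble 3099 i)
noncomputable def s3104_3106 (i sh : Nat) : Nat := Bool.rec (Nat.shiftRight leaf3104 sh) (Nat.shiftRight leaf3105 sh) (Nat.ble 3105 i)
noncomputable def s3104_3107 (i sh : Nat) : Nat := Bool.rec (s3104_3106 i sh) (Nat.shiftRight leaf3106 sh) (Nat.ble 3106 i)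
noncomputable def s3107_3109 (i sh : Nat) : Nat := Bool.rec (Nat.shiftRight leaf3107 sh) (Nat.shiftRight leaf3108 sh) (Nat.ble 3108 i)
noncomputable def s3104_3109 (i sh : Nat) : Nat := Bool.rec (s3104_3107 i sh) (s3107_3109 i sh) (Nat.ble 3107 i)
noncomputable def s3109_3111 (i sh : Nat) : Nat := Bool.rec (Nat.shiftRight leaf3109 sh) (Nat.shiftRight leaf3110 sh) (Nat.ble 3110 i)
noncomputable def s3112_3114 (i sh : Nat) : Nat := Bool.rec (Nat.shiftRight leaf3112 sh) (Nat.shiftRight leaf3113 sh) (Nat.ble 3113 i)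
noncomputable def s3111_3114 (i sh : Nat) : Nat := Bool.rec (Nat.shiftRight leaf3111 sh) (s3112_3114 i sh) (Nat.ble 3112 i)
noncomputable def s3109_3114 (i sh : Nat) : Nat := Bool.rec (s3109_3111 i sh) (s3111_3114 i sh) (Nat.ble 3111 i)
noncomputable def s3104_3114 (i sh : Nat) : Nat := Bool.rec (s3104_3109 i sh) (s3109_3114 i sh) (Nat.ble 3109 i)
noncomputable def s3097_3114 (i sh : Nat) : Nat := Bool.rec (s3097_3104 i sh) (s3104_3114 i sh) (Nat.ble 3104 i)
noncomputable def s3115_3117 (i sh : Nat) : Nat := Bool.rec (Nat.shiftRight leaf3115 sh) (Nat.shiftRight leaf3116 sh) (Nat.ble 3116 i)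
noncomputable def s3114_3117 (i sh : Nat) : Nat := Bool.rec (Nat.shiftRight leaf3114 sh) (s3115_3117 i sh) (Nat.ble 3115 i)
noncomputable def s3114_3118 (i sh : Nat) : Nat := Bool.rec (s3114_3117 i sh) (Nat.shiftRight leaf3117 sh) (Nat.ble 3117 i)
noncomputable def s3118_3120 (i sh : Nat) : Nat := Bool.rec (Nat.shiftRight leaf3118 sh) (Nat.shiftRight leaf3119 sh) (Nat.ble 3119 i)
noncomputable def s3121_3123 (i sh : Nat) : Nat := Bool.rec (Nat.shiftRight leaf3121 sh) (Nat.shiftRight leaf3122 sh) (Nat.ble 3122 i)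
noncomputable def s3120_3123 (i sh : Nat) : Nat := Bool.rec (Nat.shiftRight leaf3120 sh) (s3121_3123 i sh) (Nat.ble 3121 i)
noncomputable def s3118_3123 (i sh : Nat) : Nat := Bool.rec (s3118_3120 i sh) (s3120_3123 i sh) (Nat.ble 3120 i)
noncomputable def s3123_3125 (i sh : Nat) : Nat := Bool.rec (Nat.shiftRight leaf3123 sh) (Nat.shiftRight leaf3124 sh) (Nat.ble 3124 i)
noncomputable def s3125_3127 (i sh : Nat) : Nat := Bool.rec (Nat.shiftRight leaf3125 sh) (Nat.shiftRight leaf3126 sh) (Nat.ble 3126 i)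
noncomputable def s3123_3127 (i sh : Nat) : Nat := Bool.rec (s3123_3125 i sh) (s3125_3127 i sh) (Nat.ble 3125 i)
noncomputable def s3118_3127 (i sh : Nat) : Nat := Bool.rec (s3118_3123 i sh) (s3123_3127 i sh) (Nat.ble 3123 i)
noncomputable def s3114_3127 (i sh : Nat) : Nat := Bool.rec (s3114_3118 i sh) (s3118_3127 i sh) (Nat.ble 3118 i)
noncomputable def s3097_3127 (i sh : Nat) : Nat := Bool.rec (s3097_3114 i sh) (s3114_3127 i sh) (Nat.ble 3114 i)
noncomputable def s3127_3129 (i sh : Nat) : Nat := Bool.rec (Nat.shiftRight leaf3127 sh) (Nat.shiftRight leaf3128 sh) (Nat.ble 3128 i)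
noncomputable def s3127_3130 (i sh : Nat) : Nat := Bool.rec (s3127_3129 i sh) (Nat.shiftRight leaf3129 sh) (Nat.ble 3129 i)
noncomputable def s3130_3132 (i sh : Nat) : Nat := Bool.rec (Nat.shiftRight leaf3130 sh) (Nat.shiftRight leaf3131 sh) (Nat.ble 3131 i)
noncomputable def s3127_3132 (i sh : Nat) : Nat := Bool.rec (s3127_3130 i sh) (s3130_3132 i sh) (Nat.ble 3130 i)
noncomputable def s3132_3134 (i sh : Nat) : Nat := Bool.rec (Nat.shiftRight leaf3132 sh) (Nat.shiftRight leaf3133 sh) (Nat.ble 3133 i)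
noncomputable def s3134_3136 (i sh : Nat) : Nat := Bool.rec (Nat.shiftRight leaf3134 sh) (Nat.shiftRight leaf3135 sh) (Nat.ble 3135 i)
noncomputable def s3132_3136 (i sh : Nat) : Nat := Bool.rec (s3132_3134 i sh) (s3134_3136 i sh) (Nat.ble 3134 i)
noncomputable def s3127_3136 (i sh : Nat) : Nat := Bool.rec (s3127_3132 i sh) (s3132_3136 i sh) (Nat.ble 3132 i)
noncomputable def s3136_3138 (i sh : Nat) : Nat := Bool.rec (Nat.shiftRight leaf3136 sh) (Nat.shiftRight leaf3137 sh) (Nat.ble 3137 i)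
noncomputable def s3136_3139 (i sh : Nat) : Nat := Bool.rec (s3136_3138 i sh) (Nat.shiftRight leaf3138 sh) (Nat.ble 3138 i)
noncomputable def s3136_3140 (i sh : Nat) : Nat := Bool.rec (s3136_3139 i sh) (Nat.shiftRight leaf3139 sh) (Nat.ble 3139 i)
noncomputable def s3140_3142 (i sh : Nat) : Nat := Bool.rec (Nat.shiftRight leaf3140 sh) (Nat.shiftRight leaf3141 sh) (Nat.ble 3141 i)
noncomputable def s3136_3142 (i sh : Nat) : Nat := Bool.rec (s3136_3140 i sh) (s3140_3142 i sh) (Nat.ble 3140 i)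
noncomputable def s3127_3142 (i sh : Nat) : Nat := Bool.rec (s3127_3136 i sh) (s3136_3142 i sh) (Nat.ble 3136 i)
noncomputable def s3142_3144 (i sh : Nat) : Nat := Bool.rec (Nat.shiftRight leaf3142 sh) (Nat.shiftRight leaf3143 sh) (Nat.ble 3143 i)
noncomputable def s3145_3147 (i sh : Nat) : Nat := Bool.rec (Nat.shiftRight leaf3145 sh) (Nat.shiftRight leaf3146 sh) (Nat.ble 3146 i)
noncomputable def s3144_3147 (i sh : Nat) : Nat := Bool.rec (Nat.shiftRight leaf3144 sh) (s3145_3147 i sh) (Nat.ble 3145 i)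
noncomputable def s3142_3147 (i sh : Nat) : Nat := Bool.rec (s3142_3144 i sh) (s3144_3147 i sh) (Nat.ble 3144 i)
noncomputable def s3142_3148 (i sh : Nat) : Nat := Bool.rec (s3142_3147 i sh) (Nat.shiftRight leaf3147 sh) (Nat.ble 3147 i)
noncomputable def s3148_3150 (i sh : Nat) : Nat := Bool.rec (Nat.shiftRight leaf3148 sh) (Nat.shiftRight leaf3149 sh) (Nat.ble 3149 i)
noncomputable def s3142_3150 (i sh : Nat) : Nat := Bool.rec (s3142_3148 i sh) (s3148_3150 i sh) (Nat.ble 3148 i)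
noncomputable def s3150_3152 (i sh : Nat) : Nat := Bool.rec (Nat.shiftRight leaf3150 sh) (Nat.shiftRight leaf3151 sh) (Nat.ble 3151 i)
noncomputable def s3150_3153 (i sh : Nat) : Nat := Bool.rec (s3150_3152 i sh) (Nat.shiftRight leaf3152 sh) (Nat.ble 3152 i)
noncomputable def s3153_3155 (i sh : Nat) : Nat := Bool.rec (Nat.shiftRight leaf3153 sh) (Nat.shiftRight leaf3154 sh) (Nat.ble 3154 i)
noncomputable def s3153_3156 (i sh : Nat) : Nat := Bool.rec (s3153_3155 i sh) (Nat.shiftRight leaf3155 sh) (Nat.ble 3155 i)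
noncomputable def s3150_3156 (i sh : Nat) : Nat := Bool.rec (s3150_3153 i sh) (s3153_3156 i sh) (Nat.ble 3153 i)
noncomputable def s3156_3158 (i sh : Nat) : Nat := Bool.rec (Nat.shiftRight leaf3156 sh) (Nat.shiftRight leaf3157 sh) (Nat.ble 3157 i)
noncomputable def s3159_3161 (i sh : Nat) : Nat := Bool.rec (Nat.shiftRight leaf3159 sh) (Nat.shiftRight leaf3160 sh) (Nat.ble 3160 i)
noncomputable def s3158_3161 (i sh : Nat) : Nat := Bool.rec (Nat.shiftRight leaf3158 sh) (s3159_3161 i sh) (Nat.ble 3159 i)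
noncomputable def s3156_3161 (i sh : Nat) : Nat := Bool.rec (s3156_3158 i sh) (s3158_3161 i sh) (Nat.ble 3158 i)
noncomputable def s3150_3161 (i sh : Nat) : Nat := Bool.rec (s3150_3156 i sh) (s3156_3161 i sh) (Nat.ble 3156 i)
noncomputable def s3142_3161 (i sh : Nat) : Nat := Bool.rec (s3142_3150 i sh) (s3150_3161 i sh) (Nat.ble 3150 i)
noncomputable def s3127_3161 (i sh : Nat) : Nat := Bool.rec (s3127_3142 i sh) (s3142_3161 i sh) (Nat.ble 3142 i)
noncomputable def s3097_3161 (i sh : Nat) : Nat := Bool.rec (s3097_3127 i sh) (s3127_3161 i sh) (Nat.ble 3127 i)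
noncomputable def s3048_3161 (i sh : Nat) : Nat := Bool.rec (s3048_3097 i sh) (s3097_3161 i sh) (Nat.ble 3097 i)
noncomputable def s3161_3163 (i sh : Nat) : Nat := Bool.rec (Nat.shiftRight leaf3161 sh) (Nat.shiftRight leaf3162 sh) (Nat.ble 3162 i)
noncomputable def s3163_3165 (i sh : Nat) : Nat := Bool.rec (Nat.shiftRight leaf3163 sh) (Nat.shiftRight leaf3164 sh) (Nat.ble 3164 i)
noncomputable def s3161_3165 (i sh : Nat) : Nat := Bool.rec (s3161_3163 i sh) (s3163_3165 i sh) (Nat.ble 3163 i)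
noncomputable def s3165_3167 (i sh : Nat) : Nat := Bool.rec (Nat.shiftRight leaf3165 sh) (Nat.shiftRight leaf3166 sh) (Nat.ble 3166 i)
noncomputable def s3165_3168 (i sh : Nat) : Nat := Bool.rec (s3165_3167 i sh) (Nat.shiftRight leaf3167 sh) (Nat.ble 3167 i)
noncomputable def s3161_3168 (i sh : Nat) : Nat := Bool.rec (s3161_3165 i sh) (s3165_3168 i sh) (Nat.ble 3165 i)
noncomputable def s3169_3171 (i sh : Nat) : Nat := Bool.rec (Nat.shiftRight leaf3169 sh) (Nat.shiftRight leaf3170 sh) (Nat.ble 3170 i)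
noncomputable def s3168_3171 (i sh : Nat) : Nat := Bool.rec (Nat.shiftRight leaf3168 sh) (s3169_3171 i sh) (Nat.ble 3169 i)
noncomputable def s3172_3174 (i sh : Nat) : Nat := Bool.rec (Nat.shiftRight leaf3172 sh) (Nat.shiftRight leaf3173 sh) (Nat.ble 3173 i)
noncomputable def s3171_3174 (i sh : Nat) : Nat := Bool.rec (Nat.shiftRight leaf3171 sh) (s3172_3174 i sh) (Nat.ble 3172 i)
noncomputable def s3168_3174 (i sh : Nat) : Nat := Bool.rec (s3168_3171 i sh) (s3171_3174 i sh) (Nat.ble 3171 i)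
noncomputable def s3161_3174 (i sh : Nat) : Nat := Bool.rec (s3161_3168 i sh) (s3168_3174 i sh) (Nat.ble 3168 i)
noncomputable def s3174_3176 (i sh : Nat) : Nat := Bool.rec (Nat.shiftRight leaf3174 sh) (Nat.shiftRight leaf3175 sh) (Nat.ble 3175 i)
noncomputable def s3174_3177 (i sh : Nat) : Nat := Bool.rec (s3174_3176 i sh) (Nat.shiftRight leaf3176 sh) (Nat.ble 3176 i)
noncomputable def s3178_3180 (i sh : Nat) : Nat := Bool.rec (Nat.shiftRight leaf3178 sh) (Nat.shiftRight leaf3179 sh) (Nat.ble 3179 i)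
noncomputable def s3178_3181 (i sh : Nat) : Nat := Bool.rec (s3178_3180 i sh) (Nat.shiftRight leaf3180 sh) (Nat.ble 3180 i)
noncomputable def s3177_3181 (i sh : Nat) : Nat := Bool.rec (Nat.shiftRight leaf3177 sh) (s3178_3181 i sh) (Nat.ble 3178 i)
noncomputable def s3174_3181 (i sh : Nat) : Nat := Bool.rec (s3174_3177 i sh) (s3177_3181 i sh) (Nat.ble 3177 i)
noncomputable def s3161_3181 (i sh : Nat) : Nat := Bool.rec (s3161_3174 i sh) (s3174_3181 i sh) (Nat.ble 3174 i)
noncomputable def s3181_3183 (i sh : Nat) : Nat := Bool.rec (Nat.shiftRight leaf3181 sh) (Nat.shiftRight leaf3182 sh) (Nat.ble 3182 i)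
noncomputable def s3183_3185 (i sh : Nat) : Nat := Bool.rec (Nat.shiftRight leaf3183 sh) (Nat.shiftRight leaf3184 sh) (Nat.ble 3184 i)
noncomputable def s3181_3185 (i sh : Nat) : Nat := Bool.rec (s3181_3183 i sh) (s3183_3185 i sh) (Nat.ble 3183 i)
noncomputable def s3185_3187 (i sh : Nat) : Nat := Bool.rec (Nat.shiftRight leaf3185 sh) (Nat.shiftRight leaf3186 sh) (Nat.ble 3186 i)
noncomputable def s3185_3188 (i sh : Nat) : Nat := Bool.rec (s3185_3187 i sh) (Nat.shiftRight leaf3187 sh) (Nat.ble 3187 i)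
noncomputable def s3181_3188 (i sh : Nat) : Nat := Bool.rec (s3181_3185 i sh) (s3185_3188 i sh) (Nat.ble 3185 i)
noncomputable def s3181_3189 (i sh : Nat) : Nat := Bool.rec (s3181_3188 i sh) (Nat.shiftRight leaf3188 sh) (Nat.ble 3188 i)
noncomputable def s3161_3189 (i sh : Nat) : Nat := Bool.rec (s3161_3181 i sh) (s3181_3189 i sh) (Nat.ble 3181 i)
noncomputable def s3190_3192 (i sh : Nat) : Nat := Bool.rec (Nat.shiftRight leaf3190 sh) (Nat.shiftRight leaf3191 sh) (Nat.ble 3191 i)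
noncomputable def s3189_3192 (i sh : Nat) : Nat := Bool.rec (Nat.shiftRight leaf3189 sh) (s3190_3192 i sh) (Nat.ble 3190 i)
noncomputable def s3192_3194 (i sh : Nat) : Nat := Bool.rec (Nat.shiftRight leaf3192 sh) (Nat.shiftRight leaf3193 sh) (Nat.ble 3193 i)
noncomputable def s3189_3194 (i sh : Nat) : Nat := Bool.rec (s3189_3192 i sh) (s3192_3194 i sh) (Nat.ble 3192 i)
noncomputable def s3194_3196 (i sh : Nat) : Nat := Bool.rec (Nat.shiftRight leaf3194 sh) (Nat.shiftRight leaf3195 sh) (Nat.ble 3195 i)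
noncomputable def s3194_3197 (i sh : Nat) : Nat := Bool.rec (s3194_3196 i sh) (Nat.shiftRight leaf3196 sh) (Nat.ble 3196 i)
noncomputable def s3189_3197 (i sh : Nat) : Nat := Bool.rec (s3189_3194 i sh) (s3194_3197 i sh) (Nat.ble 3194 i)
noncomputable def s3197_3199 (i sh : Nat) : Nat := Bool.rec (Nat.shiftRight leaf3197 sh) (Nat.shiftRight leaf3198 sh) (Nat.ble 3198 i)
noncomputable def s3197_3200 (i sh : Nat) : Nat := Bool.rec (s3197_3199 i sh) (Nat.shiftRight leaf3199 sh) (Nat.ble 3199 i)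
noncomputable def s3200_3202 (i sh : Nat) : Nat := Bool.rec (Nat.shiftRight leaf3200 sh) (Nat.shiftRight leaf3201 sh) (Nat.ble 3201 i)
noncomputable def s3197_3202 (i sh : Nat) : Nat := Bool.rec (s3197_3200 i sh) (s3200_3202 i sh) (Nat.ble 3200 i)
noncomputable def s3202_3204 (i sh : Nat) : Nat := Bool.rec (Nat.shiftRight leaf3202 sh) (Nat.shiftRight leaf3203 sh) (Nat.ble 3203 i)
noncomputable def s3202_3205 (i sh : Nat) : Nat := Bool.rec (s3202_3204 i sh) (Nat.shiftRight leaf3204 sh) (Nat.ble 3204 i)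
noncomputable def s3197_3205 (i sh : Nat) : Nat := Bool.rec (s3197_3202 i sh) (s3202_3205 i sh) (Nat.ble 3202 i)
noncomputable def s3189_3205 (i sh : Nat) : Nat := Bool.rec (s3189_3197 i sh) (s3197_3205 i sh) (Nat.ble 3197 i)
noncomputable def s3205_3207 (i sh : Nat) : Nat := Bool.rec (Nat.shiftRight leaf3205 sh) (Nat.shiftRight leaf3206 sh) (Nat.ble 3206 i)
noncomputable def s3205_3208 (i sh : Nat) : Nat := Bool.rec (s3205_3207 i sh) (Nat.shiftRight leaf3207 sh) (Nat.ble 3207 i)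
noncomputable def s3205_3209 (i sh : Nat) : Nat := Bool.rec (s3205_3208 i sh) (Nat.shiftRight leaf3208 sh) (Nat.ble 3208 i)
noncomputable def s3209_3211 (i sh : Nat) : Nat := Bool.rec (Nat.shiftRight leaf3209 sh) (Nat.shiftRight leaf3210 sh) (Nat.ble 3210 i)
noncomputable def s3211_3213 (i sh : Nat) : Nat := Bool.rec (Nat.shiftRight leaf3211 sh) (Nat.shiftRight leaf3212 sh) (Nat.ble 3212 i)
noncomputable def s3209_3213 (i sh : Nat) : Nat := Bool.rec (s3209_3211 i sh) (s3211_3213 i sh) (Nat.ble 3211 i)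
noncomputable def s3205_3213 (i sh : Nat) : Nat := Bool.rec (s3205_3209 i sh) (s3209_3213 i sh) (Nat.ble 3209 i)
noncomputable def s3213_3215 (i sh : Nat) : Nat := Bool.rec (Nat.shiftRight leaf3213 sh) (Nat.shiftRight leaf3214 sh) (Nat.ble 3214 i)
noncomputable def s3205_3215 (i sh : Nat) : Nat := Bool.rec (s3205_3213 i sh) (s3213_3215 i sh) (Nat.ble 3213 i)
noncomputable def s3189_3215 (i sh : Nat) : Nat := Bool.rec (s3189_3205 i sh) (s3205_3215 i sh) (Nat.ble 3205 i)
noncomputable def s3161_3215 (i sh : Nat) : Nat := Bool.rec (s3161_3189 i sh) (s3189_3215 i sh) (Nat.ble 3189 i)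
noncomputable def s3215_3217 (i sh : Nat) : Nat := Bool.rec (Nat.shiftRight leaf3215 sh) (Nat.shiftRight leaf3216 sh) (Nat.ble 3216 i)
noncomputable def s3217_3219 (i sh : Nat) : Nat := Bool.rec (Nat.shiftRight leaf3217 sh) (Nat.shiftRight leaf3218 sh) (Nat.ble 3218 i)
noncomputable def s3219_3221 (i sh : Nat) : Nat := Bool.rec (Nat.shiftRight leaf3219 sh) (Nat.shiftRight leaf3220 sh) (Nat.ble 3220 i)
noncomputable def s3219_3222 (i sh : Nat) : Nat := Bool.rec (s3219_3221 i sh) (Nat.shiftRight leaf3221 sh) (Nat.ble 3221 i)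
noncomputable def s3217_3222 (i sh : Nat) : Nat := Bool.rec (s3217_3219 i sh) (s3219_3222 i sh) (Nat.ble 3219 i)
noncomputable def s3222_3224 (i sh : Nat) : Nat := Bool.rec (Nat.shiftRight leaf3222 sh) (Nat.shiftRight leaf3223 sh) (Nat.ble 3223 i)
noncomputable def s3225_3227 (i sh : Nat) : Nat := Bool.rec (Nat.shiftRight leaf3225 sh) (Nat.shiftRight leaf3226 sh) (Nat.ble 3226 i)
noncomputable def s3224_3227 (i sh : Nat) : Nat := Bool.rec (Nat.shiftRight leaf3224 sh) (s3225_3227 i sh) (Nat.ble 3225 i)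
noncomputable def s3222_3227 (i sh : Nat) : Nat := Bool.rec (s3222_3224 i sh) (s3224_3227 i sh) (Nat.ble 3224 i)
noncomputable def s3217_3227 (i sh : Nat) : Nat := Bool.rec (s3217_3222 i sh) (s3222_3227 i sh) (Nat.ble 3222 i)
noncomputable def s3215_3227 (i sh : Nat) : Nat := Bool.rec (s3215_3217 i sh) (s3217_3227 i sh) (Nat.ble 3217 i)
noncomputable def s3228_3230 (i sh : Nat) : Nat := Bool.rec (Nat.shiftRight leaf3228 sh) (Nat.shiftRight leaf3229 sh) (Nat.ble 3229 i)
noncomputable def s3227_3230 (i sh : Nat) : Nat := Bool.rec (Nat.shiftRight leaf3227 sh) (s3228_3230 i sh) (Nat.ble 3228 i)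
noncomputable def s3231_3233 (i sh : Nat) : Nat := Bool.rec (Nat.shiftRight leaf3231 sh) (Nat.shiftRight leaf3232 sh) (Nat.ble 3232 i)
noncomputable def s3230_3233 (i sh : Nat) : Nat := Bool.rec (Nat.shiftRight leaf3230 sh) (s3231_3233 i sh) (Nat.ble 3231 i)
noncomputable def s3227_3233 (i sh : Nat) : Nat := Bool.rec (s3227_3230 i sh) (s3230_3233 i sh) (Nat.ble 3230 i)
noncomputable def s3234_3236 (i sh : Nat) : Nat := Bool.rec (Nat.shiftRight leaf3234 sh) (Nat.shiftRight leaf3235 sh) (Nat.ble 3235 i)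
noncomputable def s3233_3236 (i sh : Nat) : Nat := Bool.rec (Nat.shiftRight leaf3233 sh) (s3234_3236 i sh) (Nat.ble 3234 i)
noncomputable def s3227_3236 (i sh : Nat) : Nat := Bool.rec (s3227_3233 i sh) (s3233_3236 i sh) (Nat.ble 3233 i)
noncomputable def s3236_3238 (i sh : Nat) : Nat := Bool.rec (Nat.shiftRight leaf3236 sh) (Nat.shiftRight leaf3237 sh) (Nat.ble 3237 i)
noncomputable def s3236_3239 (i sh : Nat) : Nat := Bool.rec (s3236_3238 i sh) (Nat.shiftRight leaf3238 sh) (Nat.ble 3238 i)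
noncomputable def s3239_3241 (i sh : Nat) : Nat := Bool.rec (Nat.shiftRight leaf3239 sh) (Nat.shiftRight leaf3240 sh) (Nat.ble 3240 i)
noncomputable def s3239_3242 (i sh : Nat) : Nat := Bool.rec (s3239_3241 i sh) (Nat.shiftRight leaf3241 sh) (Nat.ble 3241 i)
noncomputable def s3242_3244 (i sh : Nat) : Nat := Bool.rec (Nat.shiftRight leaf3242 sh) (Nat.shiftRight leaf3243 sh) (Nat.ble 3243 i)
noncomputable def s3239_3244 (i sh : Nat) : Nat := Bool.rec (s3239_3242 i sh) (s3242_3244 i sh) (Nat.ble 3242 i)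
noncomputable def s3236_3244 (i sh : Nat) : Nat := Bool.rec (s3236_3239 i sh) (s3239_3244 i sh) (Nat.ble 3239 i)
noncomputable def s3244_3246 (i sh : Nat) : Nat := Bool.rec (Nat.shiftRight leaf3244 sh) (Nat.shiftRight leaf3245 sh) (Nat.ble 3245 i)
noncomputable def s3246_3248 (i sh : Nat) : Nat := Bool.rec (Nat.shiftRight leaf3246 sh) (Nat.shiftRight leaf3247 sh) (Nat.ble 3247 i)
noncomputable def s3244_3248 (i sh : Nat) : Nat := Bool.rec (s3244_3246 i sh) (s3246_3248 i sh) (Nat.ble 3246 i)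
noncomputable def s3249_3251 (i sh : Nat) : Nat := Bool.rec (Nat.shiftRight leaf3249 sh) (Nat.shiftRight leaf3250 sh) (Nat.ble 3250 i)
noncomputable def s3248_3251 (i sh : Nat) : Nat := Bool.rec (Nat.shiftRight leaf3248 sh) (s3249_3251 i sh) (Nat.ble 3249 i)
noncomputable def s3244_3251 (i sh : Nat) : Nat := Bool.rec (s3244_3248 i sh) (s3248_3251 i sh) (Nat.ble 3248 i)
noncomputable def s3236_3251 (i sh : Nat) : Nat := Bool.rec (s3236_3244 i sh) (s3244_3251 i sh) (Nat.ble 3244 i)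
noncomputable def s3227_3251 (i sh : Nat) : Nat := Bool.rec (s3227_3236 i sh) (s3236_3251 i sh) (Nat.ble 3236 i)
noncomputable def s3215_3251 (i sh : Nat) : Nat := Bool.rec (s3215_3227 i sh) (s3227_3251 i sh) (Nat.ble 3227 i)
noncomputable def s3251_3253 (i sh : Nat) : Nat := Bool.rec (Nat.shiftRight leaf3251 sh) (Nat.shiftRight leaf3252 sh) (Nat.ble 3252 i)
noncomputable def s3255_3257 (i sh : Nat) : Nat := Bool.rec (Nat.shiftRight leaf3255 sh) (Nat.shiftRight leaf3256 sh) (Nat.ble 3256 i)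
noncomputable def s3254_3257 (i sh : Nat) : Nat := Bool.rec (Nat.shiftRight leaf3254 sh) (s3255_3257 i sh) (Nat.ble 3255 i)
noncomputable def s3253_3257 (i sh : Nat) : Nat := Bool.rec (Nat.shiftRight leaf3253 sh) (s3254_3257 i sh) (Nat.ble 3254 i)
noncomputable def s3258_3260 (i sh : Nat) : Nat := Bool.rec (Nat.shiftRight leaf3258 sh) (Nat.shiftRight leaf3259 sh) (Nat.ble 3259 i)
noncomputable def s3257_3260 (i sh : Nat) : Nat := Bool.rec (Nat.shiftRight leaf3257 sh) (s3258_3260 i sh) (Nat.ble 3258 i)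
noncomputable def s3260_3262 (i sh : Nat) : Nat := Bool.rec (Nat.shiftRight leaf3260 sh) (Nat.shiftRight leaf3261 sh) (Nat.ble 3261 i)
noncomputable def s3260_3263 (i sh : Nat) : Nat := Bool.rec (s3260_3262 i sh) (Nat.shiftRight leaf3262 sh) (Nat.ble 3262 i)
noncomputable def s3257_3263 (i sh : Nat) : Nat := Bool.rec (s3257_3260 i sh) (s3260_3263 i sh) (Nat.ble 3260 i)
noncomputable def s3253_3263 (i sh : Nat) : Nat := Bool.rec (s3253_3257 i sh) (s3257_3263 i sh) (Nat.ble 3257 i)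
noncomputable def s3263_3265 (i sh : Nat) : Nat := Bool.rec (Nat.shiftRight leaf3263 sh) (Nat.shiftRight leaf3264 sh) (Nat.ble 3264 i)
noncomputable def s3265_3267 (i sh : Nat) : Nat := Bool.rec (Nat.shiftRight leaf3265 sh) (Nat.shiftRight leaf3266 sh) (Nat.ble 3266 i)
noncomputable def s3263_3267 (i sh : Nat) : Nat := Bool.rec (s3263_3265 i sh) (s3265_3267 i sh) (Nat.ble 3265 i)
noncomputable def s3253_3267 (i sh : Nat) : Nat := Bool.rec (s3253_3263 i sh) (s3263_3267 i sh) (Nat.ble 3263 i)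
noncomputable def s3251_3267 (i sh : Nat) : Nat := Bool.rec (s3251_3253 i sh) (s3253_3267 i sh) (Nat.ble 3253 i)
noncomputable def s3268_3270 (i sh : Nat) : Nat := Bool.rec (Nat.shiftRight leaf3268 sh) (Nat.shiftRight leaf3269 sh) (Nat.ble 3269 i)
noncomputable def s3267_3270 (i sh : Nat) : Nat := Bool.rec (Nat.shiftRight leaf3267 sh) (s3268_3270 i sh) (Nat.ble 3268 i)
noncomputable def s3270_3272 (i sh : Nat) : Nat := Bool.rec (Nat.shiftRight leaf3270 sh) (Nat.shiftRight leaf3271 sh) (Nat.ble 3271 i)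
noncomputable def s3270_3273 (i sh : Nat) : Nat := Bool.rec (s3270_3272 i sh) (Nat.shiftRight leaf3272 sh) (Nat.ble 3272 i)
noncomputable def s3267_3273 (i sh : Nat) : Nat := Bool.rec (s3267_3270 i sh) (s3270_3273 i sh) (Nat.ble 3270 i)
noncomputable def s3274_3276 (i sh : Nat) : Nat := Bool.rec (Nat.shiftRight leaf3274 sh) (Nat.shiftRight leaf3275 sh) (Nat.ble 3275 i)
noncomputable def s3274_3277 (i sh : Nat) : Nat := Bool.rec (s3274_3276 i sh) (Nat.shiftRight leaf3276 sh) (Nat.ble 3276 i)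
noncomputable def s3273_3277 (i sh : Nat) : Nat := Bool.rec (Nat.shiftRight leaf3273 sh) (s3274_3277 i sh) (Nat.ble 3274 i)
noncomputable def s3267_3277 (i sh : Nat) : Nat := Bool.rec (s3267_3273 i sh) (s3273_3277 i sh) (Nat.ble 3273 i)
noncomputable def s3278_3280 (i sh : Nat) : Nat := Bool.rec (Nat.shiftRight leaf3278 sh) (Nat.shiftRight leaf3279 sh) (Nat.ble 3279 i)
noncomputable def s3277_3280 (i sh : Nat) : Nat := Bool.rec (Nat.shiftRight leaf3277 sh) (s3278_3280 i sh) (Nat.ble 3278 i)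
noncomputable def s3280_3282 (i sh : Nat) : Nat := Bool.rec (Nat.shiftRight leaf3280 sh) (Nat.shiftRight leaf3281 sh) (Nat.ble 3281 i)
noncomputable def s3280_3283 (i sh : Nat) : Nat := Bool.rec (s3280_3282 i sh) (Nat.shiftRight leaf3282 sh) (Nat.ble 3282 i)
noncomputable def s3277_3283 (i sh : Nat) : Nat := Bool.rec (s3277_3280 i sh) (s3280_3283 i sh) (Nat.ble 3280 i)
noncomputable def s3277_3284 (i sh : Nat) : Nat := Bool.rec (s3277_3283 i sh) (Nat.shiftRight leaf3283 sh) (Nat.ble 3283 i)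
noncomputable def s3267_3284 (i sh : Nat) : Nat := Bool.rec (s3267_3277 i sh) (s3277_3284 i sh) (Nat.ble 3277 i)
noncomputable def s3284_3286 (i sh : Nat) : Nat := Bool.rec (Nat.shiftRight leaf3284 sh) (Nat.shiftRight leaf3285 sh) (Nat.ble 3285 i)
noncomputable def s3286_3288 (i sh : Nat) : Nat := Bool.rec (Nat.shiftRight leaf3286 sh) (Nat.shiftRight leaf3287 sh) (Nat.ble 3287 i)
noncomputable def s3286_3289 (i sh : Nat) : Nat := Bool.rec (s3286_3288 i sh) (Nat.shiftRight leaf3288 sh) (Nat.ble 3288 i)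
noncomputable def s3284_3289 (i sh : Nat) : Nat := Bool.rec (s3284_3286 i sh) (s3286_3289 i sh) (Nat.ble 3286 i)
noncomputable def s3289_3291 (i sh : Nat) : Nat := Bool.rec (Nat.shiftRight leaf3289 sh) (Nat.shiftRight leaf3290 sh) (Nat.ble 3290 i)
noncomputable def s3291_3293 (i sh : Nat) : Nat := Bool.rec (Nat.shiftRight leaf3291 sh) (Nat.shiftRight leaf3292 sh) (Nat.ble 3292 i)
noncomputable def s3289_3293 (i sh : Nat) : Nat := Bool.rec (s3289_3291 i sh) (s3291_3293 i sh) (Nat.ble 3291 i)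
noncomputable def s3284_3293 (i sh : Nat) : Nat := Bool.rec (s3284_3289 i sh) (s3289_3293 i sh) (Nat.ble 3289 i)
noncomputable def s3293_3295 (i sh : Nat) : Nat := Bool.rec (Nat.shiftRight leaf3293 sh) (Nat.shiftRight leaf3294 sh) (Nat.ble 3294 i)
noncomputable def s3295_3297 (i sh : Nat) : Nat := Bool.rec (Nat.shiftRight leaf3295 sh) (Nat.shiftRight leaf3296 sh) (Nat.ble 3296 i)
noncomputable def s3293_3297 (i sh : Nat) : Nat := Bool.rec (s3293_3295 i sh) (s3295_3297 i sh) (Nat.ble 3295 i)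
noncomputable def s3284_3297 (i sh : Nat) : Nat := Bool.rec (s3284_3293 i sh) (s3293_3297 i sh) (Nat.ble 3293 i)
noncomputable def s3267_3297 (i sh : Nat) : Nat := Bool.rec (s3267_3284 i sh) (s3284_3297 i sh) (Nat.ble 3284 i)
noncomputable def s3251_3297 (i sh : Nat) : Nat := Bool.rec (s3251_3267 i sh) (s3267_3297 i sh) (Nat.ble 3267 i)
noncomputable def s3215_3297 (i sh : Nat) : Nat := Bool.rec (s3215_3251 i sh) (s3251_3297 i sh) (Nat.ble 3251 i)
noncomputable def s3161_3297 (i sh : Nat) : Nat := Bool.rec (s3161_3215 i sh) (s3215_3297 i sh) (Nat.ble 3215 i)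
noncomputable def s3048_3297 (i sh : Nat) : Nat := Bool.rec (s3048_3161 i sh) (s3161_3297 i sh) (Nat.ble 3161 i)
noncomputable def s2872_3297 (i sh : Nat) : Nat := Bool.rec (s2872_3048 i sh) (s3048_3297 i sh) (Nat.ble 3048 i)
noncomputable def s2546_3297 (i sh : Nat) : Nat := Bool.rec (s2546_2872 i sh) (s2872_3297 i sh) (Nat.ble 2872 i)
noncomputable def s1881_3297 (i sh : Nat) : Nat := Bool.rec (s1881_2546 i sh) (s2546_3297 i sh) (Nat.ble 2546 i)
noncomputable def s1005_3297 (i sh : Nat) : Nat := Bool.rec (s1005_1881 i sh) (s1881_3297 i sh) (Nat.ble 1881 i)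
noncomputable def s0_3297 (i sh : Nat) : Nat := Bool.rec (s0_1005 i sh) (s1005_3297 i sh) (Nat.ble 1005 i)

noncomputable def sel (i sh : Nat) : Nat :=
  s0_3297 i sh

noncomputable def cls (id : Nat) : Nat :=
  Nat.land (sel (Nat.shiftRight id 6) (Nat.mul (Nat.land id 63) 484)) 49947976805055875702105555676690660891977570282639538413746511354005947821116249921924897649015871538557230897942505966327167610868612564900642815

def sp : Spec := ⟨21, 7, 14, false, 14, false, 15, 15, 0, 13, 210⟩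

end Vale.Agent.P048.Sat.PSL7
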