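import Vale.Agent.P048.Sat.TurboGraph
import Vale.Agent.P048.Sat.PSL7.In0
import Vale.Agent.P048.Sat.PSL7.In1
import Vale.Agent.P048.Sat.PSL7.In2
import Vale.Agent.P048.Sat.PSL7.In3
import Vale.Agent.P048.Sat.PSL7.In4
import Vale.Agent.P048.Sat.PSL7.In5
import Vale.Agent.P048.Sat.PSL7.In6
import Vale.Agent.P048.Sat.PSL7.In7
import Vale.Agent.P048.Sat.PSL7.In8
import Vale.Agent.P048.Sat.PSL7.In9
import Vale.Agent.P048.Sat.PSL7.In10
import Vale.Agent.P048.Sat.PSL7.In11
import Vale.Agent.P048.Sat.PSL7.In12
import Vale.Agent.P048.Sat.PSL7.In13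
import Vale.Agent.P048.Sat.PSL7.In14
import Vale.Agent.P048.Sat.PSL7.In15
import Vale.Agent.P048.Sat.PSL7.In16
import Vale.Agent.P048.Sat.PSL7.In17
import Vale.Agent.P048.Sat.PSL7.In18
import Vale.Agent.P048.Sat.PSL7.In19
import Vale.Agent.P048.Sat.PSL7.In20
import Vale.Agent.P048.Sat.PSL7.In21
import Vale.Agent.P048.Sat.PSL7.In22
import Vale.Agent.P048.Sat.PSL7.In23
import Vale.Agent.P048.Sat.PSL7.In24
import Vale.Agent.P048.Sat.PSL7.In25
import Vale.Agent.P048.Sat.PSL7.In26
import Vale.Agent.P048.Sat.PSL7.In27
import Vale.Agent.P048.Sat.PSL7.In28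
import Vale.Agent.P048.Sat.PSL7.In29
import Vale.Agent.P048.Sat.PSL7.In30
import Vale.Agent.P048.Sat.PSL7.In31
import Vale.Agent.P048.Sat.PSL7.In32
import Vale.Agent.P048.Sat.PSL7.In33
import Vale.Agent.P048.Sat.PSL7.In34
import Vale.Agent.P048.Sat.PSL7.In35
import Vale.Agent.P048.Sat.PSL7.In36
import Vale.Agent.P048.Sat.PSL7.In37
import Vale.Agent.P048.Sat.PSL7.Pf0
import Vale.Agent.P048.Sat.PSL7.Pf1
import Vale.Agent.P048.Sat.PSL7.Pf2
import Vale.Agent.P048.Sat.PSL7.Pf3
import Vale.Agent.P048.Sat.PSL7.Pf4
import Vale.Agent.P048.Sat.PSL7.Pf5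
import Vale.Agent.P048.Sat.PSL7.Pf6
import Vale.Agent.P048.Sat.PSL7.Pf7
import Vale.Agent.P048.Sat.PSL7.Pf8
import Vale.Agent.P048.Sat.PSL7.Pf9
import Vale.Agent.P048.Sat.PSL7.Pf10

namespace Vale.Agent.P048.Sat.PSL7

open Vale.Agent.P048.Sat Vale.Agent.P048.Sat.Turbo

theorem unsat (A : ℕ → ℕ → Prop) (hA : Model sp A) (hL : Turbo.LexNb sp A) : False := by
  have hL2 : true = true → Turbo.LexNb sp A := fun _ => hL
  have h0 : ∀ j, j < 0 → Turbo.CSat (Turbo.tauL sp A) (cls j) := fun j hj => absurd hj (Nat.not_lt_zero j)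
  have h1 := Turbo.checkIn_sound hA hL2 in0 h0
  have h2 := Turbo.checkIn_sound hA hL2 in1 h1
  have h3 := Turbo.checkIn_sound hA hL2 in2 h2
  have h4 := Turbo.checkIn_sound hA hL2 in3 h3
  have h5 := Turbo.checkIn_sound hA hL2 in4 h4
  have h6 := Turbo.checkIn_sound hA hL2 in5 h5
  have h7 := Turbo.checkIn_sound hA hL2 in6 h6
  have h8 := Turbo.checkIn_sound hA hL2 in7 h7
  have h9 := Turbo.checkIn_sound hA hL2 in8 h8
  have h10 := Turbo.checkIn_sound hA hL2 in9 h9
  have h11 := Turbo.checkIn_sound hA hL2 in10 h10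
  have h12 := Turbo.checkIn_sound hA hL2 in11 h11
  have h13 := Turbo.checkIn_sound hA hL2 in12 h12
  have h14 := Turbo.checkIn_sound hA hL2 in13 h13
  have h15 := Turbo.checkIn_sound hA hL2 in14 h14
  have h16 := Turbo.checkIn_sound hA hL2 in15 h15
  have h17 := Turbo.checkIn_sound hA hL2 in16 h16
  have h18 := Turbo.checkIn_sound hA hL2 in17 h17
  have h19 := Turbo.checkIn_sound hA hL2 in18 h18
  have h20 := Turbo.checkIn_sound hA hL2 in19 h19
  have h21 := Turbo.checkIn_sound hA hL2 in20 h20
  have h22 := Turbo.checkIn_sound hA hL2 in21 h21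
  have h23 := Turbo.checkIn_sound hA hL2 in22 h22
  have h24 := Turbo.checkIn_sound hA hL2 in23 h23
  have h25 := Turbo.checkIn_sound hA hL2 in24 h24
  have h26 := Turbo.checkIn_sound hA hL2 in25 h25
  have h27 := Turbo.checkIn_sound hA hL2 in26 h26
  have h28 := Turbo.checkIn_sound hA hL2 in27 h27
  have h29 := Turbo.checkIn_sound hA hL2 in28 h28
  have h30 := Turbo.checkIn_sound hA hL2 in29 h29
  have h31 := Turbo.checkIn_sound hA hL2 in30 h30
  have h32 := Turbo.checkIn_sound hA hL2 in31 h31
  have h33 := Turbo.checkIn_sound hA hL2 in32 h32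
  have h34 := Turbo.checkIn_sound hA hL2 in33 h33
  have h35 := Turbo.checkIn_sound hA hL2 in34 h34
  have h36 := Turbo.checkIn_sound hA hL2 in35 h35
  have h37 := Turbo.checkIn_sound hA hL2 in36 h36
  have h38 := Turbo.checkIn_sound hA hL2 in37 h37
  have h39 := Turbo.checkIn_sound hA hL2 in38 h38
  have h40 := Turbo.checkIn_sound hA hL2 in39 h39
  have h41 := Turbo.checkIn_sound hA hL2 in40 h40
  have h42 := Turbo.checkIn_sound hA hL2 in41 h41
  have h43 := Turbo.checkIn_sound hA hL2 in42 h42
  have h44 := Turbo.checkIn_sound hA hL2 in43 h43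
  have h45 := Turbo.checkIn_sound hA hL2 in44 h44
  have h46 := Turbo.checkIn_sound hA hL2 in45 h45
  have h47 := Turbo.checkIn_sound hA hL2 in46 h46
  have h48 := Turbo.checkIn_sound hA hL2 in47 h47
  have h49 := Turbo.checkIn_sound hA hL2 in48 h48
  have h50 := Turbo.checkIn_sound hA hL2 in49 h49
  have h51 := Turbo.checkIn_sound hA hL2 in50 h50
  have h52 := Turbo.checkIn_sound hA hL2 in51 h51
  have h53 := Turbo.checkIn_sound hA hL2 in52 h52
  have h54 := Turbo.checkIn_sound hA hL2 in53 h53
  have h55 := Turbo.checkIn_sound hA hL2 in54 h54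
  have h56 := Turbo.checkIn_sound hA hL2 in55 h55
  have h57 := Turbo.checkIn_sound hA hL2 in56 h56
  have h58 := Turbo.checkIn_sound hA hL2 in57 h57
  have h59 := Turbo.checkIn_sound hA hL2 in58 h58
  have h60 := Turbo.checkIn_sound hA hL2 in59 h59
  have h61 := Turbo.checkIn_sound hA hL2 in60 h60
  have h62 := Turbo.checkIn_sound hA hL2 in61 h61
  have h63 := Turbo.checkIn_sound hA hL2 in62 h62
  have h64 := Turbo.checkIn_sound hA hL2 in63 h63
  have h65 := Turbo.checkIn_sound hA hL2 in64 h64
  have h66 := Turbo.checkIn_sound hA hL2 in65 h65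
  have h67 := Turbo.checkIn_sound hA hL2 in66 h66
  have h68 := Turbo.checkIn_sound hA hL2 in67 h67
  have h69 := Turbo.checkIn_sound hA hL2 in68 h68
  have h70 := Turbo.checkIn_sound hA hL2 in69 h69
  have h71 := Turbo.checkIn_sound hA hL2 in70 h70
  have h72 := Turbo.checkIn_sound hA hL2 in71 h71
  have h73 := Turbo.checkIn_sound hA hL2 in72 h72
  have h74 := Turbo.checkIn_sound hA hL2 in73 h73
  have h75 := Turbo.checkIn_sound hA hL2 in74 h74
  have h76 := Turbo.checkIn_sound hA hL2 in75 h75
  have h77 := Turbo.checkIn_sound hA hL2 in76 h76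
  have h78 := Turbo.checkIn_sound hA hL2 in77 h77
  have h79 := Turbo.checkIn_sound hA hL2 in78 h78
  have h80 := Turbo.checkIn_sound hA hL2 in79 h79
  have h81 := Turbo.checkIn_sound hA hL2 in80 h80
  have h82 := Turbo.checkIn_sound hA hL2 in81 h81
  have h83 := Turbo.checkIn_sound hA hL2 in82 h82
  have h84 := Turbo.checkIn_sound hA hL2 in83 h83
  have h85 := Turbo.checkIn_sound hA hL2 in84 h84
  have h86 := Turbo.checkIn_sound hA hL2 in85 h85
  have h87 := Turbo.checkIn_sound hA hL2 in86 h86
  have h88 := Turbo.checkIn_sound hA hL2 in87 h87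
  have h89 := Turbo.checkIn_sound hA hL2 in88 h88
  have h90 := Turbo.checkIn_sound hA hL2 in89 h89
  have h91 := Turbo.checkIn_sound hA hL2 in90 h90
  have h92 := Turbo.checkIn_sound hA hL2 in91 h91
  have h93 := Turbo.checkIn_sound hA hL2 in92 h92
  have h94 := Turbo.checkIn_sound hA hL2 in93 h93
  have h95 := Turbo.checkIn_sound hA hL2 in94 h94
  have h96 := Turbo.checkIn_sound hA hL2 in95 h95
  have h97 := Turbo.checkIn_sound hA hL2 in96 h96
  have h98 := Turbo.checkIn_sound hA hL2 in97 h97
  have h99 := Turbo.checkIn_sound hA hL2 in98 h98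
  have h100 := Turbo.checkIn_sound hA hL2 in99 h99
  have h101 := Turbo.checkIn_sound hA hL2 in100 h100
  have h102 := Turbo.checkIn_sound hA hL2 in101 h101
  have h103 := Turbo.checkIn_sound hA hL2 in102 h102
  have h104 := Turbo.checkIn_sound hA hL2 in103 h103
  have h105 := Turbo.checkIn_sound hA hL2 in104 h104
  have h106 := Turbo.checkIn_sound hA hL2 in105 h105
  have h107 := Turbo.checkIn_sound hA hL2 in106 h106
  have h108 := Turbo.checkIn_sound hA hL2 in107 h107
  have h109 := Turbo.checkIn_sound hA hL2 in108 h108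
  have h110 := Turbo.checkIn_sound hA hL2 in109 h109
  have h111 := Turbo.checkIn_sound hA hL2 in110 h110
  have h112 := Turbo.checkIn_sound hA hL2 in111 h111
  have h113 := Turbo.checkIn_sound hA hL2 in112 h112
  have h114 := Turbo.checkIn_sound hA hL2 in113 h113
  have h115 := Turbo.checkIn_sound hA hL2 in114 h114
  have h116 := Turbo.checkIn_sound hA hL2 in115 h115
  have h117 := Turbo.checkIn_sound hA hL2 in116 h116
  have h118 := Turbo.checkIn_sound hA hL2 in117 h117
  have h119 := Turbo.checkIn_sound hA hL2 in118 h118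
  have h120 := Turbo.checkIn_sound hA hL2 in119 h119
  have h121 := Turbo.checkIn_sound hA hL2 in120 h120
  have h122 := Turbo.checkIn_sound hA hL2 in121 h121
  have h123 := Turbo.checkIn_sound hA hL2 in122 h122
  have h124 := Turbo.checkIn_sound hA hL2 in123 h123
  have h125 := Turbo.checkIn_sound hA hL2 in124 h124
  have h126 := Turbo.checkIn_sound hA hL2 in125 h125
  have h127 := Turbo.checkIn_sound hA hL2 in126 h126
  have h128 := Turbo.checkIn_sound hA hL2 in127 h127
  have h129 := Turbo.checkIn_sound hA hL2 in128 h128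
  have h130 := Turbo.checkIn_sound hA hL2 in129 h129
  have h131 := Turbo.checkIn_sound hA hL2 in130 h130
  have h132 := Turbo.checkIn_sound hA hL2 in131 h131
  have h133 := Turbo.checkIn_sound hA hL2 in132 h132
  have h134 := Turbo.checkIn_sound hA hL2 in133 h133
  have h135 := Turbo.checkIn_sound hA hL2 in134 h134
  have h136 := Turbo.checkIn_sound hA hL2 in135 h135
  have h137 := Turbo.checkIn_sound hA hL2 in136 h136
  have h138 := Turbo.checkIn_sound hA hL2 in137 h137
  have h139 := Turbo.checkIn_sound hA hL2 in138 h138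
  have h140 := Turbo.checkIn_sound hA hL2 in139 h139
  have h141 := Turbo.checkIn_sound hA hL2 in140 h140
  have h142 := Turbo.checkIn_sound hA hL2 in141 h141
  have h143 := Turbo.checkIn_sound hA hL2 in142 h142
  have h144 := Turbo.checkIn_sound hA hL2 in143 h143
  have h145 := Turbo.checkIn_sound hA hL2 in144 h144
  have h146 := Turbo.checkIn_sound hA hL2 in145 h145
  have h147 := Turbo.checkIn_sound hA hL2 in146 h146
  have h148 := Turbo.checkIn_sound hA hL2 in147 h147
  have h149 := Turbo.checkIn_sound hA hL2 in148 h148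
  have h150 := Turbo.checkIn_sound hA hL2 in149 h149
  have h151 := Turbo.checkIn_sound hA hL2 in150 h150
  have h152 := Turbo.checkIn_sound hA hL2 in151 h151
  have h153 := Turbo.checkIn_sound hA hL2 in152 h152
  have h154 := Turbo.checkIn_sound hA hL2 in153 h153
  have h155 := Turbo.checkIn_sound hA hL2 in154 h154
  have h156 := Turbo.checkIn_sound hA hL2 in155 h155
  have h157 := Turbo.checkIn_sound hA hL2 in156 h156
  have h158 := Turbo.checkIn_sound hA hL2 in157 h157
  have h159 := Turbo.checkIn_sound hA hL2 in158 h158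
  have h160 := Turbo.checkIn_sound hA hL2 in159 h159
  have h161 := Turbo.checkIn_sound hA hL2 in160 h160
  have h162 := Turbo.checkIn_sound hA hL2 in161 h161
  have h163 := Turbo.checkIn_sound hA hL2 in162 h162
  have h164 := Turbo.checkIn_sound hA hL2 in163 h163
  have h165 := Turbo.checkIn_sound hA hL2 in164 h164
  have h166 := Turbo.checkIn_sound hA hL2 in165 h165
  have h167 := Turbo.checkIn_sound hA hL2 in166 h166
  have h168 := Turbo.checkIn_sound hA hL2 in167 h167
  have h169 := Turbo.checkIn_sound hA hL2 in168 h168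
  have h170 := Turbo.checkIn_sound hA hL2 in169 h169
  have h171 := Turbo.checkIn_sound hA hL2 in170 h170
  have h172 := Turbo.checkIn_sound hA hL2 in171 h171
  have h173 := Turbo.checkIn_sound hA hL2 in172 h172
  have h174 := Turbo.checkIn_sound hA hL2 in173 h173
  have h175 := Turbo.checkIn_sound hA hL2 in174 h174
  have h176 := Turbo.checkIn_sound hA hL2 in175 h175
  have h177 := Turbo.checkIn_sound hA hL2 in176 h176
  have h178 := Turbo.checkIn_sound hA hL2 in177 h177
  have h179 := Turbo.checkIn_sound hA hL2 in178 h178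
  have h180 := Turbo.checkIn_sound hA hL2 in179 h179
  have h181 := Turbo.checkIn_sound hA hL2 in180 h180
  have h182 := Turbo.checkIn_sound hA hL2 in181 h181
  have h183 := Turbo.checkIn_sound hA hL2 in182 h182
  have h184 := Turbo.checkIn_sound hA hL2 in183 h183
  have h185 := Turbo.checkIn_sound hA hL2 in184 h184
  have h186 := Turbo.checkIn_sound hA hL2 in185 h185
  have h187 := Turbo.checkIn_sound hA hL2 in186 h186
  have h188 := Turbo.checkIn_sound hA hL2 in187 h187
  have h189 := Turbo.checkIn_sound hA hL2 in188 h188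
  have h190 := Turbo.checkIn_sound hA hL2 in189 h189
  have h191 := Turbo.checkIn_sound hA hL2 in190 h190
  have h192 := Turbo.checkIn_sound hA hL2 in191 h191
  have h193 := Turbo.checkIn_sound hA hL2 in192 h192
  have h194 := Turbo.checkIn_sound hA hL2 in193 h193
  have h195 := Turbo.checkIn_sound hA hL2 in194 h194
  have h196 := Turbo.checkIn_sound hA hL2 in195 h195
  have h197 := Turbo.checkIn_sound hA hL2 in196 h196
  have h198 := Turbo.checkIn_sound hA hL2 in197 h197
  have h199 := Turbo.checkIn_sound hA hL2 in198 h198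
  have h200 := Turbo.checkIn_sound hA hL2 in199 h199
  have h201 := Turbo.checkIn_sound hA hL2 in200 h200
  have h202 := Turbo.checkIn_sound hA hL2 in201 h201
  have h203 := Turbo.checkIn_sound hA hL2 in202 h202
  have h204 := Turbo.checkIn_sound hA hL2 in203 h203
  have h205 := Turbo.checkIn_sound hA hL2 in204 h204
  have h206 := Turbo.checkIn_sound hA hL2 in205 h205
  have h207 := Turbo.checkIn_sound hA hL2 in206 h206
  have h208 := Turbo.checkIn_sound hA hL2 in207 h207
  have h209 := Turbo.checkIn_sound hA hL2 in208 h208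
  have h210 := Turbo.checkIn_sound hA hL2 in209 h209
  have h211 := Turbo.checkIn_sound hA hL2 in210 h210
  have h212 := Turbo.checkIn_sound hA hL2 in211 h211
  have h213 := Turbo.checkIn_sound hA hL2 in212 h212
  have h214 := Turbo.checkIn_sound hA hL2 in213 h213
  have h215 := Turbo.checkIn_sound hA hL2 in214 h214
  have h216 := Turbo.checkIn_sound hA hL2 in215 h215
  have h217 := Turbo.checkIn_sound hA hL2 in216 h216
  have h218 := Turbo.checkIn_sound hA hL2 in217 h217
  have h219 := Turbo.checkIn_sound hA hL2 in218 h218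
  have h220 := Turbo.checkIn_sound hA hL2 in219 h219
  have h221 := Turbo.checkIn_sound hA hL2 in220 h220
  have h222 := Turbo.checkIn_sound hA hL2 in221 h221
  have h223 := Turbo.checkIn_sound hA hL2 in222 h222
  have h224 := Turbo.checkIn_sound hA hL2 in223 h223
  have h225 := Turbo.checkIn_sound hA hL2 in224 h224
  have h226 := Turbo.checkIn_sound hA hL2 in225 h225
  have h227 := Turbo.checkIn_sound hA hL2 in226 h226
  have h228 := Turbo.checkIn_sound hA hL2 in227 h227
  have h229 := Turbo.checkIn_sound hA hL2 in228 h228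
  have h230 := Turbo.checkIn_sound hA hL2 in229 h229
  have h231 := Turbo.checkIn_sound hA hL2 in230 h230
  have h232 := Turbo.checkIn_sound hA hL2 in231 h231
  have h233 := Turbo.checkIn_sound hA hL2 in232 h232
  have h234 := Turbo.checkIn_sound hA hL2 in233 h233
  have h235 := Turbo.checkIn_sound hA hL2 in234 h234
  have h236 := Turbo.checkIn_sound hA hL2 in235 h235
  have h237 := Turbo.checkIn_sound hA hL2 in236 h236
  have h238 := Turbo.checkIn_sound hA hL2 in237 h237
  have h239 := Turbo.checkIn_sound hA hL2 in238 h238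
  have h240 := Turbo.checkIn_sound hA hL2 in239 h239
  have h241 := Turbo.checkIn_sound hA hL2 in240 h240
  have h242 := Turbo.checkIn_sound hA hL2 in241 h241
  have h243 := Turbo.checkIn_sound hA hL2 in242 h242
  have h244 := Turbo.checkIn_sound hA hL2 in243 h243
  have h245 := Turbo.checkIn_sound hA hL2 in244 h244
  have h246 := Turbo.checkIn_sound hA hL2 in245 h245
  have h247 := Turbo.checkIn_sound hA hL2 in246 h246
  have h248 := Turbo.checkIn_sound hA hL2 in247 h247
  have h249 := Turbo.checkIn_sound hA hL2 in248 h248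
  have h250 := Turbo.checkIn_sound hA hL2 in249 h249
  have h251 := Turbo.checkIn_sound hA hL2 in250 h250
  have h252 := Turbo.checkIn_sound hA hL2 in251 h251
  have h253 := Turbo.checkIn_sound hA hL2 in252 h252
  have h254 := Turbo.checkIn_sound hA hL2 in253 h253
  have h255 := Turbo.checkIn_sound hA hL2 in254 h254
  have h256 := Turbo.checkIn_sound hA hL2 in255 h255
  have h257 := Turbo.checkIn_sound hA hL2 in256 h256
  have h258 := Turbo.checkIn_sound hA hL2 in257 h257
  have h259 := Turbo.checkIn_sound hA hL2 in258 h258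
  have h260 := Turbo.checkIn_sound hA hL2 in259 h259
  have h261 := Turbo.checkIn_sound hA hL2 in260 h260
  have h262 := Turbo.checkIn_sound hA hL2 in261 h261
  have h263 := Turbo.checkIn_sound hA hL2 in262 h262
  have h264 := Turbo.checkIn_sound hA hL2 in263 h263
  have h265 := Turbo.checkIn_sound hA hL2 in264 h264
  have h266 := Turbo.checkIn_sound hA hL2 in265 h265
  have h267 := Turbo.checkIn_sound hA hL2 in266 h266
  have h268 := Turbo.checkIn_sound hA hL2 in267 h267
  have h269 := Turbo.checkIn_sound hA hL2 in268 h268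
  have h270 := Turbo.checkIn_sound hA hL2 in269 h269
  have h271 := Turbo.checkIn_sound hA hL2 in270 h270
  have h272 := Turbo.checkIn_sound hA hL2 in271 h271
  have h273 := Turbo.checkIn_sound hA hL2 in272 h272
  have h274 := Turbo.checkIn_sound hA hL2 in273 h273
  have h275 := Turbo.checkIn_sound hA hL2 in274 h274
  have h276 := Turbo.checkIn_sound hA hL2 in275 h275
  have h277 := Turbo.checkIn_sound hA hL2 in276 h276
  have h278 := Turbo.checkIn_sound hA hL2 in277 h277
  have h279 := Turbo.checkIn_sound hA hL2 in278 h278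
  have h280 := Turbo.checkIn_sound hA hL2 in279 h279
  have h281 := Turbo.checkIn_sound hA hL2 in280 h280
  have h282 := Turbo.checkIn_sound hA hL2 in281 h281
  have h283 := Turbo.checkIn_sound hA hL2 in282 h282
  have h284 := Turbo.checkIn_sound hA hL2 in283 h283
  have h285 := Turbo.checkIn_sound hA hL2 in284 h284
  have h286 := Turbo.checkIn_sound hA hL2 in285 h285
  have h287 := Turbo.checkIn_sound hA hL2 in286 h286
  have h288 := Turbo.checkIn_sound hA hL2 in287 h287
  have h289 := Turbo.checkIn_sound hA hL2 in288 h288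
  have h290 := Turbo.checkIn_sound hA hL2 in289 h289
  have h291 := Turbo.checkIn_sound hA hL2 in290 h290
  have h292 := Turbo.checkIn_sound hA hL2 in291 h291
  have h293 := Turbo.checkIn_sound hA hL2 in292 h292
  have h294 := Turbo.checkIn_sound hA hL2 in293 h293
  have h295 := Turbo.checkIn_sound hA hL2 in294 h294
  have h296 := Turbo.checkIn_sound hA hL2 in295 h295
  have h297 := Turbo.checkIn_sound hA hL2 in296 h296
  have h298 := Turbo.checkIn_sound hA hL2 in297 h297
  have h299 := Turbo.checkIn_sound hA hL2 in298 h298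
  have h300 := Turbo.checkIn_sound hA hL2 in299 h299
  have h301 := Turbo.checkIn_sound hA hL2 in300 h300
  have h302 := Turbo.checkRange_sound pf0 h301
  have h303 := Turbo.checkRange_sound pf1 h302
  have h304 := Turbo.checkRange_sound pf2 h303
  have h305 := Turbo.checkRange_sound pf3 h304
  have h306 := Turbo.checkRange_sound pf4 h305
  have h307 := Turbo.checkRange_sound pf5 h306
  have h308 := Turbo.checkRange_sound pf6 h307
  have h309 := Turbo.checkRange_sound pf7 h308
  have h310 := Turbo.checkRange_sound pf8 h309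
  have h311 := Turbo.checkRange_sound pf9 h310
  have h312 := Turbo.checkRange_sound pf10 h311
  have h313 := Turbo.checkRange_sound pf11 h312
  have h314 := Turbo.checkRange_sound pf12 h313
  have h315 := Turbo.checkRange_sound pf13 h314
  have h316 := Turbo.checkRange_sound pf14 h315
  have h317 := Turbo.checkRange_sound pf15 h316
  have h318 := Turbo.checkRange_sound pf16 h317
  have h319 := Turbo.checkRange_sound pf17 h318
  have h320 := Turbo.checkRange_sound pf18 h319
  have h321 := Turbo.checkRange_sound pf19 h320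
  have h322 := Turbo.checkRange_sound pf20 h321
  have h323 := Turbo.checkRange_sound pf21 h322
  have h324 := Turbo.checkRange_sound pf22 h323
  have h325 := Turbo.checkRange_sound pf23 h324
  have h326 := Turbo.checkRange_sound pf24 h325
  have h327 := Turbo.checkRange_sound pf25 h326
  have h328 := Turbo.checkRange_sound pf26 h327
  have h329 := Turbo.checkRange_sound pf27 h328
  have h330 := Turbo.checkRange_sound pf28 h329
  have h331 := Turbo.checkRange_sound pf29 h330
  have h332 := Turbo.checkRange_sound pf30 h331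
  have h333 := Turbo.checkRange_sound pf31 h332
  have h334 := Turbo.checkRange_sound pf32 h333
  have h335 := Turbo.checkRange_sound pf33 h334
  have h336 := Turbo.checkRange_sound pf34 h335
  have h337 := Turbo.checkRange_sound pf35 h336
  have h338 := Turbo.checkRange_sound pf36 h337
  have h339 := Turbo.checkRange_sound pf37 h338
  have h340 := Turbo.checkRange_sound pf38 h339
  have h341 := Turbo.checkRange_sound pf39 h340
  have h342 := Turbo.checkRange_sound pf40 h341
  have h343 := Turbo.checkRange_sound pf41 h342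
  have h344 := Turbo.checkRange_sound pf42 h343
  have h345 := Turbo.checkRange_sound pf43 h344
  have h346 := Turbo.checkRange_sound pf44 h345
  have h347 := Turbo.checkRange_sound pf45 h346
  have h348 := Turbo.checkRange_sound pf46 h347
  have h349 := Turbo.checkRange_sound pf47 h348
  have h350 := Turbo.checkRange_sound pf48 h349
  have h351 := Turbo.checkRange_sound pf49 h350
  have h352 := Turbo.checkRange_sound pf50 h351
  have h353 := Turbo.checkRange_sound pf51 h352
  have h354 := Turbo.checkRange_sound pf52 h353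
  have h355 := Turbo.checkRange_sound pf53 h354
  have h356 := Turbo.checkRange_sound pf54 h355
  have h357 := Turbo.checkRange_sound pf55 h356
  have h358 := Turbo.checkRange_sound pf56 h357
  have h359 := Turbo.checkRange_sound pf57 h358
  have h360 := Turbo.checkRange_sound pf58 h359
  have h361 := Turbo.checkRange_sound pf59 h360
  have h362 := Turbo.checkRange_sound pf60 h361
  have h363 := Turbo.checkRange_sound pf61 h362
  have h364 := Turbo.checkRange_sound pf62 h363
  have h365 := Turbo.checkRange_sound pf63 h364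
  have h366 := Turbo.checkRange_sound pf64 h365
  have h367 := Turbo.checkRange_sound pf65 h366
  have h368 := Turbo.checkRange_sound pf66 h367
  have h369 := Turbo.checkRange_sound pf67 h368
  have h370 := Turbo.checkRange_sound pf68 h369
  have h371 := Turbo.checkRange_sound pf69 h370
  have h372 := Turbo.checkRange_sound pf70 h371
  have h373 := Turbo.checkRange_sound pf71 h372
  have h374 := Turbo.checkRange_sound pf72 h373
  have h375 := Turbo.checkRange_sound pf73 h374
  have h376 := Turbo.checkRange_sound pf74 h375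
  have h377 := Turbo.checkRange_sound pf75 h376
  have h378 := Turbo.checkRange_sound pf76 h377
  have h379 := Turbo.checkRange_sound pf77 h378
  have h380 := Turbo.checkRange_sound pf78 h379
  have h381 := Turbo.checkRange_sound pf79 h380
  have h382 := Turbo.checkRange_sound pf80 h381
  have h383 := Turbo.checkRange_sound pf81 h382
  have h384 := Turbo.checkRange_sound pf82 h383
  exact Turbo.not_sat_of_shr (c := cls 210985) (by decide +kernel) (h384 210985 (by norm_num))

end Vale.Agent.P048.Sat.PSL7
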